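import Vale.Agent.P144DA.Lg
import Vale.Agent.P144E.Ge1b.Gap

/-!
The estimates on a cluster of fluxes and the spectral gap, with polynomial constants.
-/

namespace Vale.Agent.P144DA

open Finset Matrix Vale.Agent.P144Z

variable {Λ : ℝ → ℕ}

section

open E5

/-- Subtraction of the singular modes. -/
theorem modesP (pΛ : PolN Λ) : ∃ Q : ℝ → ℝ, Pol Q ∧ ∀ X, 0 ≤ Q X ∧ ∀ (M : ℕ) [NeZero M] (A A' : Gauge M)
    (c : Tor M) (R r : ℕ), Cluster A A' c R r → 256 ≤ r → r ≤ R → R ≤ Λ X * r → 16 * R ≤ M →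
    ∀ φ : Tor M × Fin 4 → ℝ, ∃ ψ : Tor M × Fin 4 → ℝ,
      (∀ f, flux A f = -1 → cnr f ⬝ᵥ (φ - ψ) = 0) ∧ l2sq univ ψ ≤ Q X * (r * gradsq A univ φ) ∧
      r * l2sq univ (Dm A *ᵥ ψ) ≤ Q X * gradsq A univ φ := by
  classical
  obtain ⟨Ch, hCh, hh⟩ := hardy_flux
  obtain ⟨Cs, hCs, hs⟩ := smooth_mode
  refine ⟨fun X => ((6 * Λ X + 1) ^ 2) ^ 2 * (16 * Ch * Cs), by unfold PolN at pΛ; fun_prop,
    fun X => ⟨by positivity, ?_⟩⟩
  beta_reduce
  generalize Λ X = Λ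
  intro M _ A A' c R r hc hr hrR hΛ hM φ
  obtain ⟨F, hmem, hcard⟩ : ∃ F : Finset (Tor M), (∀ f, f ∈ F ↔ flux A f = -1) ∧
      (F.card : ℝ) ^ 2 ≤ ((6 * Λ + 1) ^ 2) ^ 2 :=
    ⟨_, fun f => by simp, pow_le_pow_left₀ (Nat.cast_nonneg _) (card_flux hc hr hΛ) 2⟩
  choose! u hu1 hu2 hu3 hu4 using fun f (hf : f ∈ F) =>
    hs M A hc.sign f r hr (by omega) ((hmem f).1 hf) fun f' hne ht =>
      flux_one hc.sign fun h' => absurd (hc.sep f' f h' ((hmem f).1 hf) hne) (by omega)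
  have hr0 : (0 : ℝ) < r := by exact_mod_cast (by omega : 0 < r)
  have hd : ∀ f ∈ F, (cnr f ⬝ᵥ φ) ^ 2 ≤ 16 * (Ch * gradsq A univ φ) := by
    intro f hf
    have k : ∀ a, φ (f, a) ^ 2 ≤ Ch * gradsq A univ φ := fun a =>
      (hh M A hc.sign f ((hmem f).1 hf) φ a).trans
        (mul_le_mul_of_nonneg_left (gradsq_le_univ _ _ _) (by linarith))
    rw [cnr_dot]
    exact four_sq (k 0) (k 1) (k 2) (k 3)
  have hlow := fun f (hf : f ∈ F) => (hsq_low A r univ (u f)).trans (hu3 f hf)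
  have hG := gradsq_nonneg A univ φ
  generalize gradsq A univ φ = G at hd hG ⊢
  refine ⟨∑ f ∈ F, (cnr f ⬝ᵥ φ) • u f, fun f hf => ?_, ?_, ?_⟩
  · have hf' := (hmem f).2 hf
    rw [dotProduct_sub, dotProduct_sum, sum_eq_single f (fun f' hf'' hne => ?_)
      (fun h => absurd hf' h), dotProduct_smul, hu1 f hf', smul_eq_mul, mul_one, sub_self]
    have t := hc.sep f f' hf ((hmem f').1 hf'') hne.symm
    have k : ∀ a, u f' (f, a) = 0 := fun a => hu2 f' hf'' (f, a) (by dsimp only; omega)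
    rw [dotProduct_smul, cnr_dot f (u f'), k, k, k, k]
    simp
  · refine (l2sq_sum_le univ F _ u (c := Cs * r) (by positivity) hd fun f hf => ?_).trans ?_
    · linarith [hlow f hf, mul_nonneg (sq_nonneg (r : ℝ)) (l2sq_nonneg univ (Dm A *ᵥ u f))]
    · exact (mul_le_mul_of_nonneg_right hcard (by positivity)).trans (le_of_eq (by ring))
  · rw [mulVec_sum, ← le_div_iff₀' hr0]
    simp only [mulVec_smul]
    refine (l2sq_sum_le univ F _ _ (c := Cs / r) (by positivity) hd fun f hf => ?_).trans ?_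
    · rw [le_div_iff₀ hr0]
      refine le_of_mul_le_mul_right ?_ hr0
      linarith [hlow f hf, l2sq_nonneg univ (u f)]
    · exact (mul_le_mul_of_nonneg_right hcard (by positivity)).trans (le_of_eq (by ring))

/-- The Poincare inequality on the cluster. -/
theorem poin_clusP (pΛ : PolN Λ) : ∃ K : ℝ → ℝ, Pol K ∧ ∀ X, 0 ≤ K X ∧ ∀ (M : ℕ) [NeZero M]
    (A A' : Gauge M) (c : Tor M)
    (R r : ℕ), Cluster A A' c R r → (∃ f, flux A f = -1) → 256 ≤ r → r ≤ R → R ≤ Λ X * r →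
    16 * R ≤ M → ∀ φ : Tor M × Fin 4 → ℝ,
    l2sq (ball c (4 * R)) φ ≤ K X * (R ^ 2 * gradsq A univ φ) := by
  obtain ⟨Cp, hCp, hp⟩ := poin_flux
  obtain ⟨Ce, hCe, he⟩ := poin_ext
  refine ⟨fun X => Ce * (12 * Λ X) ^ 2 * (Cp + 16), by unfold PolN at pΛ; fun_prop,
    fun X => ⟨by positivity, ?_⟩⟩
  beta_reduce
  generalize Λ X = Λ
  rintro M _ A A' c R r hc ⟨f, hf⟩ hr hrR hΛ hM φ
  have h1 := hp M A hc.sign f (r / 2) (by omega) (by omega) hf (fun f' hne ht =>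
    flux_one hc.sign fun h' => absurd (hc.sep f' f h' hf hne) (by omega)) φ
  have t := hc.near f hf
  have h2 := he M A hc.sign c f (4 * R) (r / 2) (by omega) (by omega) (by omega) φ
  have k1 : ((r / 2 : ℕ) : ℝ) ≤ R := by exact_mod_cast (by omega : r / 2 ≤ R)
  have k2 : ((4 * R : ℕ) : ℝ) / (r / 2 : ℕ) ≤ 12 * Λ := by
    rw [div_le_iff₀ (by exact_mod_cast (by omega : 0 < r / 2))]
    have : 4 * R ≤ 12 * Λ * (r / 2) := by
      nlinarith [Nat.mul_le_mul_left Λ (by omega : r ≤ 3 * (r / 2))]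
    exact_mod_cast this
  have a1 := gradsq_le_univ A (ball f (r / 2 + 1)) φ
  have a2 := gradsq_nonneg A (ball f (r / 2 + 1)) φ
  have a3 := gradsq_le_univ A (ball c (4 * R)) φ
  have a4 := gradsq_nonneg A (ball c (4 * R)) φ
  have a5 := l2sq_nonneg (ball f (r / 2)) φ
  generalize gradsq A univ φ = G at *
  generalize gradsq A (ball f (r / 2 + 1)) φ = G₁ at *
  generalize gradsq A (ball c (4 * R)) φ = G₂ at *
  generalize l2sq (ball f (r / 2)) φ = X at *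
  have h3 : X ≤ Cp * R ^ 2 * G := h1.trans (by gcongr)
  calc _ ≤ _ := h2
    _ ≤ Ce * (12 * Λ) ^ 2 * (Cp * R ^ 2 * G + ((4 * R : ℕ) : ℝ) ^ 2 * G) := by gcongr
    _ = _ := by push_cast; ring

/-- The field on the cluster. -/
theorem cluster_estP (pΛ : PolN Λ) : ∃ C : ℝ → ℝ, Pol C ∧ ∀ X, 1 ≤ C X ∧ ∀ (M : ℕ) [NeZero M]
    (A A' : Gauge M) (c : Tor M)
    (R r : ℕ), Cluster A A' c R r → (∃ f, flux A f = -1) → 256 ≤ r → r ≤ R → R ≤ Λ X * r →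
    16 * R ≤ M → ∀ φ : Tor M × Fin 4 → ℝ, l2sq (ball c (4 * R)) φ ≤ C X *
      (R ^ 2 * l2sq univ (Dm A *ᵥ φ) + R * (√(l2sq univ φ) * √(l2sq univ (Dm A *ᵥ φ)))) := by
  obtain ⟨Ca, hCa, ha⟩ := energy_a
  obtain ⟨Cb, hCb, hb⟩ := energy_b
  obtain ⟨Q, pQ, hm⟩ := modesP pΛ
  obtain ⟨K, pK, hp⟩ := poin_clusP pΛ
  refine ⟨fun X => 1 + (4 * K X * Cb * (1 + Q X * Λ X * Ca) + 2 * Q X * Ca),
    by unfold PolN at pΛ; fun_prop, fun X => ?_⟩
  obtain ⟨hQ, hm⟩ := hm X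
  obtain ⟨hK, hp⟩ := hp X
  beta_reduce
  generalize Λ X = Λ at *
  refine ⟨le_add_of_nonneg_right (by positivity), fun M _ A A' c R r hc hf hr hrR hΛ hM φ => ?_⟩
  obtain ⟨ψ, h0, h1, h2⟩ := hm M A A' c R r hc hr hrR hΛ hM φ
  have h3 := (hb M A hc.sign _ h0).trans (mul_le_mul_of_nonneg_left
    ((congrArg (l2sq univ) (mulVec_sub (Dm A) φ ψ)).trans_le (l2sq_sub_le _ _ _)) (by linarith))
  have h5 := l2sq_add_le (ball c (4 * R)) (φ - ψ) ψ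
  rw [sub_add_cancel] at h5
  refine clus_num hK hQ hCa hCb (l2sq_nonneg _ _)
    (mul_nonneg (Real.sqrt_nonneg _) (Real.sqrt_nonneg _)) (gradsq_nonneg A univ φ)
    (l2sq_nonneg _ _) (Nat.cast_nonneg Λ)
    (by exact_mod_cast (by omega : 1 ≤ R)) (by exact_mod_cast hrR) (by exact_mod_cast hΛ) ?_
    ((l2sq_le_univ _ ψ).trans h1) h2 h3 (hp M A A' c R r hc hf hr hrR hΛ hM _) h5
  exact (ha M A hc.sign φ univ (by simp)).trans (mul_le_mul_of_nonneg_left (add_le_add le_rfl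
    (mul_le_mul_of_nonneg_right (Real.sqrt_le_sqrt (l2sq_le_univ _ φ)) (Real.sqrt_nonneg _)))
    (by linarith))

end

section

open B3b

theorem clus_aprP (pΛ : PolN Λ) : ∃ K : ℝ → ℝ, Pol K ∧ ∀ X, 1 ≤ K X ∧ ∀ (M : ℕ) [NeZero M]
    (B : Gauge M) (T r : ℕ),
    Cluster B 1 0 (T + 1) r → 256 ≤ r → r ≤ T → T ≤ Λ X * r → 32 * T ≤ M →
    ∀ ζ, SuppIn ζ 0 (T + 1 + 1 + T) → l2sq univ ζ ≤ (K X * T) ^ 2 * l2sq univ (Dm B *ᵥ ζ) := by
  obtain ⟨C, pC, hc⟩ := cluster_estP (pΛ.add (PolN.const 1))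
  obtain ⟨K, hK, hk⟩ := flat_apr
  refine ⟨fun X => 4 * C X + 3 * K, by fun_prop, fun X => ?_⟩
  obtain ⟨hC, hc⟩ := hc X
  beta_reduce
  generalize Λ X = Λ at *
  generalize C X = C at *
  refine ⟨by linarith, fun M _ B T r h h1 h2 h3 h4 ζ hζ => ?_⟩
  have hE := E5.l2sq_nonneg univ (Dm B *ᵥ ζ)
  have hN := E5.l2sq_nonneg univ ζ
  have hT : (256 : ℝ) ≤ T := by exact_mod_cast h1.trans h2
  by_cases hf : ∃ f, flux B f = -1
  · have h5 := hc M B 1 0 (T + 1) r h hf h1 (by omega) (by rw [add_mul]; omega) (by omega) ζ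
    have h6 : l2sq univ ζ = l2sq (ball 0 (4 * (T + 1))) ζ :=
      (sum_subset (subset_univ _) fun x _ hx => sum_eq_zero fun a _ => by
        rw [E5.mem_ball] at hx
        rw [hζ (x, a) (by simp only; omega), zero_pow two_ne_zero]).symm
    rw [← h6] at h5
    push_cast at h5
    generalize l2sq univ (Dm B *ᵥ ζ) = E at *
    generalize l2sq univ ζ = N at *
    have k1 : C * ((T + 1) * (√N * √E)) ≤ N / 2 + C ^ 2 * (T + 1) ^ 2 * E / 2 := by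
      have k := sq_nonneg (√N - C * (T + 1) * √E)
      rw [sub_sq, mul_pow, mul_pow, Real.sq_sqrt hN, Real.sq_sqrt hE] at k
      linarith
    have k2 : N ≤ (2 * C + C ^ 2) * (T + 1) ^ 2 * E := by linarith
    calc N ≤ (2 * C) ^ 2 * (2 * T) ^ 2 * E := k2.trans (by gcongr <;> nlinarith)
      _ = (4 * C * T) ^ 2 * E := by ring
      _ ≤ _ := by gcongr; linarith
  · refine (hk M B h.sign (fun f => E5.flux_one h.sign fun hf' => hf ⟨f, hf'⟩) 0 _ (by omega)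
      ζ hζ).trans (mul_le_mul_of_nonneg_right ?_ hE)
    push_cast
    calc _ ≤ K ^ 2 * (3 * T) ^ 2 := by gcongr <;> nlinarith
      _ = (3 * K * T) ^ 2 := by ring
      _ ≤ _ := by gcongr; linarith

/-- The test function on a cluster of fluxes. -/
theorem test_fnP (pΛ : PolN Λ) : ∃ K : ℝ → ℝ, Pol K ∧ ∀ X, 1 ≤ K X ∧ ∀ (M : ℕ) [NeZero M]
    (B : Gauge M) (T r : ℕ),
    Cluster B 1 0 (T + 1) r → 256 ≤ r → r ≤ T → T ≤ Λ X * r → 32 * T ≤ M →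
    ∀ ζ, SuppIn ζ 0 (T + 1) → ∃ g g' : Tor M × Fin 4 → ℝ, ζ ⬝ᵥ (Dm B *ᵥ g) = l2sq univ ζ ∧
      l2sq univ g ≤ (K X * T) ^ 2 * l2sq univ ζ ∧
      (∀ t : Tor M → ℝ, (∀ f, t f ≠ 0 → flux B f = -1) →
        (∑ f, t f * (cnr f ⬝ᵥ g)) ^ 2 ≤ (∑ f, t f ^ 2) * (K X * T * l2sq univ ζ)) ∧
      SuppIn g' 0 (T + 1 + 1 + T) ∧ √(l2sq univ g') * √(gradsq B univ g') ≤ K X * T * l2sq univ ζ ∧
      ∀ s : Tor M × Fin 4, Flat B s.1 (r / 2) → g s = g' s := by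
  classical
  obtain ⟨K, pK, hk⟩ := clus_aprP pΛ
  obtain ⟨Cs, hCs, hs⟩ := solve_cut
  obtain ⟨Ca, hCa, ha⟩ := energy_a
  obtain ⟨Cb, hCb, hb⟩ := energy_b
  obtain ⟨Ch, hCh, hh⟩ := hardy_flux
  obtain ⟨Cc, hCc, hc⟩ := l2sq_cutoff
  refine ⟨fun X => K X + (6 * (Λ X + 1 : ℕ) + 1) ^ 2 * (16 * (Ch * (Ca * (2 + Cs * K X ^ 2 +
    K X * (2 + Cs * K X ^ 2))))) + K X * (Cb * (2 * (Cc * (3 * Λ X * K X) ^ 2) +
      2 * (2 + Cs * K X ^ 2))), by unfold PolN at pΛ; push_cast; fun_prop, fun X => ?_⟩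
  obtain ⟨hK, hk⟩ := hk X
  beta_reduce
  generalize Λ X = Λ at *
  generalize K X = K at *
  obtain ⟨K₁, hK₁, e1⟩ : ∃ K₁, 1 ≤ K₁ ∧ K₁ = 2 + Cs * K ^ 2 := ⟨_, by nlinarith, rfl⟩
  obtain ⟨K₂, hK₂, e2⟩ : ∃ K₂, 0 ≤ K₂ ∧
    K₂ = (6 * (Λ + 1 : ℕ) + 1) ^ 2 * (16 * (Ch * (Ca * (K₁ + K * K₁)))) := ⟨_, by positivity, rfl⟩
  obtain ⟨K₃, hK₃, e3⟩ : ∃ K₃, 1 ≤ K₃ ∧ K₃ = Cb * (2 * (Cc * (3 * Λ * K) ^ 2) + 2 * K₁) :=
    ⟨_, one_le_mul_of_one_le_of_one_le hCb (by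
      linarith [mul_nonneg (zero_le_one.trans hCc) (sq_nonneg (3 * Λ * K))]), rfl⟩
  have hKK : 0 ≤ K * K₃ := by positivity
  rw [← e1, ← e2, ← e3]
  refine ⟨by linarith, fun M _ B T r h h1 h2 h3 h4 ζ hζ => ?_⟩
  have hB := h.sign
  have hN := E5.l2sq_nonneg univ ζ
  have hT : (1 : ℝ) ≤ T := by exact_mod_cast (by omega : 1 ≤ T)
  obtain ⟨g, g1, g2, g3, g4⟩ := hs M B hB 0 (T + 1) T ((K * T) ^ 2) (by omega) (sq_nonneg _)
    (hk M B T r h h1 h2 h3 h4) ζ hζ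
  have g5 : l2sq univ (Dm B *ᵥ g) ≤ K₁ * l2sq univ ζ :=
    le_of_mul_le_mul_left (g4.trans (le_of_eq (by rw [e1]; ring))) (by positivity : (0 : ℝ) < T ^ 2)
  have g6 : l2sq univ (Dm B *ᵥ g) ≤ K₁ ^ 2 * l2sq univ ζ :=
    g5.trans (mul_le_mul_of_nonneg_right (by nlinarith) hN)
  have g7 : gradsq B univ g ≤ Ca * (K₁ + K * K₁) * (T * l2sq univ ζ) := by
    refine (ha M B hB g univ (by simp)).trans ?_
    have k1 := sqrt_mul_le (by positivity) (by linarith) hN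
      ((E5.l2sq_le_univ (plus (plus univ)) g).trans g3) g6
    have k2 : K₁ * l2sq univ ζ ≤ K₁ * (T * l2sq univ ζ) :=
      mul_le_mul_of_nonneg_left (le_mul_of_one_le_left hN hT) (by linarith)
    rw [mul_assoc]
    exact mul_le_mul_of_nonneg_left (by linarith) (by linarith)
  obtain ⟨η, η1, η2, η3, η4⟩ := exists_cut {f | flux B f = -1} (w := r / 2) (by omega)
  have g8 : l2sq univ (fun s => η s.1 * g s) ≤ (K * T) ^ 2 * l2sq univ ζ :=
    (E5.l2sq_cut η1 (B := univ) (by simp) g).trans g3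
  refine ⟨g, fun s => η s.1 * g s, g2, g3.trans ?_, fun t ht => ?_,
    fun s hs => mul_eq_zero_of_right _ (g1 s hs), ?_, fun s hs => ?_⟩
  · gcongr
    linarith
  · have k1 : ∑ f, t f * (cnr f ⬝ᵥ g) =
        ∑ f ∈ univ.filter fun f => flux B f = -1, t f * (cnr f ⬝ᵥ g) :=
      (sum_subset (subset_univ _) fun f _ hf => by
        rw [not_not.1 fun h0 => hf (mem_filter.2 ⟨mem_univ _, ht f h0⟩), zero_mul]).symm
    have k2 : ∀ f ∈ univ.filter fun f => flux B f = -1,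
        (cnr f ⬝ᵥ g) ^ 2 ≤ 16 * (Ch * gradsq B univ g) := fun f hf => by
      have k : ∀ a, g (f, a) ^ 2 ≤ Ch * gradsq B univ g := fun a =>
        (hh M B hB f (mem_filter.1 hf).2 g a).trans
          (mul_le_mul_of_nonneg_left (E5.gradsq_le_univ _ _ _) (by linarith))
      rw [E5.cnr_dot]
      exact E5.four_sq (k 0) (k 1) (k 2) (k 3)
    have k3 := sum_le_card_nsmul _ _ _ k2
    have k4 := E5.card_flux (Λ := Λ + 1) h h1 (by rw [add_mul]; omega)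
    have k5 := E5.gradsq_nonneg B univ g
    rw [nsmul_eq_mul] at k3
    rw [k1]
    refine (sum_mul_sq_le_sq_mul_sq _ _ _).trans (mul_le_mul
      (sum_le_sum_of_subset_of_nonneg (subset_univ _) fun _ _ _ => sq_nonneg _) (k3.trans ?_)
      (sum_nonneg fun _ _ => sq_nonneg _) (sum_nonneg fun _ _ => sq_nonneg _))
    calc _ ≤ (6 * (Λ + 1 : ℕ) + 1) ^ 2 *
          (16 * (Ch * (Ca * (K₁ + K * K₁) * (T * l2sq univ ζ)))) := by gcongr
      _ = K₂ * T * l2sq univ ζ := by rw [e2]; ring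
      _ ≤ _ := by gcongr; linarith
  · have hw : (0 : ℝ) < (r / 2 : ℕ) := by exact_mod_cast (by omega : 0 < r / 2)
    have hw3 : (T : ℝ) ≤ 3 * Λ * (r / 2 : ℕ) := by
      have : T ≤ 3 * Λ * (r / 2) := by
        nlinarith [Nat.mul_le_mul_left Λ (by omega : r ≤ 3 * (r / 2))]
      exact_mod_cast this
    have k1 := hc M B hB η _ η4 univ (by simp) g
    have k2 := E5.l2sq_add_le univ (Dm B *ᵥ (fun s => η s.1 * g s) -
      fun s => η s.1 * (Dm B *ᵥ g) s) fun s => η s.1 * (Dm B *ᵥ g) s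
    rw [sub_add_cancel] at k2
    have k3 := (E5.l2sq_cut η1 (B := univ) (by simp) (Dm B *ᵥ g)).trans g5
    have k4 : Cc * (1 / (r / 2 : ℕ) : ℝ) ^ 2 * l2sq univ g ≤
        Cc * (3 * Λ * K) ^ 2 * l2sq univ ζ :=
      calc _ ≤ Cc * (1 / (r / 2 : ℕ) : ℝ) ^ 2 *
            ((K * (3 * Λ * (r / 2 : ℕ))) ^ 2 * l2sq univ ζ) := by
            gcongr
            exact g3.trans (by gcongr)
        _ = _ := by field_simp
    have k5 := hb M B hB (fun s => η s.1 * g s) fun f hf => by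
      rw [E5.cnr_dot]
      simp [η2 f hf]
    have k6 : gradsq B univ (fun s => η s.1 * g s) ≤ K₃ ^ 2 * l2sq univ ζ :=
      calc _ ≤ Cb * ((2 * (Cc * (3 * Λ * K) ^ 2) + 2 * K₁) * l2sq univ ζ) :=
            k5.trans (mul_le_mul_of_nonneg_left (by linarith) (by linarith))
        _ = K₃ * l2sq univ ζ := by rw [e3]; ring
        _ ≤ _ := mul_le_mul_of_nonneg_right (by nlinarith) hN
    calc _ ≤ K * T * K₃ * l2sq univ ζ := sqrt_mul_le (by positivity) (by linarith) hN g8 k6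
      _ = K * K₃ * T * l2sq univ ζ := by ring
      _ ≤ _ := by gcongr; linarith
  · beta_reduce
    rw [η3 s.1 fun f hf => ?_, one_mul]
    by_contra hlt
    have := (hs f (by omega)).symm.trans hf
    norm_num at this

end

/-- The spectral gap with a polynomial constant. -/
def GapP : Prop :=
  ∀ (N : ℕ) (Λ : ℝ → ℕ), PolN Λ → ∃ Γ : ℝ → ℝ, Pol Γ ∧ ∃ r₀ : ℕ, ∀ X, 1 ≤ Γ X ∧
    ∀ (M : ℕ) [NeZero M] (R : Reg M) (B : Gauge M) (T r : ℕ),
    Rgh R.In N r → Str R.pw B r → (∀ f ∈ R.In, tdist f 0 ≤ T) →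
    (∀ e, T < tdist e.1 0 → B e = 1) → r₀ ≤ r → r ≤ T → T ≤ Λ X * r → 32 * T ≤ M →
    ∀ (φ : Tor M × Fin 4 → ℝ) (t : Tor M → ℝ),
      (R.fr = true → ∀ f, flux B f = -1 → cnr f ⬝ᵥ φ = 0) →
      (∀ f, t f ≠ 0 → R.fr = true ∧ flux B f = -1) →
        l2sq univ φ ≤ (Γ X * T) ^ 2 * l2sq univ (Dm (R.pw * B) *ᵥ φ - ∑ f, t f • cnr f)

open B3b Ge1b in
theorem gap_ofP (hE : ExtS) (hR : RelS) : GapP := by
  classical
  intro N Λ pΛ
  obtain ⟨Cc, hCc, hc⟩ := core hE hR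
  obtain ⟨Ce, hCe, he⟩ := ext_F hE
  obtain ⟨Ct, hCt, ht⟩ := trace_est
  obtain ⟨K, pK, hk⟩ := test_fnP pΛ
  refine ⟨fun X => 2 * (Cc * (Ct * (4 * (Λ X + 1) * (N + 1) : ℕ) * K X)) ^ 2 * (2 + 288 * Ce) +
    18 * Ce, by unfold PolN at pΛ; push_cast; fun_prop, 256 + 4 * N, fun X => ?_⟩
  obtain ⟨hK, hk⟩ := hk X
  beta_reduce
  generalize Λ X = Λ at *
  generalize K X = K at *
  obtain ⟨Q, hQ, e1⟩ : ∃ Q : ℝ, 1 ≤ Q ∧ Q = Ct * (4 * (Λ + 1) * (N + 1) : ℕ) :=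
    ⟨_, one_le_mul_of_one_le_of_one_le hCt (by
      exact_mod_cast (Nat.succ_le_of_lt (by positivity))), rfl⟩
  have c1 : 1 ≤ Q * K := one_le_mul_of_one_le_of_one_le hQ hK
  obtain ⟨Γ, hΓ, e2⟩ : ∃ Γ : ℝ, 1 ≤ Γ ∧ Γ = 2 * (Cc * (Q * K)) ^ 2 * (2 + 288 * Ce) + 18 * Ce :=
    ⟨_, by
      have : 0 ≤ 2 * (Cc * (Q * K)) ^ 2 * (2 + 288 * Ce) := by positivity
      linarith, rfl⟩
  rw [← e1, ← e2]
  refine ⟨hΓ, fun M _ R B T r hS hB hI hO h0 h2 h3 h4 φ t hφ htt => ?_⟩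
  have h1 : 256 ≤ r := by omega
  have hfl := fl_in hB (by omega)
  have hT1 : (1 : ℝ) ≤ T := by exact_mod_cast (by omega : 1 ≤ T)
  set F := Dm (R.pw * B) *ᵥ φ - ∑ f, t f • cnr f with hFd
  set ζ : Tor M × Fin 4 → ℝ := fun s => if tdist s.1 0 ≤ T + 1 then φ s else 0 with hζd
  have hζ : SuppIn ζ 0 (T + 1) := fun s hs => if_neg (by omega)
  have hE0 := E5.l2sq_nonneg univ F
  have o1 : l2sq univ (φ - ζ) ≤ 9 * Ce * l2sq univ F := by
    have k1 := mul_le_mul_of_nonneg_left (sum_balls 1 F) (zero_le_one.trans hCe)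
    rw [mul_sum] at k1
    refine (sum_le_sum fun x _ => ?_).trans (k1.trans (le_of_eq (by push_cast; ring)))
    by_cases hx : tdist x 0 ≤ T + 1
    · simpa [hζd, hx] using mul_nonneg (zero_le_one.trans hCe) (E5.l2sq_nonneg (ball x 1) F)
    · have k2 := he M R B hB.sign
        (fun hfr f hf => (hfl hfr f hf f (by rw [tdist_self]; omega)).1) φ F t htt hFd x
        fun f hf hm => by
          have a1 := hI f hm
          have a2 := tdist_triangle x f 0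
          rw [tdist_comm x f] at a2
          omega
      simpa [hζd, hx, l2sq] using k2
  have o2 : l2sq univ (Dm (R.pw * B) *ᵥ (φ - ζ)) ≤ 16 * l2sq univ (φ - ζ) := by
    rw [E1.l2sq_univ, E1.l2sq_univ]
    exact (W.isD_Dm (isW_mul R hB.sign)).le _
  have o3 := E5.l2sq_sub_le univ F (Dm (R.pw * B) *ᵥ (φ - ζ))
  have o4 := E5.l2sq_add_le univ ζ (φ - ζ)
  rw [add_sub_cancel] at o4
  obtain ⟨g, g', g1, g2, g3, g4, g5, g6⟩ := hk M B T r (cluster_of hB hO) h1 h2 h3 h4 ζ hζ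
  have hN := E5.l2sq_nonneg univ ζ
  have k0 : K * T ≤ Q * K * T :=
    mul_le_mul_of_nonneg_right (le_mul_of_one_le_left (by linarith) hQ) (by linarith)
  have h := hc M R B hB.sign (by omega) hfl ζ (F - Dm (R.pw * B) *ᵥ (φ - ζ)) t
    (fun hfr f hf => ?_) htt (by rw [hFd, mulVec_sub]; abel) g (Q * K * T)
    (univ.filter fun x => NearB R.In 2 x) (one_le_mul_of_one_le_of_one_le c1 hT1) g1
    (g2.trans (by gcongr)) (fun s h1 h2 => absurd (mem_filter.2 ⟨mem_univ _, h1⟩) h2) ?_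
    ((g3 t fun f hf => (htt f hf).2).trans (mul_le_mul_of_nonneg_left (by gcongr)
      (sum_nonneg fun _ _ => sq_nonneg _)))
  · have k1 : l2sq univ ζ ≤ (Cc * (Q * K * T)) ^ 2 * ((2 + 288 * Ce) * l2sq univ F) :=
      h.trans (mul_le_mul_of_nonneg_left (by linarith) (sq_nonneg _))
    have k2 : 18 * Ce * l2sq univ F ≤ 18 * Ce * l2sq univ F * T ^ 2 :=
      le_mul_of_one_le_right (by positivity) (one_le_pow₀ hT1)
    calc _ ≤ Γ * T ^ 2 * l2sq univ F := by rw [e2]; linarith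
      _ ≤ Γ ^ 2 * T ^ 2 * l2sq univ F := by gcongr; nlinarith
      _ = _ := by ring
  · have k1 := hI f (hfl hfr f hf f (by rw [tdist_self]; omega)).1
    rw [← hφ hfr f hf, E5.cnr_dot, E5.cnr_dot]
    simp only [hζd, if_pos (k1.trans (Nat.le_succ T))]
  · rw [E5.l2sq_congr (g := g') fun s hs =>
      g6 s (flat_rgh hS hB (mem_filter.1 hs).2 (by omega))]
    refine (ht M R.In B hB.sign 0 M _ _ (by omega)
      (tr_rgh hS (by omega) hI h3 0 M) g' g4 _ fun x hx =>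
        ⟨by have := tdist_le x 0; omega, (mem_filter.1 hx).2⟩).trans ?_
    rw [← e1]
    exact (mul_le_mul_of_nonneg_left g5 (by linarith)).trans (le_of_eq (by ring))

theorem gapP : GapP := gap_ofP ext_est rellich

end Vale.Agent.P144DA
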