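import Vale.Agent.P144DA.Lg
import Vale.Agent.P144U.Fl.Main
import Vale.Agent.P144U.Fl.Flow
import Vale.Agent.P144U.Fl.Gen

/-!
The flows and the main estimates with polynomial constants.
-/

namespace Vale.Agent.P144DA

open Finset Matrix Vale.Agent.P144Z

/-- The bounds on the flow. -/
def FlowP (Q : Cls) (q : Par) (L m : ℕ) (σ γ Z a : ℝ) : Prop :=
  ∀ (Λ : ℝ → ℕ) (h : ℝ → ℝ), PolN Λ → Pol h → (∀ X, 0 < h X) → ∃ w b : ℝ → ℝ, ∃ J₀ : ℝ → ℕ,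
    Sm w ∧ Pol b ∧ Lg J₀ ∧ ∀ X, 0 < b X ∧ ∀ g : Geo, J₀ X ≤ g.J → g.Pre0 L q.R →
    Fintype.card g.K ≤ m → Q g.M g.A g.J → g.M ≤ Λ X * sc L g.J → ∀ u : Cor g.M, u.Ok →
    u.Off g.A → u.Wt σ γ → g.FlowD L q u Z (w X) a (b X) (h X)

/-- The main estimate. -/
def MainP (Q : Cls) (q : Par) (Zσ Zε : ℝ) (L m : ℕ) (σ γ : ℝ) : Prop :=
  ∀ (N : ℕ) (Λ : ℝ → ℕ) (Γ h : ℝ → ℝ), PolN Λ → Pol Γ → Pol h → (∀ X, 1 ≤ Γ X) → (∀ X, 0 < h X) →
    ∃ C : ℝ → ℝ, Pol C ∧ ∀ ε, Sm ε → ∃ J₀, Lg J₀ ∧ ∀ X, ∀ J ≥ J₀ X,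
    ∀ (M : ℕ) [NeZero M] (P B : Gauge M) (Δ : Cor M) (ι : Type) [Fintype ι] [DecidableEq ι]
    (y : ι → Tor M) (d : ι → Fin 2) (n : ℕ) (K : ℝ), Fintype.card ι ≤ m →
    DomQ Q P B y d n L J N (Λ X) (Γ X) → Δ.Ok → Δ.Wt σ γ → Δ.Off P → 0 ≤ K →
    (geoD M (P * B) y d J).LastB (sc L J) (h X) (K * |Zw par0 P 1|) →
      |mixC q Δ P B y d - Zσ ^ n * Zε ^ Fintype.card ι * mixC par0 0 P B y d| ≤
        ε X / (sc L J : ℝ) ^ Fintype.card ι * K ∧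
      |mixC par0 0 P B y d| ≤ C X / (sc L J : ℝ) ^ Fintype.card ι * K

/-- The mean energy. -/
def EnP (Q : Cls) (q : Par) (L m : ℕ) (σ γ : ℝ) : Prop :=
  ∀ (N : ℕ) (Λ : ℝ → ℕ) (Γ : ℝ → ℝ), PolN Λ → Pol Γ → (∀ X, 1 ≤ Γ X) → ∀ ε, Sm ε →
    ∃ J₀, Lg J₀ ∧ ∀ X, ∀ J ≥ J₀ X, ∀ (M : ℕ) [NeZero M] (P B : Gauge M)
    (Δ Δ' : Cor M) (ι : Type) [Fintype ι] [DecidableEq ι] (y : ι → Tor M) (d : ι → Fin 2) (n : ℕ),
    Fintype.card ι ≤ m → DomQ Q P B y d n L J N (Λ X) (Γ X) → Δ.Ok → Δ.Wt σ γ → Δ.Off P → Δ'.Ok →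
    Δ'.Wt σ γ → Δ'.Off P → ∀ k, sc L J * |enC q Δ P (y k) (d k) - enC q Δ' P (y k) (d k)| ≤ ε X

/-- The main estimates hold for corrections a little larger than those of the regions. -/
def UnivP (Q : Cls) (q : Par) (Zσ Zε : ℝ) (L N : ℕ) : Prop :=
  ∃ σ γ θ : ℝ, 0 ≤ σ ∧ 0 < θ ∧ (∀ (M : ℕ) [NeZero M] (R : Reg M),
    (R.cor q).Ok ∧ (R.cor q).Off R.pw ∧ (R.cor q).Wt σ γ) ∧
    MainP Q q Zσ Zε L N σ (γ + θ) ∧ EnP Q q L N σ (γ + θ)

open W W.FD Vale.Agent.P144Z.FM FlU in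
/-- The bounds on the corrected flow from the bounds of the induction. -/
theorem flowP_of {L : ℕ} {δ : ℝ} {Q : Cls} {q : Par} {m : ℕ} {σ γ a a' Z : ℝ} (hL : 16 ≤ L) (hq : q.Ok)
    (hδ : 0 < δ) (ha : 0 ≤ a) (ha' : 2 * a ≤ a') (hE : EarlyQ Q q L m σ γ δ a)
    (hz1 : |Z * (-2 * tc)| ≤ 2) (hz2 : ∀ j, |zr L q j - Z * (-2 * tc)| ≤ 1 / 2 ^ j) :
    FlowP Q q L m σ γ Z a' := by
  obtain ⟨Cl, hCl, hloc⟩ := W.Geo.pn_local
  obtain ⟨Cs, hCs, hsrc⟩ := W.Geo.R8.df_srcSt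
  have hL1 : 1 ≤ L := by omega
  have hL0 : (0 : ℝ) < L := by exact_mod_cast hL1
  have hL' : (1 : ℝ) ≤ L := by exact_mod_cast hL1
  intro Λ H pΛ pH hH
  obtain ⟨p, lp, hp⟩ := pH.exists_lg
  have ph : Pol fun X => (L : ℝ) ^ 2 * 2 ^ p X := (Pol.const _).mul lp
  refine ⟨fun X => min (δ / (L * ((L : ℝ) ^ 2 * 2 ^ p X) ^ 2))
    (1 / (2 * Cl * ((L : ℝ) ^ 2 * 2 ^ p X) ^ 2)),
    fun X => (32 * Λ X + 1) ^ 2 * (2 * a + Cs * Real.exp L * δ), p,
    ((Sm.const hδ).div ((Pol.const _).mul (ph.pow 2)) fun X => by positivity).min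
      ((Sm.const one_pos).div ((Pol.const _).mul (ph.pow 2)) fun X => by positivity),
    by unfold PolN at pΛ; fun_prop, lp, fun X => ?_⟩
  replace hH := hH X
  replace hp := hp X
  clear ph lp
  beta_reduce
  generalize Λ X = Λ at *
  generalize H X = H at *
  generalize p X = p at *
  have hr := rad_min hL1 p
  have h2 : (1 : ℝ) ≤ (L : ℝ) ^ 2 := one_le_pow₀ hL'
  set h := (L : ℝ) ^ 2 * 2 ^ p with hh
  have hh0 : 0 < h := by positivity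
  have hHh : H ≤ h := hp.le.trans (le_mul_of_one_le_left (by positivity) h2)
  obtain ⟨w, hwe, hw0, hw1, hw2⟩ : ∃ w, min (δ / (L * h ^ 2)) (1 / (2 * Cl * h ^ 2)) = w ∧
      0 < w ∧ w * L * h ^ 2 ≤ δ ∧ 2 * (Cl * w * h ^ 2) ≤ 1 := by
    refine ⟨_, rfl, by positivity, ?_, ?_⟩
    · rw [mul_assoc, ← le_div_iff₀ (by positivity)]
      exact min_le_left _ _
    · have := min_le_right (δ / (L * h ^ 2)) (1 / (2 * Cl * h ^ 2))
      rw [le_div_iff₀ (by positivity)] at this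
      linarith
  rw [hwe]
  refine ⟨by positivity, fun g hJ hg hm hQ hM u hu hf hs => ?_⟩
  obtain ⟨H1, H0⟩ := hE g _ hg hm hQ hr
  replace H1 := H1 u hu hf hs
  have hwh : ∀ j, w * L * ((L : ℝ) ^ 2 * 2 ^ min j p) ^ 2 ≤ δ := fun j => by
    have h3 : (2 : ℝ) ^ min j p ≤ 2 ^ p := pow_le_pow_right₀ one_le_two (min_le_right _ _)
    refine le_trans ?_ hw1
    rw [hh]
    gcongr
  have h8 := eight_le_sc hL1 g.J
  have hs0 : (0 : ℝ) < sc L g.J := by positivity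
  have hd := H1.df g.J le_rfl
  have hb := H1.bf g.J le_rfl
  simp only [min_eq_right hJ] at hd hb
  have hβ := beta_pos hL1 hδ hh0 g.J
  have hwβ : w * sc L g.J ≤ δ * sc L g.J / h ^ 2 := by
    rw [le_div_iff₀ (by positivity), mul_right_comm]
    refine mul_le_mul_of_nonneg_right (le_trans ?_ hw1) hs0.le
    rw [mul_assoc]
    exact mul_le_mul_of_nonneg_left (le_mul_of_one_le_left (by positivity) hL') hw0.le
  have wf := W.Geo.wf_flowC hg.ok hu L q g.J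
  have hM4 : 4 * sc L g.J ≤ g.M := by have := hg.M_le; omega
  refine ⟨⟨H1.init, H1.ex⟩, ⟨H0.init, H0.ex⟩, fun j hj => anch_le
    (early1 hL1 hg hr hu ha H1 hw0 hwh j hj) (by gcongr), early0 hL1 hδ hg hr H0,
    by rw [flow0 hL1 hδ hg hr H0 _ le_rfl, W.FD.sum_H_src], ?_, fun k => ?_⟩
  · refine (RN.pn_mono (by omega) hH (by positivity) hHh hwβ subset_rfl
      (sub_mem (W.FD.sum_H_mem wf) (W.FD.sum_bE_mem fun _ => Z * (-2 * tc)))).trans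
      ((W.FD.pn_sum_H (by omega) hh0 hβ hM hL0.le wf (hsrc L g hg.ok.sign _ h8 hM4
        (W.Geo.R8.sepW_mono hg.sep (by omega)) h δ hh0 hδ _ wf _ (fun _ => Z * (-2 * tc))
        (1 / 2 ^ g.J) _ (by positivity)
        (fun k => by rw [z_eq (by omega) hq hg hu hf le_rfl]; exact hz2 _) hd) hb).trans ?_)
    have h3 : a / 2 ^ g.J / 2 ^ g.J ≤ a / 2 ^ g.J := div_pow_le (by positivity) _
    rw [mul_div_assoc (((32 : ℝ) * Λ + 1) ^ 2)]
    refine mul_le_mul_of_nonneg_left ?_ (sq_nonneg _)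
    have h4 : (2 * a + Cs * Real.exp L * δ) / 2 ^ g.J =
        a / 2 ^ g.J + Cs * Real.exp L * δ * (1 / 2 ^ g.J) + a / 2 ^ g.J := by ring
    linarith
  · have hβ' : 0 < w * (sc L g.J : ℝ) := mul_pos hw0 hs0
    have h3 := (hloc g hg.ok.sign _ h _ h8 hM4 hh0 hβ' _
      (flat_mono (hg.sep.fs k) (by omega))).2.2.2 k rfl
    rw [show Cl * (w * sc L g.J) * h ^ 2 / sc L g.J = Cl * w * h ^ 2 by field_simp] at h3
    rw [RN.pn_smul (by omega) hH hβ']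
    exact (mul_le_mul hz1 ((RN.pn_mono (by omega) hH hβ' hHh le_rfl (subset_univ _)
      (Geo.bE_mem k)).trans h3) (RN.pn_nonneg _) zero_le_two).trans hw2

section

open Geo UM
open Mn hiding Br Gd WW WW_eq br_good en_eq exc_sub mix_eq ok_bare ok_one ps_br ps_cf ps_wt see_en
  ss top_le
open MN hiding sep_ff sep_fs flat' br_good not_exc medium WW_zero large err ss_eq final
open Vale.Agent.P144Z.IO hiding main0

theorem pol_cE {Λ : ℝ → ℕ} (pΛ : PolN Λ) (L n k : ℕ) : Pol fun X => cE L (Λ X) n k := by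
  unfold PolN at pΛ
  unfold cE
  fun_prop

theorem main0P {L m : ℕ} {q : Par} {Z a b σ η δ : ℝ} {Q : Cls} (hL : 64 ≤ L) (hq : q.Ok)
    (ha : 0 ≤ a) (hZ : 1 / 2 ≤ Z) (hF : MN.Pl L q Z a b) (hσ : MN.Sg L q Z a b σ)
    (hD : FlowP Q q L m η δ Z a) (n k : ℕ) {Λ : ℝ → ℕ} {Γ : ℝ → ℝ} (pΛ : PolN Λ) (pΓ : Pol Γ)
    (hΓ : ∀ X, 1 ≤ Γ X) :
    ∃ B : ℝ → ℝ, Pol B ∧ ∀ ε, Sm ε → ∃ J₀, Lg J₀ ∧ ∀ X, ∀ (g : Geo) (A' : Gauge g.M) (r : ℕ),
      J₀ X ≤ g.J →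
      Fintype.card g.K = k → k ≤ m → g.Dom0 A' L n (Λ X) r (Γ X) → Q g.M g.A g.J → Q g.M A' g.J →
      ∀ u : Cor g.M, u.Ok → u.Off A' → u.Wt η δ → ∀ K : ℝ, g.LastB (sc L g.J) (Γ X) K →
        |g.mixD A' q u - Real.exp σ ^ n * Z ^ k * g.mixD A' par0 0| ≤
          ε X / (r : ℝ) ^ k * (K / |Zw par0 A' 1|) ∧
        |g.mixD A' par0 0| ≤ B X / (r : ℝ) ^ k * (K / |Zw par0 A' 1|) := by
  obtain ⟨Cg, hCg, hg⟩ := LM.lastB_gap
  obtain ⟨w, b', J₁, sw, pb, lJ, hD⟩ := hD (fun X => 8 * Λ X * L) (fun X => Cg * Γ X)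
    (((PolN.const 8).mul pΛ).mul (PolN.const L)) (by fun_prop)
    fun X => by have := hΓ X; positivity
  obtain ⟨w₂, J₂, hR⟩ := exists_ref hL hq hF
  have L0 : (0 : ℝ) < L := by positivity
  have pP : Pol fun X => (8 * L / w X) ^ k := ((Pol.const _).div_sm sw).pow k
  refine ⟨fun X => (8 * L / w X) ^ k * (2 ^ k * Real.exp (4 * k)), pP.mul (Pol.const _),
    fun ε hε => ?_⟩
  obtain ⟨J₃, lJ₃, hJ₃⟩ := small_eP (s := fun _ => 8 * k + 1) (Real.exp 1) (Pol.const _) pb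
    ((pol_cE pΛ L n k).mul (Pol.const a)) ((Sm.const (c := 1 / 2) (by norm_num)).min (hε.div
      (pP.mul (Pol.const (Real.exp (n * σ) * Real.exp (4 * k) * 10)))
        fun X => by have := sw.1 X; positivity))
  refine ⟨fun X => max (max (J₁ X) J₂) (max (J₃ X) (q.R + 1)),
    (lJ.max (Lg.const _)).max (lJ₃.max (Lg.const _)),
    fun X g A' r hJ hk hm D Q1 Q0 u hu hoff hsm K H => ?_⟩
  obtain ⟨hb', hD⟩ := hD X
  have hw := sw.1 X
  replace hJ₃ := hJ₃ X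
  replace hΓ := hΓ X
  replace hε := hε.1 X
  clear pP sw pb lJ lJ₃ pΛ pΓ
  beta_reduce at *
  generalize Λ X = Λ at *
  generalize Γ X = Γ at *
  generalize w X = w at *
  generalize ε X = ε at *
  have hh : Γ ≤ Cg * Γ := le_mul_of_one_le_left (by linarith) hCg
  have hP : 0 < (8 * L / w) ^ k := by positivity
  set s := (8 * L / w) ^ k * (Real.exp (n * σ) * Real.exp (4 * k) * 10) with hs
  have hs0 : 0 < s := by positivity
  simp only [max_le_iff] at hJ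
  obtain ⟨⟨k1, k2⟩, k3, k4⟩ := hJ
  have h1 := D.lo
  have h2 := D.Mlo
  have h3 : g.J < sc L g.J := by
    have := Nat.lt_pow_self (n := g.J) (show 1 < L by omega)
    unfold sc
    omega
  have h4 := sc_mono (L := L) (by omega) (show 1 ≤ g.J by omega)
  have h5 : sc L 1 = 8 * L := by simp [sc]
  have hM : g.M ≤ 8 * Λ * L * sc L g.J := by
    calc g.M ≤ Λ * (8 * sc L (g.J + 1)) := D.Mhi.trans (Nat.mul_le_mul_left _ D.hi)
      _ = _ := by rw [sc_eq (Nat.le_succ g.J)]; simp; ring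
  have n1 : ∀ f, flux A' f ≠ -1 := fun f e => by
    rw [D.fl] at e
    split_ifs at e with h
    · norm_num at e
    · exact h e
  have n2 : ∀ f, flux g.A f = 1 → flux A' f = 1 := fun f e => by
    rw [D.fl, e, ite_self]
  have h6 : 16 * sc L g.J ≤ g.M := by omega
  have h7 : 16 * (q.R + 1) ≤ g.M := by omega
  have F := hD g k1 ⟨D.ok, D.on, h6, h7, ⟨fun f a f' b c => D.sep.ff f a f' b (by omega),
    fun i f hf => D.sep.fs i f (by omega), fun i i' e => h1.trans_lt (D.sep.ss i i' e)⟩⟩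
    (hk.trans_le hm) Q1 hM u hu (fun X hX => hoff X fun x hx => n2 x (hX x hx)) hsm
  have F0 := hD (bare g A') k1 ⟨ok_bare D.w, fun i => i.elim, h6, h7,
    ⟨fun f e => absurd e (n1 f), fun i => i.elim, fun i => i.elim⟩⟩ (card_bare g A' m) Q0 hM u hu
    hoff hsm
  have F1 := fun i => hD (one g A' i) k1 ⟨ok_one D.ok D.w i, fun _ => D.on i, h6, h7,
    ⟨fun f e => absurd e (n1 f), fun _ f hf => n2 f (D.sep.fs i f (le_trans hf h1)),
      fun _ _ e => absurd rfl e⟩⟩ (card_one g A' i (hk.trans_le hm)) Q0 hM u hu hoff hsm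
  obtain ⟨G, A₀, N, f₀, hG, hf₀, D₀⟩ := hR g.J k2 r h1 D.hi
  have hK := lastB_nonneg (by omega) (by linarith) H
  obtain ⟨r1, r2⟩ := final D (σ := σ) (by omega) (by omega) hq (by omega) hu hw ha hb'.le
    (by linarith) F F0 F1 (lastB_mono (by omega) (by linarith) H hh)
    (hg (bare g A') D.w _ (by omega) Γ hΓ D.gap _ le_rfl)
    (fun i => hg (one g A' i) D.w _ (by omega) Γ hΓ D.gap _ le_rfl)
    (fun f hf => by
      rw [ss_eq D hq (by omega) hu hoff D₀ hG hf hf₀, ← hG]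
      exact hσ _ _ _ _ _ _ _ D₀ _ hf₀) hk (hJ₃ g.J k3) (min_le_left _ _)
  have hr0 : (0 : ℝ) < (r : ℝ) ^ k := pow_pos (by exact_mod_cast (by omega : 0 < r)) k
  have p1 := pow_r hw D.hi k
  have hy : 0 ≤ K / |Zw par0 A' 1| := by positivity
  generalize K / |Zw par0 A' 1| = y at *
  generalize (w * sc L g.J) ^ k = β at *
  constructor
  · rw [div_mul_eq_mul_div, le_div_iff₀ hr0]
    refine (mul_le_mul_of_nonneg_left p1 (abs_nonneg _)).trans ?_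
    rw [mul_left_comm, mul_comm _ β]
    refine (mul_le_mul_of_nonneg_left r1 hP.le).trans ?_
    have := mul_le_mul_of_nonneg_right ((le_div_iff₀ hs0).1 (min_le_right (1 / 2) (ε / s))) hy
    rw [hs] at this ⊢
    linarith
  · rw [div_mul_eq_mul_div, le_div_iff₀ hr0]
    refine (mul_le_mul_of_nonneg_left p1 (abs_nonneg _)).trans ?_
    rw [mul_left_comm, mul_comm _ β, mul_assoc, mul_assoc]
    refine mul_le_mul_of_nonneg_left ?_ hP.le
    have hβ : 0 ≤ β := nonneg_of_mul_nonneg_right (hr0.le.trans p1) hP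
    have z1 : 1 ≤ 2 ^ k * |Z ^ k| := by
      rw [abs_of_nonneg (by positivity), ← mul_pow]
      exact one_le_pow₀ (by linarith)
    rw [abs_mul] at r2
    have z2 := mul_le_mul_of_nonneg_left r2 (by positivity : (0 : ℝ) ≤ 2 ^ k)
    have z3 := mul_le_mul_of_nonneg_right z1 (mul_nonneg hβ (abs_nonneg (g.mixD A' par0 0)))
    linarith

theorem mainP_of {L m : ℕ} {q : Par} {Z a b σ η δ : ℝ} {Q : Cls} (hL : 64 ≤ L) (hq : q.Ok)
    (ha : 0 ≤ a) (hZ : 1 / 2 ≤ Z) (hF : MN.Pl L q Z a b) (hσ : MN.Sg L q Z a b σ)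
    (hD : FlowP Q q L m η δ Z a) : MainP Q q (Real.exp σ) Z L m η δ := by
  intro N Λ Γ H pΛ pΓ pH hΓ hH
  choose B pB h using fun p : ℕ × ℕ =>
    main0P hL hq ha hZ hF hσ hD p.1 p.2 pΛ (pΓ.max pH) fun X => le_max_of_le_left (hΓ X)
  refine ⟨fun X => ∑ p ∈ range (N + 1) ×ˢ range (N + 1), |B p X|,
    Pol.sum _ fun p _ => (pB p).abs, fun ε' hε' => ?_⟩
  choose J₀ lJ h using fun p => h p ε' hε'
  refine ⟨fun X => (range (N + 1) ×ˢ range (N + 1)).sup fun p => J₀ p X, Lg.sup _ lJ,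
    fun X J hJ M _ P S Δ ι _ _ y d n K hm D h1 h2 h3 hK hl => ?_⟩
  replace hΓ := hΓ X
  replace hH := hH X
  replace hε' := hε'.1 X
  beta_reduce
  have h8 := FM.eight_le_sc (L := L) (by omega) J
  have hn : n ≤ (univ.filter fun f => flux S f = -1).card := by
    rw [← D.cnt]
    exact card_le_card fun f hf =>
      mem_filter.2 ⟨mem_univ _, Both.flux_B D.P_ok D.str.sign (mem_filter.1 hf).2⟩
  have hp : (n, Fintype.card ι) ∈ range (N + 1) ×ˢ range (N + 1) := by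
    have := D.card
    simp only [mem_product, mem_range]
    omega
  have hZ' : 0 < |Zw par0 P 1| := abs_pos.2 (Both.ne_zero D.gap)
  obtain ⟨k1, k2⟩ := h (n, Fintype.card ι) X (geoD M (P * S) y d J) P (8 * sc L J)
    ((le_sup (f := fun p => J₀ p X) hp).trans hJ) rfl hm (dom0_of (by omega)
      { D with
        gap := fun φ => (D.gap φ).trans (mul_le_mul_of_nonneg_right
          (by have := le_max_left (Γ X) (H X); gcongr) (C.dot_nonneg _)) }) D.bd D.bd0 Δ h1 h3 h2 _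
    (Both.lastB_mono hl (by change 1 ≤ sc L J; omega) hH (le_max_right _ _) (by positivity))
  replace k1 := k1.trans_eq (congrArg _ (mul_div_cancel_right₀ K hZ'.ne'))
  replace k2 := k2.trans_eq (congrArg _ (mul_div_cancel_right₀ K hZ'.ne'))
  have e1 : (0 : ℝ) < (sc L J : ℝ) ^ Fintype.card ι := by positivity
  have e2 : (sc L J : ℝ) ^ Fintype.card ι ≤ ((8 * sc L J : ℕ) : ℝ) ^ Fintype.card ι :=
    pow_le_pow_left₀ (by positivity) (by exact_mod_cast (by omega)) _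
  refine ⟨k1.trans (by gcongr), k2.trans (mul_le_mul_of_nonneg_right ?_ hK)⟩
  have e3 : |B (n, Fintype.card ι) X| ≤ ∑ p ∈ range (N + 1) ×ˢ range (N + 1), |B p X| :=
    single_le_sum (f := fun p => |B p X|) (fun _ _ => abs_nonneg _) hp
  exact (div_le_div_of_nonneg_right (le_abs_self _) (e1.le.trans e2)).trans
    (div_le_div₀ ((abs_nonneg _).trans e3) e3 e1 e2)

theorem enP_of {L m : ℕ} {q : Par} {Z a η δ : ℝ} {Q : Cls} (hL : 64 ≤ L) (hq : q.Ok) (ha : 0 ≤ a)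
    (hD : FlowP Q q L m η δ Z a) : EnP Q q L m η δ := by
  intro N Λ Γ pΛ pΓ hΓ ε hε
  obtain ⟨Cg, hCg, hg⟩ := LM.lastB_gap
  obtain ⟨w, b, J₁, sw, pb, lJ, hD⟩ := hD Λ (fun X => Cg * Γ X) pΛ (by fun_prop)
    fun X => by have := hΓ X; positivity
  obtain ⟨J₂, lJ₂, hJ₂⟩ := small_eP (s := fun _ => 16)
    (K := fun X => (8 * Λ X * L + 1) ^ 2 * (a * 6144)) (Real.exp 1) (Pol.const _) pb
    (by unfold PolN at pΛ; fun_prop) ((Sm.const one_pos).min (sw.mul hε))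
  refine ⟨fun X => max (J₁ X) (max (J₂ X) (q.R + 1)), lJ.max (lJ₂.max (Lg.const _)),
    fun X J hJ M _ P B Δ Δ' ι _ _ y d n hm D h1 h2 h3 h4 h5 h6 k => ?_⟩
  obtain ⟨hb, hD⟩ := hD X
  have hw := sw.1 X
  replace hJ₂ := hJ₂ X
  replace hΓ := hΓ X
  replace hε := hε.1 X
  clear sw pb lJ lJ₂ pΛ pΓ
  beta_reduce at *
  generalize Λ X = Λ at *
  generalize Γ X = Γ at *
  generalize w X = w at *
  generalize ε X = ε at *
  generalize b X = b at *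
  have hh : Γ ≤ Cg * Γ := le_mul_of_one_le_left (by linarith) hCg
  simp only [ge_iff_le, max_le_iff] at hJ
  obtain ⟨k1, k2, k3⟩ := hJ
  have D₀ := dom0_of (by omega) D
  have l1 := D.lo
  have l2 : J < sc L J := by
    have := Nat.lt_pow_self (n := J) (show 1 < L by omega)
    unfold sc
    omega
  have l3 := sc_mono (L := L) (by omega) (show 1 ≤ J by omega)
  have l4 : sc L 1 = 8 * L := by simp [sc]
  have n1 : ∀ f, flux P f ≠ -1 := fun f e => by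
    have e' := (D₀.fl f).symm.trans e
    split_ifs at e' with h
    · norm_num at e'
    · exact h e'
  have ok := ok_one D₀.ok D₀.w k
  have sp : (one (geoD M (P * B) y d J) P k).SepW (8 * sc L J) :=
    ⟨fun f e => absurd e (n1 f), fun _ f hf => (D₀.fl f).trans (by
      rw [D₀.sep.fs k f hf, ite_self]), fun _ _ e => absurd rfl e⟩
  have m1 : 16 * sc L J ≤ M := by omega
  have m2 : 16 * (q.R + 1) ≤ M := by omega
  have F := hD (one (geoD M (P * B) y d J) P k) k1 ⟨ok, fun _ => rfl, m1, m2, sp⟩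
    (card_one (geoD M (P * B) y d J) P k hm) D.bd0 D.hi
  obtain ⟨e1, e2⟩ := le_min_iff.1 (hJ₂ J k2)
  have e3 : 0 ≤ (8 * Λ * L + 1 : ℝ) ^ 2 * (a * 6144) / 2 ^ J := by positivity
  have := en_close D₀ (by omega) (by omega) hq m2 h1 h4 h3 h6 hw ha (by linarith) k
    (F Δ h1 h3 h2) (F Δ' h4 h6 h5) (hg _ D₀.w _ (by change 8 ≤ sc L J; omega) Γ hΓ D.gap _ le_rfl)
    le_rfl (by change _ * (Real.exp (b / 2 ^ J) - 1) ≤ _; linarith)
  rw [mul_assoc] at this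
  exact le_of_mul_le_mul_left (this.trans e2) hw

end

section

open GU W.R5

variable {Q : Cls} {q : Par} {Zσ Zε σ γ : ℝ} {L m : ℕ}

theorem main_parP (h : MainP Q par0 Zσ Zε L m σ γ) (h1 : 0 ≤ γ) : MainP Q par0 1 1 L m σ γ :=
  fun N Λ Γ H p1 p2 p3 a1 a2 => by
    obtain ⟨C, pC, h⟩ := h N Λ Γ H p1 p2 p3 a1 a2
    refine ⟨C, pC, fun ε hε => ?_⟩
    obtain ⟨J₀, lJ, h⟩ := h _ (hε.div (Pol.const 2) fun _ => two_pos)
    refine ⟨J₀, lJ, fun X J hJ M _ P B Δ ι _ _ y d n K b0 D b1 b2 b3 b4 b5 => ?_⟩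
    obtain ⟨c1, c2⟩ := h X J hJ M P B Δ ι y d n K b0 D b1 b2 b3 b4 b5
    obtain ⟨c3, -⟩ := h X J hJ M P B 0 ι y d n K b0 D (Cor.ok_zero _) (wt_zero h1)
      (fun _ _ _ => rfl) b4 b5
    rw [abs_sub_comm] at c3
    refine ⟨?_, c2⟩
    rw [one_pow, one_pow, one_mul, one_mul]
    exact (abs_sub_le _ _ _).trans ((add_le_add c1 c3).trans (le_of_eq (by ring)))

theorem univP_of (hσ : 0 ≤ σ) (hγ : 0 < γ) : ∃ η > (0 : ℝ), η ≤ γ ∧ ∀ R : ℕ, ∃ δ > (0 : ℝ),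
    ∀ (Q : Cls) (q : Par) (Zσ Zε : ℝ) (L m : ℕ), q.R = R → Crit L q η δ →
    MainP Q q Zσ Zε L m σ γ → EnP Q q L m σ γ → UnivP Q q Zσ Zε L m := by
  obtain ⟨C₂, hC₂, h⟩ := cor_reg
  have e1 := one_le_eR hσ 1
  refine ⟨γ / (4 * (eR σ 1 * C₂)), by positivity, div_le_self hγ.le (by nlinarith), fun R => ?_⟩
  obtain ⟨C₃, hC₃, h⟩ := h R
  have e2 := one_le_eR hσ (2 * R + 2)
  refine ⟨γ / (4 * (eR σ (2 * R + 2) * C₃)), by positivity, fun Q q Zσ Zε L m hR hq h1 h2 =>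
    ⟨σ, γ / 2, γ / 2, hσ, half_pos hγ, fun M _ R' => ?_, by rwa [add_halves],
      by rwa [add_halves]⟩⟩
  obtain ⟨k1, k2, k3⟩ := h M R' q _ _ hR hq.ok hq.x hq.small
  refine ⟨k1, k2, wt_mono (wt_sm hσ k3) (le_of_eq ?_)⟩
  rw [hR]
  field_simp
  ring

end

end Vale.Agent.P144DA
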