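import Vale.Agent.P144DA.Flow
import Vale.Agent.P144A.Gen
import Vale.Agent.P144U.Rg.Wt

/-!
Universality for the classes of an engine, with polynomial constants.
-/

namespace Vale.Agent.P144DA

open Finset Filter Topology Vale.Agent.P144Z AN

open GU Mn in
theorem genJP : ∃ L₀ : ℕ, ∀ L ≥ L₀, ∀ G, EngU L G →
    (∀ (N : ℕ) (Q : Cls), G N Q → UnivP Q par0 1 1 L N) ∧
    ∃ η₀ > 0, ∀ R : ℕ, ∃ δ₀ > 0, ∀ q : Par, q.R = R → Crit L q η₀ δ₀ →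
      ∀ (N : ℕ) (Q : Cls), G N Q → UnivP Q q (Real.exp (sg L q)) (ze L q) L N := by
  obtain ⟨L₁, hL₁, hP⟩ := flowU
  refine ⟨max L₁ 64, fun L hL G ⟨δ₁, hδ₁, C', hC', σ, hσ, ηb, hηb, hI⟩ => ?_⟩
  simp only [ge_iff_le, max_le_iff] at hL
  obtain ⟨l1, l3⟩ := hL
  obtain ⟨C, hC, ηa, hηa, hP⟩ := hP L l1
  have key : ∃ η > 0, ∀ R : ℕ, ∃ δ > 0, ∀ q : Par, q.R = R → Crit L q η δ →
      ∀ (N : ℕ) (Q : Cls), G N Q →
        MainP Q q (Real.exp (sg L q)) (ze L q) L N σ η ∧ EnP Q q L N σ η := by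
    set E := C + 2 * C' with hE
    have hE0 : 0 < E := by linarith
    set η := min (min ηa ηb) (1 / (20000 * E)) with hη
    have hη0 : 0 < η := by positivity
    have hCη : E * η ≤ 1 / 20000 := by
      calc E * η ≤ E * (1 / (20000 * E)) :=
            mul_le_mul_of_nonneg_left (min_le_right _ _) hE0.le
        _ = _ := by field_simp
    obtain ⟨m1, m2⟩ := le_min_iff.1 (min_le_left _ _ : η ≤ min ηa ηb)
    refine ⟨η, hη0, fun R => ?_⟩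
    obtain ⟨δa, hδa, hP⟩ := hP η hη0 m1 R
    obtain ⟨δb, hδb, hI⟩ := hI η hη0 m2 R
    refine ⟨min δa δb, by positivity, fun q hR hq => ?_⟩
    obtain ⟨Z, z1, z2, z3, hP⟩ := hP q hR (hq.mono le_rfl (min_le_left _ _))
    replace hI := hI q hR (hq.mono le_rfl (min_le_right _ _))
    have e1 : C * η ≤ E * η := mul_le_mul_of_nonneg_right (by linarith) hη0.le
    have e2 : 2 * (C' * η) ≤ E * η := by
      rw [← mul_assoc]
      exact mul_le_mul_of_nonneg_right (by linarith) hη0.le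
    have hP' : MN.Pl L q Z (E * η) C := fun N₀ Λ hΛ => by
      obtain ⟨w, hw, J₀, hP⟩ := hP N₀ Λ hΛ
      refine ⟨w, hw, J₀, fun J hJ r h1 h2 => ?_⟩
      obtain ⟨M₀, hP⟩ := hP J hJ r h1 h2
      exact ⟨M₀, fun g a1 a2 a3 N a4 a5 => (hP g a1 a2 a3 N a4 a5).mono e1 le_rfl⟩
    obtain ⟨w, J₀, h⟩ := MN.exists_ref l3 hq.ok hP'
    obtain ⟨s, hs, hs'⟩ := exists_sigma l3 (w := w) (J₀ := J₀) fun i => h (J₀ + i) (by omega) _
      le_rfl (Nat.mul_le_mul_left _ (sc_mono (by omega) (by omega)))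
    have hZ : 1 / 2 ≤ Z := by
      have := abs_le.1 z1
      linarith
    obtain ⟨-, e3, e4⟩ := ch_of l3 hq.ok z3 hP' hs'
    rw [e3, e4]
    intro N Q hQ
    have k1 := flowP_of (by omega) hq.ok hδ₁ (by positivity) e2 (hI N Q hQ) z2 z3
    exact ⟨mainP_of l3 hq.ok (by positivity) hZ hP' hs' k1, enP_of l3 hq.ok (by positivity) k1⟩
  obtain ⟨η, hη, h⟩ := key
  obtain ⟨η', hη', e, hU⟩ := univP_of hσ hη
  refine ⟨fun N Q hQ => ?_, η', hη', fun R => ?_⟩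
  · obtain ⟨δ, hδ, h⟩ := h 0
    obtain ⟨δ', hδ', hU⟩ := hU 0
    obtain ⟨k1, k2⟩ := h _ rfl (crit_par0 L _ _ hη.le hδ.le) N Q hQ
    exact hU Q _ 1 1 L N rfl (crit_par0 L _ _ hη'.le hδ'.le) (main_parP k1 hη.le) k2
  · obtain ⟨δ, hδ, h⟩ := h R
    obtain ⟨δ', hδ', hU⟩ := hU R
    refine ⟨min δ δ', by positivity, fun q hR hq N Q hQ => ?_⟩
    obtain ⟨k1, k2⟩ := h q hR (hq.mono e (min_le_left _ _)) N Q hQ
    exact hU Q q _ _ L N hR (hq.mono le_rfl (min_le_right _ _)) k1 k2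

/-- Universality for the classes `QU`. -/
theorem genP : ∃ ε₀ > (0 : ℝ), ∀ ε > (0 : ℝ), ε ≤ ε₀ → ∃ L₀ : ℕ, ∀ L ≥ L₀, ∃ kf : ℕ → ℕ → ℕ,
    (∀ m N k, kf m N ≤ k → UnivP (QU L ε k N) par0 1 1 L m) ∧
    ∃ η₀ > 0, ∀ R : ℕ, ∃ δ₀ > 0, ∀ q : Par, q.R = R → Crit L q η₀ δ₀ →
      ∀ m N k, kf m N ≤ k → UnivP (QU L ε k N) q (Real.exp (sg L q)) (ze L q) L m := by
  obtain ⟨ε₀, hε₀, hE⟩ := engT_of initU wtS
  obtain ⟨L₂, hG⟩ := genJP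
  refine ⟨ε₀, hε₀, fun ε hε hε' => ?_⟩
  obtain ⟨L₁, hE⟩ := hE ε hε hε'
  refine ⟨max L₁ L₂, fun L hL => ?_⟩
  obtain ⟨kf, hE⟩ := hE L (le_of_max_le_left hL)
  obtain ⟨h1, η, hη, h⟩ := hG L (le_of_max_le_right hL) _ hE
  refine ⟨kf, fun m N k hk => h1 m _ ⟨N, k, hk, rfl⟩, η, hη, fun R => ?_⟩
  obtain ⟨δ, hδ, h⟩ := h R
  exact ⟨δ, hδ, fun q hR hq m N k hk => h q hR hq m _ ⟨N, k, hk, rfl⟩⟩

end Vale.Agent.P144DA
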