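import Vale.Agent.P144DA.Clus
import Vale.Agent.P144E.Ge1b.K

/-!
The last integration with polynomial constants.
-/

namespace Vale.Agent.P144DA

open Finset Matrix Vale.Agent.P144Z

section

open LM

theorem laP (p : ℕ) {B G : ℝ → ℝ} (pB : Pol B) (pG : Pol G) : ∃ t C : ℝ → ℝ, Pol t ∧ Pol C ∧
    ∀ X, 0 < t X ∧ 1 ≤ C X ∧ ∀ (S : Type) [Fintype S]
    [DecidableEq S] (D : Matrix S S ℝ), Dᵀ = -D → ∀ l : ℝ, 1 ≤ l →
    ∀ c u : Fin p × Fin 2 → S → ℝ, (∀ a b, c a ⬝ᵥ u b = if a = b then 1 else 0) →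
    (∀ a, u a ⬝ᵥ u a ≤ B X * l) → (∀ a, (D *ᵥ u a) ⬝ᵥ (D *ᵥ u a) * l ≤ B X) →
    (∀ φ, (∀ a, c a ⬝ᵥ φ = 0) → ∀ s : Fin p × Fin 2 → ℝ, φ ⬝ᵥ φ ≤ (G X * l) ^ 2 *
      ((D *ᵥ φ - ∑ a, s a • c a) ⬝ᵥ (D *ᵥ φ - ∑ a, s a • c a))) →
    ∃ Gi : Matrix S S ℝ, Gi * (D + t X • ∑ i, (vecMulVec (c (i, 0)) (c (i, 1)) -
        vecMulVec (c (i, 1)) (c (i, 0)))) = 1 ∧ Giᵀ = -Gi ∧
      (∀ f, (Gi *ᵥ f) ⬝ᵥ (Gi *ᵥ f) ≤ (C X * l) ^ 2 * (f ⬝ᵥ f)) ∧
      (∀ a, (Gi *ᵥ c a) ⬝ᵥ (Gi *ᵥ c a) ≤ C X * l) ∧ (∀ a b, |c a ⬝ᵥ Gi *ᵥ c b| ≤ C X) ∧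
      1 ≤ C X * |(Matrix.of fun a b => c a ⬝ᵥ Gi *ᵥ c b).det| := by
  obtain ⟨b, pb, hb⟩ : ∃ b : ℝ → ℝ, Pol b ∧ ∀ X, 0 ≤ b X ∧ B X ≤ b X ^ 2 :=
    ⟨fun X => √|B X|, by fun_prop, fun X => ⟨Real.sqrt_nonneg _, by
      rw [Real.sq_sqrt (abs_nonneg _)]; exact le_abs_self _⟩⟩
  obtain ⟨g, pg, hg⟩ : ∃ g : ℝ → ℝ, Pol g ∧ ∀ X, 0 ≤ g X ∧ G X ^ 2 = g X ^ 2 :=
    ⟨fun X => |G X|, by fun_prop, fun X => ⟨abs_nonneg _, (sq_abs _).symm⟩⟩
  refine ⟨fun X => 2 * p * b X ^ 2 * (1 + g X) + 1, fun X => 1 + (g X + (1 + g X) * (2 * p) * b X *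
    (b X * (1 + g X))) + ((1 + g X) * (2 * p) * b X) ^ 2 +
      (Fintype.card (Fin p × Fin 2)).factorial • (2 * (2 * p * b X ^ 2 * (1 + g X)) + 1) ^
        Fintype.card (Fin p × Fin 2), by fun_prop, by simp only [nsmul_eq_mul]; fun_prop,
    fun X => ?_⟩
  obtain ⟨hb, hBb⟩ := hb X
  obtain ⟨hg, hGg⟩ := hg X
  beta_reduce
  generalize B X = B at *
  generalize G X = G at *
  generalize b X = b at *
  generalize g X = g at *
  obtain ⟨k, hk⟩ : ∃ k : ℝ, k = 2 * p * b ^ 2 * (1 + g) := ⟨_, rfl⟩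
  have hk0 : 0 ≤ k := by rw [hk]; positivity
  obtain ⟨c1, hc1⟩ : ∃ x : ℝ, x = g + (1 + g) * (2 * p) * b * (b * (1 + g)) := ⟨_, rfl⟩
  obtain ⟨c2, hc2⟩ : ∃ x : ℝ, x = ((1 + g) * (2 * p) * b) ^ 2 := ⟨_, rfl⟩
  obtain ⟨c3, hc3⟩ : ∃ x : ℝ, x = (Fintype.card (Fin p × Fin 2)).factorial •
    (2 * k + 1) ^ Fintype.card (Fin p × Fin 2) := ⟨_, rfl⟩
  have hc1' : 0 ≤ c1 := by rw [hc1]; positivity
  have hc2' : 0 ≤ c2 := by rw [hc2]; positivity
  have hc3' : 0 ≤ c3 := by rw [hc3, nsmul_eq_mul]; positivity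
  rw [← hk, ← hc1, ← hc2, ← hc3]
  refine ⟨by positivity, by linarith, ?_⟩
  intro S _ _ D hD l hl c u hcu hu hDu hgap
  obtain ⟨L, hL1, rfl⟩ : ∃ L : ℝ, 1 ≤ L ∧ l = L ^ 2 :=
    ⟨√l, Real.one_le_sqrt.2 hl, (Real.sq_sqrt (by linarith)).symm⟩
  have hL : 0 < L := by linarith
  have hu' : ∀ a, nr (u a) ≤ b * L := fun a => nr_le_of_sq (by positivity)
    ((hu a).trans (by rw [mul_pow]; gcongr))
  have hDu' : ∀ a, nr (D *ᵥ u a) ≤ b / L := fun a => nr_le_of_sq (by positivity) (by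
    rw [div_pow, le_div_iff₀ (by positivity)]
    exact (hDu a).trans hBb)
  have hgap' : ∀ φ, (∀ a, c a ⬝ᵥ φ = 0) → ∀ s : Fin p × Fin 2 → ℝ,
      nr φ ≤ g * L ^ 2 * nr (D *ᵥ φ - ∑ a, s a • c a) := fun φ h0 s =>
    nr_le_of_sq (mul_nonneg (by positivity) (nr_nonneg _)) (by
      have := hgap φ h0 s
      rw [mul_pow, hGg, ← mul_pow] at this
      rwa [mul_pow, nr_sq])
  set A := D + (k + 1) • ∑ i, (vecMulVec (c (i, 0)) (c (i, 1)) -
    vecMulVec (c (i, 1)) (c (i, 0))) with hA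
  have main : ∀ (φ f : S → ℝ) (s : Fin p × Fin 2 → ℝ), A *ᵥ φ = f + ∑ a, s a • c a →
      nr φ ≤ g * L ^ 2 * nr f + (1 + g) * (2 * p) * b * L * ‖fun a => c a ⬝ᵥ φ‖ ∧
      ‖fun a => c a ⬝ᵥ φ‖ ≤ ‖s‖ + b * (1 + g) * L * nr f ∧
      ‖s‖ ≤ (2 * k + 1) * ‖fun a => c a ⬝ᵥ φ‖ + b * (1 + g) * L * nr f := by
    intro φ f s h
    rw [hA, Matrix.add_mulVec, Matrix.smul_mulVec, K_mulVec] at h
    obtain ⟨h1, h2⟩ := core hD hb hg hL hcu hu' hDu' hgap' rfl h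
    rw [← hk] at h2
    set α : Fin p × Fin 2 → ℝ := fun a => c a ⬝ᵥ φ
    have hf := nr_nonneg f
    have hα := norm_nonneg α
    have hs := norm_nonneg s
    have hx : 0 ≤ b * (1 + g) * L * nr f := by positivity
    refine ⟨h1, ?_, ?_⟩
    · have h3 : ‖α‖ ≤ (‖s‖ + b * (1 + g) * L * nr f + k * ‖α‖) / (k + 1) := by
        refine norm_le_of_Jm α (by positivity) fun a => ?_
        rw [le_div_iff₀ (by positivity)]
        have e : |Jm α a| * (k + 1) = |(k + 1) * Jm α a| := by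
          rw [abs_mul, abs_of_pos (by positivity : 0 < k + 1), mul_comm]
        have h4 := abs_add_le ((k + 1) * Jm α a - s a) (s a)
        rw [sub_add_cancel] at h4
        have h5 : |s a| ≤ ‖s‖ := norm_le_pi_norm s a
        have h6 := h2 a
        rw [e]
        linarith
      rw [le_div_iff₀ (by positivity)] at h3
      linarith
    · rw [pi_norm_le_iff_of_nonneg (by positivity)]
      intro a
      have h4 := abs_sub ((k + 1) * Jm α a) ((k + 1) * Jm α a - s a)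
      rw [sub_sub_cancel, abs_mul, abs_of_pos (by positivity : 0 < k + 1)] at h4
      have h5 := mul_le_mul_of_nonneg_left (abs_Jm_le α a) (by positivity : 0 ≤ k + 1)
      have h6 := h2 a
      rw [Real.norm_eq_abs]
      linarith
  have hinj : Function.Injective A.mulVec := by
    have : ∀ φ, A *ᵥ φ = 0 → φ = 0 := by
      intro φ h
      obtain ⟨h1, h2, -⟩ := main φ 0 0 (by simpa using h)
      rw [nr_zero, norm_zero, mul_zero, add_zero] at h2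
      rw [nr_zero, le_antisymm h2 (norm_nonneg _), mul_zero, mul_zero, add_zero] at h1
      have h3 := dot_le_of_nr h1
      rw [zero_pow two_ne_zero] at h3
      exact dotProduct_self_eq_zero.1 (le_antisymm h3 (by rw [← nr_sq]; positivity))
    intro φ ψ h
    exact sub_eq_zero.1 (this _ (by rw [Matrix.mulVec_sub, h, sub_self]))
  have hunit : IsUnit A.det := (Matrix.isUnit_iff_isUnit_det A).1
    (Matrix.mulVec_injective_iff_isUnit.1 hinj)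
  have hl1 : A⁻¹ * A = 1 := Matrix.nonsing_inv_mul A hunit
  have hr1 : A * A⁻¹ = 1 := Matrix.mul_nonsing_inv A hunit
  have hAG : ∀ f, A *ᵥ (A⁻¹ *ᵥ f) = f := fun f => by
    rw [Matrix.mulVec_mulVec, hr1, Matrix.one_mulVec]
  have hAT : Aᵀ = -A := by
    rw [hA, Matrix.transpose_add, hD, Matrix.transpose_smul, Matrix.transpose_sum, neg_add,
      ← smul_neg, ← Finset.sum_neg_distrib]
    simp only [Matrix.transpose_sub, transpose_vecMulVec, neg_sub]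
  have hsingle : ∀ a, (∑ a', (Pi.single a (1:ℝ) : Fin p × Fin 2 → ℝ) a' • c a') = c a := by
    intro a
    rw [Finset.sum_eq_single a (fun a' _ h => by rw [Pi.single_eq_of_ne h, zero_smul]) (by simp)]
    simp
  have hn1 : ∀ a : Fin p × Fin 2, ‖(Pi.single a (1:ℝ) : Fin p × Fin 2 → ℝ)‖ = 1 := fun a => by
    rw [Pi.norm_single, norm_one]
  have hcol : ∀ a, nr (A⁻¹ *ᵥ c a) ≤ (1 + g) * (2 * p) * b * L ∧
      ‖fun a' => c a' ⬝ᵥ A⁻¹ *ᵥ c a‖ ≤ 1 := by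
    intro a
    obtain ⟨h1, h2, -⟩ := main (A⁻¹ *ᵥ c a) 0 (Pi.single a 1) (by rw [hAG, hsingle, zero_add])
    rw [nr_zero, hn1, mul_zero, add_zero] at h2
    rw [nr_zero, mul_zero, zero_add] at h1
    refine ⟨h1.trans ?_, h2⟩
    exact mul_le_of_le_one_right (by positivity) h2
  refine ⟨A⁻¹, hl1, ?_, fun f => ?_, fun a => ?_, fun a a' => ?_, ?_⟩
  · have h1 : A * (-(A⁻¹)ᵀ) = 1 := by
      have := congrArg Matrix.transpose hl1
      rwa [Matrix.transpose_mul, hAT, Matrix.transpose_one, Matrix.neg_mul, ← Matrix.mul_neg]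
        at this
    rw [Matrix.inv_eq_right_inv h1, neg_neg, ← Matrix.inv_eq_right_inv h1]
  · obtain ⟨h1, h2, -⟩ := main (A⁻¹ *ᵥ f) f 0 (by simp [hAG])
    rw [norm_zero, zero_add] at h2
    have hf := nr_nonneg f
    have h3 : nr (A⁻¹ *ᵥ f) ≤ (1 + c1 + c2 + c3) * L ^ 2 * nr f := by
      have h4 := mul_le_mul_of_nonneg_left h2 (by positivity : 0 ≤ (1 + g) * (2 * p) * b * L)
      have h5 : g * L ^ 2 * nr f + (1 + g) * (2 * p) * b * L * (b * (1 + g) * L * nr f) =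
          c1 * L ^ 2 * nr f := by rw [hc1]; ring
      have h6 : c1 * L ^ 2 * nr f ≤ (1 + c1 + c2 + c3) * L ^ 2 * nr f := by gcongr; linarith
      linarith
    have := dot_le_of_nr h3
    rwa [mul_pow, nr_sq] at this
  · have := dot_le_of_nr (hcol a).1
    rw [mul_pow, ← hc2] at this
    refine this.trans ?_
    gcongr
    linarith
  · have h1 : |c a ⬝ᵥ A⁻¹ *ᵥ c a'| ≤ 1 :=
      (norm_le_pi_norm (fun a => c a ⬝ᵥ A⁻¹ *ᵥ c a') a).trans (hcol a').2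
    linarith
  · set N : Matrix (Fin p × Fin 2) (Fin p × Fin 2) ℝ :=
      Matrix.of fun a b => c a ⬝ᵥ A⁻¹ *ᵥ c b with hN
    have hNs : ∀ s, ‖s‖ ≤ (2 * k + 1) * ‖N *ᵥ s‖ := by
      intro s
      obtain ⟨-, -, h3⟩ := main (A⁻¹ *ᵥ ∑ a, s a • c a) 0 s (by rw [hAG, zero_add])
      rw [nr_zero, mul_zero, add_zero] at h3
      have e : (fun a => c a ⬝ᵥ A⁻¹ *ᵥ ∑ a, s a • c a) = N *ᵥ s := by
        funext a
        rw [Matrix.mulVec_sum, dotProduct_sum]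
        simp only [Matrix.mulVec_smul, dotProduct_smul, smul_eq_mul, hN, Matrix.mulVec,
          Matrix.of_apply]
        exact Finset.sum_congr rfl fun x _ => mul_comm _ _
      rwa [e] at h3
    have hNinj : Function.Injective N.mulVec := by
      intro s s' h
      have := hNs (s - s')
      rw [Matrix.mulVec_sub, h, sub_self, norm_zero, mul_zero] at this
      exact sub_eq_zero.1 (norm_le_zero_iff.1 this)
    have hNu : IsUnit N.det := (Matrix.isUnit_iff_isUnit_det N).1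
      (Matrix.mulVec_injective_iff_isUnit.1 hNinj)
    have hent : ∀ a a', AbsoluteValue.abs (N⁻¹ a a') ≤ 2 * k + 1 := by
      intro a a'
      have h1 := hNs (N⁻¹ *ᵥ Pi.single a' 1)
      rw [Matrix.mulVec_mulVec, Matrix.mul_nonsing_inv N hNu, Matrix.one_mulVec, hn1,
        mul_one] at h1
      have h2 := (norm_le_pi_norm (N⁻¹ *ᵥ Pi.single a' 1) a).trans h1
      simpa using h2
    have hdet := Matrix.det_le hent
    rw [← hc3] at hdet
    have h1 : |N⁻¹.det| * |N.det| = 1 := by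
      rw [← abs_mul, Matrix.det_nonsing_inv_mul_det N hNu, abs_one]
    have h2 : |N⁻¹.det| ≤ 1 + c1 + c2 + c3 := by
      have : |N⁻¹.det| ≤ c3 := hdet
      linarith
    exact h1.symm.le.trans (mul_le_mul_of_nonneg_right h2 (abs_nonneg _))

open Geo I2 A1 in
theorem lastB_lowP (p : ℕ) {B Γ : ℝ → ℝ} (pB : Pol B) (pΓ : Pol Γ) : ∃ C : ℝ → ℝ, Pol C ∧
    ∀ X, 1 ≤ C X ∧ ∀ g : Geo, IsW g.A → ∀ ℓ : ℕ, 8 ≤ ℓ →
    ∀ c u : Fin p × Fin 2 → Tor g.M × Fin 4 → ℝ, (∀ a b, c a ⬝ᵥ u b = if a = b then 1 else 0) →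
    (∀ a, u a ⬝ᵥ u a ≤ B X * ℓ) → (∀ a, (Dm g.A *ᵥ u a) ⬝ᵥ (Dm g.A *ᵥ u a) * ℓ ≤ B X) →
    (∀ φ, (∀ a, c a ⬝ᵥ φ = 0) → ∀ t : Fin p × Fin 2 → ℝ, φ ⬝ᵥ φ ≤ (Γ X * ℓ) ^ 2 *
      ((Dm g.A *ᵥ φ - ∑ a, t a • c a) ⬝ᵥ (Dm g.A *ᵥ φ - ∑ a, t a • c a))) → ∀ h : ℝ, C X ≤ h →
    g.LastB ℓ h (C X * |aug (Ev.val (g.Om (∏ i, pp (g.ex (c (i, 0))) (g.ex (c (i, 1))))))|) := by
  obtain ⟨t, K, pt, pK, H⟩ := laP p pB pΓ
  refine ⟨fun X => K X * (1 + |-t X| * (2 * √(K X * (2 + 2 * Fintype.card (Fin p × Fin 2))) *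
    (2 * √(K X * (2 + 2 * Fintype.card (Fin p × Fin 2)))))) ^ Fintype.card (Fin p) +
      √(K X * (2 + 2 * Fintype.card (Fin p × Fin 2))) * 2 ^ 31, by fun_prop, fun X => ?_⟩
  obtain ⟨ht, hK, H⟩ := H X
  beta_reduce
  generalize B X = B at *
  generalize Γ X = Γ at *
  generalize t X = t at *
  generalize K X = K at *
  obtain ⟨κ, hκ⟩ : ∃ κ : ℝ, κ = K * (2 + 2 * Fintype.card (Fin p × Fin 2)) := ⟨_, rfl⟩
  have hκ0 : 0 ≤ κ := by rw [hκ]; positivity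
  obtain ⟨W, hW⟩ : ∃ W : ℝ, W = (1 + |-t| * (2 * √κ * (2 * √κ))) ^ Fintype.card (Fin p) :=
    ⟨_, rfl⟩
  have hW1 : 1 ≤ W := by
    rw [hW]
    exact one_le_pow₀ (le_add_of_nonneg_right (by positivity))
  have hKW : 1 ≤ K * W := one_le_mul_of_one_le_of_one_le hK hW1
  have hs0 : 0 ≤ √κ * 2 ^ 31 := by positivity
  rw [← hκ, ← hW]
  refine ⟨by linarith, fun g hA ℓ h8 c u h1 h2 h3 h4 h hh β hβ F hF => ?_⟩
  have hl : (1 : ℝ) ≤ ℓ := by exact_mod_cast (by omega : 1 ≤ ℓ)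
  have h0 : 0 < h := by linarith
  have hD := P144Z.W.isD_Dm hA
  obtain ⟨G, hi, hG, g1, g2, g3, g4⟩ := H _ (Dm g.A) hD.anti ℓ hl c u h1 h2 h3 h4
  have hG' : (-G)ᵀ = -(-G) := by rw [transpose_neg, hG]
  set m : (Fin p × Fin 2 → ℝ) →ₗ[ℝ] (g.S → ℝ) := exL g ∘ₗ Fintype.linearCombination ℝ c with hm
  have hm1 : ∀ a, m (Pi.single a 1) = g.ex (c a) := fun a => by
    rw [hm, LinearMap.comp_apply, Fintype.linearCombination_apply_single, one_smul]; rfl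
  have hm2 : ∀ a s, pr (fun a => g.ex (c a)) a s
      = evMap m (pr (fun a : Fin p × Fin 2 => Pi.single a 1) a s) := fun a s => by
    rw [evMap_pr]
    simp only [hm1]
  set a := aug (Ev.val (g.Om (pr (fun a => g.ex (c a)) 1 t))) with ha
  -- the normalisation
  have hn : |a| ≤ K * |aug (Ev.val (g.Om (∏ i, pp (g.ex (c (i, 0))) (g.ex (c (i, 1))))))| := by
    set N : Matrix (Fin p × Fin 2) (Fin p × Fin 2) ℝ := Matrix.of fun a b => c a ⬝ᵥ G *ᵥ c b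
      with hN
    have hNa : (-N)ᵀ = -(-N) := by
      ext a b
      simp only [hN, transpose_apply, Matrix.neg_apply, of_apply, neg_neg]
      rw [dotProduct_mulVec, ← mulVec_transpose, hG, neg_mulVec, neg_dotProduct, neg_neg,
        dotProduct_comm]
    have e1 := congrArg (fun x => aug (Ev.val x))
      (Om_low c t hG hi (pr (fun a => g.ex (c a)) 0 1))
    rw [pr_mul_top, map_mul, map_mul, ← ha, val_noF, aug_map, val_evG, hm2 0 1, val_evMap,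
      gauss_map hNa (I2.exM_anti g hG') m (mem_loc_univ _) (fun s _ s' _ => by
        rw [hm1, hm1, RN.exM_dot, ex_inl, ex_inl, neg_mulVec, dotProduct_neg]; rfl),
      aug_map, ← H4.ex_apply, ← hm2, pr_top] at e1
    have e2 := pf_top hNa
    rw [det_neg, abs_mul, abs_pow, abs_neg, abs_one, one_pow, one_mul] at e2
    rw [← e2] at g4
    rw [e1, abs_mul, ← mul_assoc]
    refine le_mul_of_one_le_left (abs_nonneg _) ?_
    rw [← sq_abs] at g4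
    set x := |H4.ex (-N) (pr (fun a : Fin p × Fin 2 => Pi.single a 1) 0 1)|
    have hx : 0 ≤ x := abs_nonneg _
    by_contra hc
    push Not at hc
    nlinarith [mul_nonneg hx (sub_nonneg.2 hK), mul_nonneg (mul_nonneg hx hx) (sub_nonneg.2 hK)]
  -- the norm
  have hTL : g.TL ℓ F = a • g.noF (evG (g.exM (-G))
      (pr (fun a => g.ex (c a)) 1 (-t) * evMap (g.smo ℓ) F)) := by
    rw [← mul_one (g.noF _), ← mul_smul_comm, ha, ← Om_pr, ← Om_low c t hG hi, ← mul_assoc,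
      pr_inv, one_mul, TL]
  have hb : g.ps β univ (g.noF (evG (g.exM (-G))
      (pr (fun a => g.ex (c a)) 1 (-t) * evMap (g.smo ℓ) F))) ≤ W * g.pn ℓ h β univ F := by
    refine RN.pn_le le_rfl one_pos hβ (noF_mem_univ _) fun r hr => ?_
    obtain ⟨r₁, r₂, b1, b2, b3⟩ := pull2 (I2.exM_anti g hG') (g.smo ℓ) m
      (Matrix.toLin' (Rm (Dm g.A) ℓ) ∘ₗ LinearMap.funLeft ℝ ℝ Sum.inl) hκ0 (by linarith : (0:ℝ) ≤ ℓ)
      (fun δ α δ' α' => by
        have e : ∀ δ α, (g.smo ℓ δ + m α) ∘ Sum.inl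
            = Rm (Dm g.A) ℓ *ᵥ (δ ∘ Sum.inl) + ∑ a, α a • c a := fun δ α => by
          rw [← act_inl]; rfl
        rw [RN.exM_dot, e, e, neg_mulVec, dotProduct_neg, neg_sq, hκ]
        exact gram_low hG c hK (by linarith) g1 g2 g3 _ _ α α') (A3.comap r (pS g))
    rw [val_noF, ← A3.opn_comap_ev, val_evG, map_mul, hm2, val_evMap, val_evMap]
    refine (b3 _ _).trans (mul_le_mul ?_ (RN.le_pn (by omega) h0 hβ hF fun q hq => ?_)
      (A3.opn_nonneg _) (by linarith))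
    · rw [hW]
      refine opn_pr r₂ _ (fun a => (b2 _).trans (le_of_eq ?_)) _
      rw [A3.opn_comap, hm1, pS_ex, RN.opn_Psi_zero, zero_add, single_one_dotProduct,
        Pi.single_eq_same, mul_one]
    · rcases RN.cons_cases hq with ⟨z, hz, δ, c', hs, hc', hd, rfl⟩ | ⟨k, i, hk, rfl⟩
      · refine (b1 _).trans ?_
        have a1 := Rm_dom hD (ℓ := ℓ) (δ := δ) (c := c') fun u => (hd u).trans
          (mul_le_mul_of_nonneg_left (by
            refine (RN.hsq_mono g.A (Nat.cast_nonneg ℓ) le_rfl (subset_univ _) u).trans_eq ?_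
            simp only [hsq, E4.l2sq_univ]) (sq_nonneg _))
        have a2 : √(κ * (ℓ * ((Rm (Dm g.A) ℓ *ᵥ δ) ⬝ᵥ (Rm (Dm g.A) ℓ *ᵥ δ))))
            ≤ √κ * 2 ^ 30 * c' := by
          refine Real.sqrt_le_iff.2 ⟨by positivity, ?_⟩
          rw [mul_pow, mul_pow, Real.sq_sqrt hκ0, mul_assoc]
          exact mul_le_mul_of_nonneg_left (a1.trans (le_of_eq (by norm_num))) hκ0
        rw [A3.opn_comap, smo_eq, pS_act, pS_ex, RN.opn_Psi_zero, zero_add]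
        change 2 * √(κ * (ℓ * ((Rm (Dm g.A) ℓ *ᵥ δ) ⬝ᵥ (Rm (Dm g.A) ℓ *ᵥ δ)))) ≤ h * c'
        have a3 : √κ * 2 ^ 31 * c' ≤ h * c' := mul_le_mul_of_nonneg_right (by linarith) hc'
        linarith
      · refine (b1 _).trans ?_
        have e : (Matrix.toLin' (Rm (Dm g.A) ℓ) ∘ₗ LinearMap.funLeft ℝ ℝ Sum.inl)
            (Pi.single (Sum.inr (k, i)) 1 : g.S → ℝ) = 0 := by
          have : LinearMap.funLeft ℝ ℝ Sum.inl (Pi.single (Sum.inr (k, i)) 1 : g.S → ℝ) = 0 := by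
            funext s
            simp [LinearMap.funLeft_apply]
          rw [LinearMap.comp_apply, this, map_zero]
        rw [A3.opn_comap, smo_eq, pS_act, e, zero_dotProduct, mul_zero, mul_zero, Real.sqrt_zero,
          mul_zero, add_zero, RN.prB_src]
        exact RN.In.src hr hk i
  rw [hTL, ps, RN.pn_smul le_rfl one_pos hβ]
  refine (mul_le_mul hn hb (RN.pn_nonneg _) (by positivity)).trans ?_
  have p1 := RN.pn_nonneg (g := g) (ℓ := ℓ) (h := h) (β := β) (X := univ) F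
  have p2 := abs_nonneg (aug (Ev.val (g.Om (∏ i, pp (g.ex (c (i, 0))) (g.ex (c (i, 1)))))))
  nlinarith [mul_nonneg (mul_nonneg hs0 p2) p1]

end

/-- The gap and the bound on the last integration with polynomial constants. -/
def KStmtP : Prop :=
  ∀ (N n : ℕ) (Λ₀ : ℝ → ℕ), PolN Λ₀ → ∃ C Γ h : ℝ → ℝ, Pol C ∧ Pol Γ ∧ Pol h ∧ ∃ r₀ : ℕ, ∀ X,
    0 ≤ C X ∧ 1 ≤ Γ X ∧ 0 < h X ∧ ∀ (M : ℕ) [NeZero M]
    (Λ : Finset (ℤ × ℤ)) (fr : Bool) (T r ℓ H : ℕ) (x : Fin n → ℤ × ℤ) (a : ℤ × ℤ)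
    (hs : Fin H → ℤ × ℤ) (S : Finset (Fin H)), Rgh (regOf M Λ fr).In N r → Holes Λ T r a hs →
    Spins Λ r x → (fr = true → H = 0 ∧ Even n) → r₀ ≤ r → 8 ≤ ℓ → ℓ ≤ r → r ≤ T → T ≤ Λ₀ X * ℓ →
    64 * T ≤ M →
      (∀ φ, φ ⬝ᵥ φ ≤ (Γ X * ℓ) ^ 2 *
        ((Dm (regOf M Λ fr).pw *ᵥ φ) ⬝ᵥ (Dm (regOf M Λ fr).pw *ᵥ φ))) ∧
      ∀ (ι : Type) [Fintype ι] [DecidableEq ι] (y : ι → Tor M) (d : ι → Fin 2) (J : ℕ),
        (geoD M ((regOf M Λ fr).pw * (spinG M a x * holeG M a hs S)) y d J).LastB ℓ (h X)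
          (C X * (ℓ : ℝ) ^ (-((n : ℝ) / 8)) * |Zw par0 (regOf M Λ fr).pw 1|)

open K in
theorem coreP (hG : GapP) (hS : StrS) (hP : PlusS) (hF : FreeS) : KStmtP := by
  intro N n Λ₀ pΛ
  obtain ⟨Γ₀, pΓ, r₀, HG⟩ := hG N _ (((PolN.const 2).mul pΛ).add (PolN.const 1))
  obtain ⟨C₁, hC₁, H₁⟩ := LM.lastB_gap
  obtain ⟨B, hB, HB⟩ := LM.low_mode
  unfold PolN at pΛ
  obtain ⟨C₂, pC, H₂⟩ := lastB_lowP (n / 2) (B := fun X => B * (Λ₀ X + 16))
    (Γ := fun X => Γ₀ X * (Λ₀ X + 1)) (by fun_prop) (by fun_prop)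
  obtain ⟨C₃, hC₃, H₃⟩ := hP n
  obtain ⟨C₄, hC₄, H₄⟩ := hF (n / 2)
  refine ⟨fun X => C₃ + C₂ X * C₄, fun X => Γ₀ X * (Λ₀ X + 1),
    fun X => C₁ * (Γ₀ X * (Λ₀ X + 1)) + C₂ X, by fun_prop, by fun_prop, by fun_prop, r₀ + 2048,
    fun X => ?_⟩
  obtain ⟨hΓ₀, HG⟩ := HG X
  obtain ⟨hC₂, H₂⟩ := H₂ X
  beta_reduce at *
  generalize Λ₀ X = Λ₀ at *
  generalize Γ₀ X = Γ₀ at *
  generalize C₂ X = C₂ at *
  set Γ : ℝ := Γ₀ * (Λ₀ + 1) with hΓd
  have hΓ : 1 ≤ Γ := one_le_mul_of_one_le_of_one_le hΓ₀ (by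
    have : (0 : ℝ) ≤ Λ₀ := Nat.cast_nonneg _
    linarith)
  refine ⟨by positivity, hΓ, by positivity, ?_⟩
  intro M _ Λ fr T r ℓ H x a hs S hsh hH hx hfr hr hℓ hℓr hrT hT hM
  have hbox := in_le (M := M) (fr := fr) hH.box
  have hsq : (Γ₀ * ((T + 1 : ℕ) : ℝ)) ^ 2 ≤ (Γ * ℓ) ^ 2 := by
    refine pow_le_pow_left₀ (by positivity) ?_ 2
    have h1 : T + 1 ≤ (Λ₀ + 1) * ℓ := by nlinarith
    have h2 : ((T + 1 : ℕ) : ℝ) ≤ (Λ₀ + 1) * ℓ := by exact_mod_cast h1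
    rw [hΓd, mul_assoc]
    exact mul_le_mul_of_nonneg_left h2 (by linarith)
  have hTr : T + 1 ≤ (2 * Λ₀ + 1) * (r - 1) := by
    have h1 : Λ₀ * ℓ ≤ Λ₀ * (2 * (r - 1)) := Nat.mul_le_mul_left _ (by omega)
    have h2 : (2 * Λ₀ + 1) * (r - 1) = Λ₀ * (2 * (r - 1)) + (r - 1) := by ring
    omega
  have gap : ∀ B : Gauge M, Str (regOf M Λ fr).pw B (r - 1) →
      (∀ e, T + 1 < tdist e.1 0 → B e = 1) → ∀ (φ : Tor M × Fin 4 → ℝ) (t : Tor M → ℝ),
      (fr = true → ∀ f, flux B f = -1 → cnr f ⬝ᵥ φ = 0) →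
      (∀ f, t f ≠ 0 → fr = true ∧ flux B f = -1) → φ ⬝ᵥ φ ≤ (Γ * ℓ) ^ 2 *
        ((Dm ((regOf M Λ fr).pw * B) *ᵥ φ - ∑ f, t f • cnr f) ⬝ᵥ
          (Dm ((regOf M Λ fr).pw * B) *ᵥ φ - ∑ f, t f • cnr f)) := by
    intro B h1 h2 φ t h3 h4
    have := HG M (regOf M Λ fr) B (T + 1) (r - 1) (hsh.mono (by omega)) h1
      (fun f hf => (hbox f hf).trans (by omega)) h2 (by omega) (by omega) hTr (by omega) φ t h3 h4
    rw [l2sq_univ', l2sq_univ'] at this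
    exact this.trans (mul_le_mul_of_nonneg_right hsq (dot_nn _))
  obtain ⟨s1, s2, s3, s4⟩ := hS M Λ fr T r n H x a hs S hH hx hfr (by omega) (by omega)
  refine ⟨fun φ => ?_, fun ι _ _ y d J => ?_⟩
  · have := gap 1 (str_one' _ _) (fun _ _ => rfl) φ 0 (fun _ f hf => by
      simp only [flux, Pi.one_apply] at hf
      norm_num at hf) (fun f hf => absurd rfl hf)
    simpa using this
  have hW := isW_mul (regOf M Λ fr) s1.sign
  have hp := rpow_le hℓ hℓr n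
  have hp0 : 0 ≤ (ℓ : ℝ) ^ (-((n : ℝ) / 8)) := by positivity
  cases fr
  · refine lastB_mono (H₁ (geoD M _ y d J) hW ℓ hℓ Γ hΓ (fun φ => ?_) _ (by linarith)) ?_
    · have := gap _ s1 s2 φ 0 (fun h => absurd h (by simp)) (fun f hf => absurd rfl hf)
      simp only [Pi.zero_apply, zero_smul, Finset.sum_const_zero, sub_zero] at this
      exact this
    · refine (H₃ M Λ T r H x a hs S hH hx (by omega) (by omega)).trans ?_
      refine mul_le_mul_of_nonneg_right ?_ (abs_nonneg _)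
      exact mul_le_mul (by nlinarith [mul_nonneg (zero_le_one.trans hC₂) hC₄]) hp (by positivity)
        (by positivity)
  · obtain ⟨-, hev⟩ := hfr rfl
    have hn : n / 2 * 2 = n := Nat.div_mul_cancel hev.two_dvd
    let e : Fin (n / 2) × Fin 2 ≃ Fin n := finProdFinEquiv.trans (finCongr hn)
    have s4' := s4 rfl
    have hx' : Spins Λ r (fun b => x (e b)) :=
      ⟨fun i => hx.ins (e i), fun i i' h => hx.sep _ _ (e.injective.ne h)⟩
    have hfl : ∀ b, flux (spinG M a x * holeG M a hs S) (prj M (x (e b))) = -1 := fun b =>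
      (s4' _).2 ⟨_, rfl⟩
    have hxT : ∀ i, zd (x i) 0 ≤ T := fun i => hH.box _ (hx.ins i _ (by simp [zd]))
    have hne : ∀ b b', b ≠ b' → prj M (x (e b)) ≠ prj M (x (e b')) := by
      intro b b' hb h
      have h1 := hx'.sep b b' hb
      have h2 := hxT (e b)
      have h3 := hxT (e b')
      have h4 : prj M (x (e b) - x (e b')) = 0 := by rw [G.prj_sub, h, sub_self]
      simp only [prj, Prod.mk_eq_zero, ZMod.intCast_zmod_eq_zero_iff_dvd, Prod.fst_sub,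
        Prod.snd_sub] at h4
      simp only [zd, Prod.fst_zero, Prod.snd_zero, sub_zero] at h1 h2 h3
      have h5 := Int.eq_zero_of_dvd_of_natAbs_lt_natAbs h4.1 (by omega)
      have h6 := Int.eq_zero_of_dvd_of_natAbs_lt_natAbs h4.2 (by omega)
      omega
    have hu : ∀ b, ∃ u, SuppIn u (prj M (x (e b))) (r / 8) ∧ cnr (prj M (x (e b))) ⬝ᵥ u = 1 ∧
        u ⬝ᵥ u ≤ B * (r / 8 : ℕ) ∧
        (Dm ((regOf M Λ true).pw * (spinG M a x * holeG M a hs S)) *ᵥ u) ⬝ᵥ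
        (Dm ((regOf M Λ true).pw * (spinG M a x * holeG M a hs S)) *ᵥ u) * (r / 8 : ℕ) ≤ B :=
      fun b => HB M _ hW _ (r / 8) (by omega) (by omega) ((s3 _).2 ⟨_, rfl⟩) fun f' h1 h2 =>
        flux_near s1 (hfl b) ((s3 _).2 ⟨_, rfl⟩) (by omega) h1 (by omega)
    choose u u1 u2 u3 u4 using hu
    have hΛ : (0 : ℝ) ≤ Λ₀ := Nat.cast_nonneg _
    refine lastB_mono (H₂ (geoD M _ y d J) hW ℓ hℓ (fun b => cnr (prj M (x (e b)))) u
      (fun b b' => ?_) (fun b => ?_) (fun b => ?_) (fun φ hφ t => ?_) _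
      (by nlinarith [mul_nonneg (zero_le_one.trans hC₁) (zero_le_one.trans hΓ)])) ?_
    · split_ifs with h
      · rw [h]; exact u2 b'
      · refine cnr_dot (u1 b') ?_
        exact lt_of_le_of_lt (by omega) (s1.sep _ _ (hfl b) (hfl b') (hne b b' h))
    · refine (u3 b).trans ?_
      have h1 : r / 8 ≤ (Λ₀ + 16) * ℓ := by
        have : r / 8 ≤ r := Nat.div_le_self _ _
        nlinarith
      have h2 : ((r / 8 : ℕ) : ℝ) ≤ (Λ₀ + 16) * ℓ := by exact_mod_cast h1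
      rw [mul_assoc]
      exact mul_le_mul_of_nonneg_left h2 (by linarith)
    · have h2 : (ℓ : ℝ) ≤ 16 * ((r / 8 : ℕ) : ℝ) := by exact_mod_cast (by omega : ℓ ≤ 16 * (r / 8))
      have h3 := u4 b
      refine (mul_le_mul_of_nonneg_left h2 (dot_nn _)).trans ?_
      have h4 : 0 ≤ B * Λ₀ := by positivity
      rw [mul_left_comm]
      exact (mul_le_mul_of_nonneg_left h3 (by norm_num)).trans (by linarith)
    · have h1 := gap _ s1 s2 φ (fun f => ∑ b, if f = prj M (x (e b)) then t b else 0)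
        (fun _ f hf => by
          obtain ⟨i, rfl⟩ := (s4' f).1 hf
          have := hφ (e.symm i)
          rw [e.apply_symm_apply] at this
          exact this)
        (fun f hf => by
          obtain ⟨b, -, hb⟩ := Finset.exists_ne_zero_of_sum_ne_zero hf
          have : f = prj M (x (e b)) := by
            by_contra h
            exact hb (if_neg h)
          exact ⟨rfl, this ▸ hfl b⟩)
      have h2 : (∑ f, (∑ b, if f = prj M (x (e b)) then t b else 0) • cnr f) =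
          ∑ b, t b • cnr (prj M (x (e b))) := by
        simp only [Finset.sum_smul, ite_smul, zero_smul]
        rw [Finset.sum_comm]
        simp
      rw [h2] at h1
      exact h1
    · have h1 := H₄ M Λ T r (fun b => x (e b)) _ s1.sign hH.box hx' (by omega) (by omega) ι y d J
      have h2 : ((2 * (n / 2) : ℕ) : ℝ) = n := by rw [mul_comm, hn]
      rw [h2] at h1
      refine (mul_le_mul_of_nonneg_left h1 (by linarith)).trans ?_
      rw [← mul_assoc, ← mul_assoc]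
      refine mul_le_mul_of_nonneg_right ?_ (abs_nonneg _)
      exact mul_le_mul (by linarith) hp (by positivity) (by positivity)

theorem kStmtP : KStmtP :=
  coreP gapP (fun _ _ _ _ _ _ _ _ _ _ _ S h1 h2 hfr hr hM =>
    let H := str_reg S h1 h2 hfr hr hM
    ⟨H.1, H.2.1, H.2.2.1, H.2.2.2.1⟩) plus_K free_K

end Vale.Agent.P144DA
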