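import Vale.Agent.P144DA.Flow
import Vale.Agent.P144DA.LA
import Vale.Agent.P144U.Free.Half

/-!
The correlations of a set in terms of the dug set, with polynomial constants.
-/

namespace Vale.Agent.P144DA

open Finset Vale.Agent.P144Z Vale.Agent.P144 UL FrU

theorem prod_close {ι : Type} (s : Finset ι) {f g : ι → ℝ} {c η : ℝ} (hc : 1 ≤ c) (hη : 0 ≤ η)
    (hf : ∀ i, |f i| ≤ c) (hg : ∀ i, |g i| ≤ c) (h : ∀ i, |f i - g i| ≤ η) :
    |∏ i ∈ s, f i| ≤ c ^ s.card ∧ |∏ i ∈ s, f i - ∏ i ∈ s, g i| ≤ s.card * (c ^ s.card * η) := by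
  classical
  induction s using Finset.induction_on with
  | empty => simp
  | insert a s ha ih =>
    rw [prod_insert ha, prod_insert ha, card_insert_of_notMem ha, pow_succ]
    have h0 : 0 ≤ c ^ s.card := by positivity
    have h1 : |f a * ∏ i ∈ s, f i - g a * ∏ i ∈ s, g i| ≤
        η * c ^ s.card + c * (s.card * (c ^ s.card * η)) := by
      rw [show f a * ∏ i ∈ s, f i - g a * ∏ i ∈ s, g i = (f a - g a) * ∏ i ∈ s, f i +
        g a * (∏ i ∈ s, f i - ∏ i ∈ s, g i) by ring]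
      refine (abs_add_le _ _).trans (add_le_add ?_ ?_) <;> rw [abs_mul]
      · exact mul_le_mul (h a) ih.1 (abs_nonneg _) hη
      · exact mul_le_mul (hg a) ih.2 (abs_nonneg _) (by linarith)
    refine ⟨?_, h1.trans ?_⟩
    · rw [abs_mul, mul_comm]
      exact mul_le_mul ih.1 (hf a) (abs_nonneg _) h0
    · push_cast
      nlinarith [mul_nonneg (mul_nonneg h0 hη) (sub_nonneg.2 hc)]

theorem psi_contP (m : ℕ) {B ε : ℝ → ℝ} (pB : Pol B) (hε : Sm ε) : ∃ δ, Sm δ ∧ ∀ X,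
    ∀ (D D' : ℝ) (A A' : Fin m → ℝ) (N N' : Finset (Fin m) → ℝ), 1 ≤ D' → D' ≤ B X →
    (∀ k, |A' k| ≤ B X) → (∀ t, |N' t| ≤ B X) → |D - D'| ≤ δ X → (∀ k, |A k - A' k| ≤ δ X) →
    (∀ t, |N t - N' t| ≤ δ X) → |UL.psi D A N - UL.psi D' A' N'| ≤ ε X := by
  refine ⟨_, (Sm.const (c := 1 / 2) (by norm_num)).min (hε.div (g := fun X => 2 ^ m * ((m + 1) *
    ((2 * |B X| + 1) ^ (m + 1) * (2 * (1 + |B X|))))) (by fun_prop) fun X => by positivity),
    fun X D D' A A' N N' h1 h2 h3 h4 h5 h6 h7 => ?_⟩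
  replace hε := hε.1 X
  beta_reduce at h5 h6 h7
  generalize ε X = ε at *
  generalize B X = B at *
  rw [abs_of_nonneg (show 0 ≤ B by linarith)] at h5 h6 h7
  have hB : 1 ≤ B := h1.trans h2
  obtain ⟨δ, hδ, d1, d2⟩ : ∃ δ, min (1 / 2) (ε / (2 ^ m * ((m + 1) * ((2 * B + 1) ^ (m + 1) *
      (2 * (1 + B)))))) = δ ∧ δ ≤ 1 / 2 ∧
      δ * (2 ^ m * ((m + 1) * ((2 * B + 1) ^ (m + 1) * (2 * (1 + B))))) ≤ ε :=
    ⟨_, rfl, min_le_left _ _, (le_div_iff₀ (by positivity)).1 (min_le_right _ _)⟩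
  rw [hδ] at h5 h6 h7
  have d0 : 0 ≤ δ := (abs_nonneg _).trans h5
  have h8 := abs_le.1 h5
  have hD : 1 / 2 ≤ D := by linarith
  have k : ∀ a a' : ℝ, |a'| ≤ B → |a - a'| ≤ δ → |a' / D'| ≤ 2 * B + 1 ∧ |a / D| ≤ 2 * B + 1 ∧
      |a / D - a' / D'| ≤ 2 * (1 + B) * δ := fun a a' e1 e2 => by
    have k1 : |a' / D'| ≤ B := by
      rw [abs_div, abs_of_pos (show 0 < D' by linarith)]
      exact (div_le_self (abs_nonneg _) h1).trans e1
    have k2 : |a / D - a' / D'| ≤ 2 * (1 + B) * δ := by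
      rw [show a / D - a' / D' = (a - a' - a' / D' * (D - D')) / D by field_simp; ring, abs_div,
        abs_of_pos (show 0 < D by linarith), div_le_iff₀ (by linarith)]
      have k3 := abs_sub (a - a') (a' / D' * (D - D'))
      rw [abs_mul] at k3
      have k4 := mul_le_mul k1 h5 (abs_nonneg _) (by linarith)
      nlinarith [mul_nonneg (mul_nonneg (by linarith : 0 ≤ 1 + B) d0) (sub_nonneg.2 hD)]
    have k3 := abs_add_le (a / D - a' / D') (a' / D')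
    rw [sub_add_cancel] at k3
    exact ⟨by linarith, by nlinarith, k2⟩
  unfold UL.psi
  rw [← sum_sub_distrib]
  refine (abs_sum_le_sum_abs _ _).trans ((sum_le_card_nsmul _ _
    ((m + 1) * ((2 * B + 1) ^ (m + 1) * (2 * (1 + B) * δ))) fun t _ => ?_).trans ?_)
  · have c1 : (1 : ℝ) ≤ 2 * B + 1 := by linarith
    obtain ⟨p1, p2⟩ := prod_close tᶜ (f := fun i => -(A i / D)) (g := fun i => -(A' i / D')) c1
      (η := 2 * (1 + B) * δ) (by positivity)
      (fun i => by rw [abs_neg]; exact (k _ _ (h3 i) (h6 i)).2.1)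
      (fun i => by rw [abs_neg]; exact (k _ _ (h3 i) (h6 i)).1)
      fun i => by rw [neg_sub_neg, abs_sub_comm]; exact (k _ _ (h3 i) (h6 i)).2.2
    obtain ⟨q1, -, q3⟩ := k _ _ (h4 t) (h7 t)
    have cd : tᶜ.card ≤ m := by simpa using card_le_univ tᶜ
    have c2 : (2 * B + 1) ^ tᶜ.card ≤ (2 * B + 1) ^ m := pow_le_pow_right₀ c1 cd
    have c3 : (tᶜ.card : ℝ) ≤ m := by exact_mod_cast cd
    replace p1 := p1.trans c2
    replace p2 := p2.trans (mul_le_mul c3 (mul_le_mul_of_nonneg_right c2 (by positivity))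
      (by positivity) (by positivity))
    generalize ∏ i ∈ tᶜ, -(A i / D) = P at *
    generalize ∏ i ∈ tᶜ, -(A' i / D') = P' at *
    have e0 : 0 ≤ 2 * (1 + B) * δ := by positivity
    generalize 2 * (1 + B) * δ = η at *
    rw [show P * (N t / D) - P' * (N' t / D') = P * (N t / D - N' t / D') + (P - P') * (N' t / D')
      by ring]
    refine (abs_add_le _ _).trans ?_
    rw [abs_mul, abs_mul, pow_succ]
    have g0 : 0 ≤ (2 * B + 1) ^ m := by positivity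
    have g1 := mul_le_mul p1 q3 (abs_nonneg _) g0
    have g2 := mul_le_mul p2 q1 (abs_nonneg _) (by positivity)
    nlinarith [mul_nonneg (mul_nonneg g0 e0) (sub_nonneg.2 c1)]
  · rw [card_univ, Fintype.card_finset, Fintype.card_fin, nsmul_eq_mul]
    push_cast
    linarith

open TiltH in
/-- The correlations of a set in terms of the nearest-neighbour model on the dug set. -/
theorem halfWP (hS : SpStmt) (R₁ t n m k₀ : ℕ) {B ε : ℝ → ℝ} (pB : Pol B) {θ σ : ℝ} (Zσ Zε : ℝ)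
    (ht : 1 ≤ t)
    (hθ : 0 < θ) (hσ : 0 ≤ σ) (hε : Sm ε) : ∃ ε', Sm ε' ∧ ∀ X,
    ∀ (J lam β : ℝ) (q : Par) (γ : ℝ), UL.Rel J lam β q →
    (∀ B, q.V B ≠ 0 → (0, 0) ∈ B → B ∈ potSets R₁) → 1 / 4 ≤ q.x → q.x ≤ 1 / 2 → q.Small 1 →
    ∀ (M : ℕ) [NeZero M] (Λ P : Finset Site) (fr : Bool) (T r H : ℕ) (a : Site)
    (hs : Fin H → Site) (x : Fin n → Site) (y : Fin m → Site) (j : Fin m → Fin 2) (ℓ : ℝ),
    Holes (dig Λ P t) T r a hs → (fr = false → Cn M (dig Λ P t) a hs) →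
    (fr = true → H = 0 ∧ Even n) → (∀ p ∈ P, zd p 0 ≤ T) →
    (∀ p ∈ P, ∀ p' ∈ P, p ≠ p' → 2 * (t + R₁ + 2) < zd p p') → P.card ≤ k₀ →
    4 * (T + t + R₁ + q.R + 4) ≤ M → (∀ i, x i ∈ dig Λ P t) →
    (∀ k, y k ∈ dig Λ P t ∧ y k + dir (j k) ∈ dig Λ P t) → 0 < ℓ →
    ((regOf M (dig Λ P t) fr).cor q).Ok →
    ((regOf M (dig Λ P t) fr).cor q).Off (regOf M (dig Λ P t) fr).pw →
    ((regOf M (dig Λ P t) fr).cor q).Wt σ γ →
    CoreW q Zσ Zε σ (γ + θ) (regOf M (dig Λ P t) fr) a hs y j x ℓ (B X) (ε' X) →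
    CoreW q Zσ Zε σ (γ + θ) (regOf M (dig Λ P t) fr) a hs y j Fin.elim0 ℓ (B X) (ε' X) →
      ℓ ^ ((n : ℝ) / 8) * ℓ ^ m *
        |lcor (gibbs J lam q.V β (if fr then none else some fun _ => true) Λ) x y j -
          Zσ ^ n * Zε ^ m * UL.psi (mx par0 (regOf M (dig Λ P t) fr) a hs y j Fin.elim0 ∅)
            (fun k => mx par0 (regOf M (dig Λ P t) fr) a hs y j Fin.elim0 {k})
            (mx par0 (regOf M (dig Λ P t) fr) a hs y j x)| ≤ ε X := by
  obtain ⟨C, hC, hS⟩ := hS R₁ t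
  obtain ⟨B₁, hT⟩ := tilt k₀ (t + R₁ + 2) hC hθ hσ
  set z : ℝ := (|Zσ| + 1) ^ n * (|Zε| + 1) ^ m with hz
  have a1 : 1 ≤ |Zσ| + 1 := by linarith [abs_nonneg Zσ]
  have a2 : 1 ≤ |Zε| + 1 := by linarith [abs_nonneg Zε]
  have a6 : ∀ i ≤ n, ∀ k ≤ m, |Zσ ^ i * Zε ^ k| ≤ z := fun i hi k hk => by
    rw [abs_mul, abs_pow, abs_pow]
    exact mul_le_mul ((pow_le_pow_left₀ (abs_nonneg _) (by linarith) i).trans
      (pow_le_pow_right₀ a1 hi)) ((pow_le_pow_left₀ (abs_nonneg _) (by linarith) k).trans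
        (pow_le_pow_right₀ a2 hk)) (by positivity) (by positivity)
  obtain ⟨δ₀, sδ, hψ⟩ := psi_contP m (B := fun X => z * |B X|) (by fun_prop) hε
  refine ⟨_, (Sm.const one_pos).min (sδ.div
    (g := fun X => B₁ ^ 2 * (1 + 2 ^ m * (1 + z * |B X|)) + 1) (by fun_prop)
      fun X => by positivity), fun X J lam β q γ hq hR x1 x2 hsm M _ Λ P fr T
    r H a hs x y j ℓ h1 hc hfr hP hsep hk hM hx hy hℓ c1 c2 c3 d₁ d₀ => ?_⟩
  have hδ₀ := sδ.1 X
  replace hψ := hψ X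
  clear sδ hε pB
  beta_reduce at hψ d₁ d₀
  generalize B X = B at *
  generalize ε X = ε at *
  generalize δ₀ X = δ₀ at *
  set κ : ℝ := B₁ ^ 2 * (1 + 2 ^ m * (1 + z * |B|)) with hκ
  have κ0 : 0 ≤ κ := by positivity
  have κ1 : κ * min 1 (δ₀ / (κ + 1)) ≤ δ₀ := by
    refine (mul_le_mul_of_nonneg_left (min_le_right _ _) κ0).trans ?_
    rw [← mul_div_assoc, div_le_iff₀ (by linarith)]
    nlinarith
  obtain ⟨O, hO, hb, hG⟩ := hS J lam β q hq hR x1 x2 hsm M Λ P fr T r H a hs h1 hc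
    (fun h => (hfr h).1) hP hsep hM
  have x0 : 0 < q.x := by linarith
  obtain ⟨u, c, hu, s1, s2, hT⟩ := hT q x0 M (dig Λ P t) P fr T O γ h1.box
    (fun p hp => ⟨hP p hp, fun v hv h => by
      have := (mem_dig.1 h).2 p hp
      omega⟩) hsep hk (by omega) hO hb c1 c2 c3
  have hu' : ∀ U, (u U).Ok ∧ (u U).Off (regOf M (dig Λ P t) fr).pw ∧ (u U).Wt σ (γ + θ) :=
    fun U => ⟨(hu U).1, (hu U).2.1, (hu U).2.2.1⟩
  have Z0 := (avg x0 h1.box (by omega : 4 * (T + q.R + 2) ≤ M) fr).1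
  have ω0 : ∑ U ∈ P.powerset, c U ≠ 0 := fun h => by
    rw [h, mul_zero] at s2
    linarith
  have e₁ := est hT hu' ∅ s1 s2 (by positivity) (min_le_left _ _) hℓ (a6 n le_rfl) d₁
  have e₀ := est hT hu' ∅ s1 s2 (by positivity) (min_le_left _ _) hℓ (a6 0 (Nat.zero_le n)) d₀
  simp only [Nat.cast_zero, zero_div, Real.rpow_zero, pow_zero, one_mul] at e₀
  set R := regOf M (dig Λ P t) fr with hRR
  set e : Fin m → ℝ := fun k => enC q (u ∅) R.pw (yE M y j k) (dE y j k) with he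
  have q1 : lcor (gibbs J lam q.V β (if fr then none else some fun _ => true) Λ) x y j =
      UL.psi (nW q R a hs y j e (fun n => ∏ p ∈ P, O p n) Fin.elim0 ∅)
        (fun k => nW q R a hs y j e (fun n => ∏ p ∈ P, O p n) Fin.elim0 {k})
        (nW q R a hs y j e (fun n => ∏ p ∈ P, O p n) x) := by
    refine recentre _ Λ _ (fun k σ => sp (σ (y k)) * sp (σ (y k + dir (j k)))) e (fun k => ?_)
      (sec_W (UG.gibbs_one _ _) hG Z0 h1 hx hy (fun h => (hfr h).2) e)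
    have h := sec_W (x := Fin.elim0) (UG.gibbs_one _ _) hG Z0 h1 (fun i => i.elim0) hy
      (fun _ => Even.zero) e {k}
    simpa only [univ_eq_empty, prod_empty, one_mul, prod_singleton] using h
  have o1 := TiltH.one_le_mx (M := M) (a := a) (hs := hs) y j h1.box (by omega) fun h => (hfr h).1
  set w : ℝ := ℓ ^ ((n : ℝ) / 8) with hw
  have w0 : 0 < w * ℓ ^ m := by positivity
  have key := hψ (nW q R a hs y j e (fun n => ∏ p ∈ P, O p n) Fin.elim0 ∅ / ∑ U ∈ P.powerset, c U)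
    _ (fun k => ℓ * (nW q R a hs y j e (fun n => ∏ p ∈ P, O p n) Fin.elim0 {k} /
      ∑ U ∈ P.powerset, c U)) (fun k => Zε * ℓ * mx par0 R a hs y j Fin.elim0 {k})
    (fun t => w * ℓ ^ t.card * (nW q R a hs y j e (fun n => ∏ p ∈ P, O p n) x t /
      ∑ U ∈ P.powerset, c U))
    (fun t => Zσ ^ n * w * (Zε * ℓ) ^ t.card * mx par0 R a hs y j x t) o1
    (by
      have h := (e₀ ∅).2
      simp only [card_empty, pow_zero, one_mul] at h
      exact (le_abs_self _).trans h)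
    (fun k => by simpa only [card_singleton, pow_one] using (e₀ {k}).2) (fun t => (e₁ t).2)
    (by simpa only [card_empty, pow_zero, one_mul] using (e₀ ∅).1.trans κ1)
    (fun k => by simpa only [card_singleton, pow_one] using (e₀ {k}).1.trans κ1)
    fun t => (e₁ t).1.trans κ1
  rw [psi_scale, psi_scale, psi_div _ _ _ ω0, ← q1] at key
  refine le_trans (le_of_eq ?_) key
  rw [← abs_of_pos w0, ← abs_mul, abs_of_pos w0]
  exact congrArg _ (by ring)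

theorem coreH (hK : KStmtP) {Q : Cls} {q : Par} {Zσ Zε σ γ : ℝ} {L m : ℕ} (hL : 2 ≤ L)
    (hM : MainP Q q Zσ Zε L m σ γ) (hE : EnP Q q L m σ γ) (N n H₀ : ℕ) {Λ₁ : ℝ → ℕ}
    (pΛ : PolN Λ₁) :
    ∃ B : ℝ → ℝ, Pol B ∧ ∀ ε, Sm ε → ∃ J₀, Lg J₀ ∧ ∀ X, ∀ J ≥ J₀ X,
      ∀ (M : ℕ) [NeZero M] (Λ : Finset Site) (fr : Bool)
      (T r H : ℕ) (x : Fin n → Site) (y : Fin m → Site) (j : Fin m → Fin 2) (a : Site)
      (hs : Fin H → Site), H ≤ H₀ → Rgh (regOf M Λ fr).In N r →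
      (∀ B, Str (regOf M Λ fr).pw B (r - 1) → Q M ((regOf M Λ fr).pw * B) J) → Holes Λ T r a hs →
      Spins Λ r (Sum.elim x y) → (fr = true → H = 0 ∧ Even n) → 16 * sc L J + 1 ≤ r → r ≤ T →
      T ≤ Λ₁ X * sc L J → M = 64 * T →
        CoreW q Zσ Zε σ γ (regOf M Λ fr) a hs y j x (sc L J) (B X) (ε X) := by
  obtain ⟨CK, Γ, h, pC, pΓ, ph, r₀, hK⟩ := hK N n Λ₁ pΛ
  obtain ⟨C, pC', hM⟩ := hM (n + H₀ + 1 + m) _ Γ h ((PolN.const 64).mul pΛ) pΓ ph
    (fun X => (hK X).2.1) fun X => (hK X).2.2.1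
  refine ⟨fun X => 2 ^ H₀ * (|C X| * CK X), by fun_prop, fun ε hε => ?_⟩
  obtain ⟨J₀, lJ₀, hM⟩ := hM _ (hε.div (g := fun X => 2 ^ H₀ * (CK X + 1)) (by fun_prop)
    fun X => by have := (hK X).1; positivity)
  obtain ⟨J₁, lJ₁, hE⟩ := hE (n + H₀ + 1 + m) _ Γ ((PolN.const 64).mul pΛ) pΓ
    (fun X => (hK X).2.1) ε hε
  refine ⟨fun X => max (max (J₀ X) (J₁ X)) (r₀ + 1), (lJ₀.max lJ₁).max (Lg.const _),
    fun X J hJ M _ Λ fr T r H x y j a hs hH hS hB h1 h2 hfr r1 r2 r3 hMT u d1 d3 d2 => ?_⟩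
  obtain ⟨hCK, hΓ, hh, hK⟩ := hK X
  replace hM := hM X
  replace hE := hE X
  replace hε := hε.1 X
  clear pC pΓ ph pC' lJ₀ lJ₁ pΛ
  beta_reduce at *
  generalize Λ₁ X = Λ₁ at *
  generalize CK X = CK at *
  generalize Γ X = Γ at *
  generalize C X = C at *
  generalize ε X = ε at *
  have l1 : 8 * J + 8 ≤ sc L J := sc_ge hL
  have l2 : r₀ + 1 ≤ J := le_of_max_le_right hJ
  set ℓ := sc L J with hℓ
  set R := regOf M Λ fr with hR
  have l0 : (0 : ℝ) < ℓ := by exact_mod_cast (by omega : 0 < ℓ)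
  have r4 : 8 * ℓ ≤ r - 3 := by omega
  have hx : Spins Λ r x := h2.comp Sum.inl_injective
  have hK' := fun S : Finset (Fin H) => hK M Λ fr T r ℓ H x a hs S hS h1 hx hfr (by omega)
    (by omega) (by omega) r2 r3 hMT.ge
  have dom : ∀ (t : Finset (Fin m)) (S : Finset (Fin H)),
      DomQ Q R.pw (spinG M a x * holeG M a hs S) (fun k : t => yE M y j k)
        (fun k : t => dE y j k) n L J (n + H₀ + 1 + m) (64 * Λ₁) Γ := by
    intro t S
    have hxy : Spins Λ r (Sum.elim x fun k : t => y k) := by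
      have := h2.comp (f := Sum.map id fun k : t => k.1)
        (Function.injective_id.sumMap Subtype.val_injective)
      rwa [Sum.elim_comp_map] at this
    obtain ⟨s1, -, -, -, s5, s6⟩ := str_reg (M := M) S h1 hx hfr (by omega) (by omega)
    have b0 := hB 1 (str_one _ _)
    rw [mul_one] at b0
    have sp := sepW_reg (M := M) S (fun k : t => j k) J h1 hxy hfr (by omega) (by omega)
    have cd : t.card ≤ m := by simpa using card_le_univ t
    exact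
      { P_ok := R.isP
        str := s1.mono (by omega)
        sep := ⟨fun f hf f' h' h'' => sp.ff f hf f' h' (h''.trans r4),
          fun k f hf => sp.fs k f (hf.trans r4), fun k k' hk => r4.trans_lt (sp.ss k k' hk)⟩
        lo := by omega
        hi := by rw [hMT, mul_assoc]; exact Nat.mul_le_mul_left _ r3
        bd := hB _ s1
        bd0 := b0
        gap := (hK' S).1
        card := by rw [Fintype.card_coe]; omega
        cnt := s6 }
  have cd : ∀ t : Finset (Fin m), Fintype.card t ≤ m := fun t => by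
    simpa using card_le_univ t
  refine ⟨fun t => ?_, fun u' e1 e3 e2 k => hE J (le_of_max_le_right (le_of_max_le_left hJ)) M R.pw
    _ u u' _ _ _ n (cd {k}) (dom {k} ∅) d1 d2 d3 e1 e2 e3 ⟨k, mem_singleton_self k⟩⟩
  have key : ∀ S : Finset (Fin H),
      |mixC q u R.pw (spinG M a x * holeG M a hs S) (fun k : t => yE M y j k)
          (fun k : t => dE y j k) - Zσ ^ n * Zε ^ t.card * mixC par0 (R.cor par0) R.pw
          (spinG M a x * holeG M a hs S) (fun k : t => yE M y j k) (fun k : t => dE y j k)| ≤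
        ε / (2 ^ H₀ * (CK + 1)) / (ℓ : ℝ) ^ t.card * (CK * (ℓ : ℝ) ^ (-((n : ℝ) / 8))) ∧
      |mixC par0 (R.cor par0) R.pw (spinG M a x * holeG M a hs S) (fun k : t => yE M y j k)
          (fun k : t => dE y j k)| ≤ C / (ℓ : ℝ) ^ t.card * (CK * (ℓ : ℝ) ^ (-((n : ℝ) / 8))) := by
    intro S
    have := hM J (le_of_max_le_left (le_of_max_le_left hJ)) M R.pw _ u t (fun k : t => yE M y j k)
      (fun k : t => dE y j k) n (CK * (ℓ : ℝ) ^ (-((n : ℝ) / 8))) (cd t) (dom t S) d1 d2 d3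
      (by positivity) ((hK' S).2 _ _ _ _)
    rwa [Fintype.card_coe, ← R.cor_par0] at this
  have cS : ((univ : Finset (Finset (Fin H))).card : ℝ) ≤ 2 ^ H₀ := by
    rw [card_univ, Fintype.card_finset, Fintype.card_fin]
    exact_mod_cast Nat.pow_le_pow_right (by norm_num) hH
  have w0 : 0 < (ℓ : ℝ) ^ ((n : ℝ) / 8) * (ℓ : ℝ) ^ t.card := by positivity
  have w1 : ∀ u : ℝ, (ℓ : ℝ) ^ ((n : ℝ) / 8) * (ℓ : ℝ) ^ t.card *
      (u / (ℓ : ℝ) ^ t.card * (CK * (ℓ : ℝ) ^ (-((n : ℝ) / 8)))) = u * CK := fun u => by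
    rw [Real.rpow_neg l0.le]
    field_simp
  have w2 : ∀ (f : Finset (Fin H) → ℝ) (u : ℝ), 0 ≤ u →
      (∀ S, |f S| ≤ u / (ℓ : ℝ) ^ t.card * (CK * (ℓ : ℝ) ^ (-((n : ℝ) / 8)))) →
      |(ℓ : ℝ) ^ ((n : ℝ) / 8) * (ℓ : ℝ) ^ t.card * ∑ S, f S| ≤ 2 ^ H₀ * (u * CK) := by
    intro f u hu hf
    rw [mul_sum]
    refine (abs_sum_le_sum_abs _ _).trans ((sum_le_card_nsmul _ _ (u * CK) fun S _ => ?_).trans ?_)
    · rw [abs_mul, abs_of_pos w0, ← w1]
      exact mul_le_mul_of_nonneg_left (hf S) w0.le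
    · rw [nsmul_eq_mul]
      exact mul_le_mul_of_nonneg_right cS (by positivity)
  constructor
  · have := w2 _ _ (by positivity) fun S => (key S).1
    rw [sum_sub_distrib, ← mul_sum] at this
    refine le_trans (le_of_eq (congrArg _ ?_)) (this.trans ?_)
    · unfold mx mxU
      ring
    · calc _ = ε * (CK / (CK + 1)) := by field_simp
        _ ≤ ε := mul_le_of_le_one_right hε.le (div_le_one_of_le₀ (by linarith) (by linarith))
  · exact w2 _ _ (abs_nonneg C) fun S => (key S).2.trans (by gcongr; exact le_abs_self C)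

/-- The correlations of the set in terms of the nearest-neighbour model on the dug set. -/
theorem halfP (hK : KStmtP) (hS : SpStmt) {Q : Cls} {q : Par} {Zσ Zε : ℝ} {L t m : ℕ}
    (hL : 2 ≤ L) (hU : UnivP Q q Zσ Zε L m) (ht : 1 ≤ t) (x1 : 1 / 4 ≤ q.x) (x2 : q.x ≤ 1 / 2)
    (hq : q.Small 1) {J lam β : ℝ} (hr : Rel J lam β q) (N n H₀ k₀ : ℕ) {Λ₁ : ℝ → ℕ}
    (pΛ : PolN Λ₁) {ε : ℝ → ℝ} (hε : Sm ε) : ∃ J₀, Lg J₀ ∧ ∀ X, ∀ J' ≥ J₀ X,
      ∀ (M : ℕ) [NeZero M] (Λ P : Finset Site)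
      (fr : Bool) (T r H : ℕ) (x : Fin n → Site) (y : Fin m → Site) (j : Fin m → Fin 2)
      (a : Site) (hs : Fin H → Site), H ≤ H₀ → Rgh (regOf M (dig Λ P t) fr).In N r →
      (∀ B, Str (regOf M (dig Λ P t) fr).pw B (r - 1) →
        Q M ((regOf M (dig Λ P t) fr).pw * B) J') → Holes (dig Λ P t) T r a hs →
      (fr = false → Cn M (dig Λ P t) a hs) → Spins (dig Λ P t) r (Sum.elim x y) →
      (fr = true → H = 0 ∧ Even n) → 16 * sc L J' + 1 ≤ r → r ≤ T → T ≤ Λ₁ X * sc L J' →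
      M = 64 * T → (∀ p ∈ P, zd p 0 ≤ T) →
      (∀ p ∈ P, ∀ p' ∈ P, p ≠ p' → r < zd p p') → P.card ≤ k₀ →
        (sc L J' : ℝ) ^ ((n : ℝ) / 8) * (sc L J' : ℝ) ^ m *
          |lcor (gibbs J lam q.V β (if fr then none else some fun _ => true) Λ) x y j -
            Zσ ^ n * Zε ^ m * UL.psi (mx par0 (regOf M (dig Λ P t) fr) a hs y j Fin.elim0 ∅)
              (fun k => mx par0 (regOf M (dig Λ P t) fr) a hs y j Fin.elim0 {k})
              (mx par0 (regOf M (dig Λ P t) fr) a hs y j x)| ≤ ε X := by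
  obtain ⟨σ, γ, θ, hσ, hθ, hΔ, hM, hE⟩ := hU
  obtain ⟨B₁, p₁, c₁⟩ := coreH hK hL hM hE N n H₀ pΛ
  obtain ⟨B₀, p₀, c₀⟩ := coreH hK hL hM hE N 0 H₀ pΛ
  obtain ⟨ε', hε', hH⟩ := halfWP hS q.R t n m k₀ (p₁.max p₀) Zσ Zε ht hθ hσ hε
  obtain ⟨J₁, lJ₁, c₁⟩ := c₁ ε' hε'
  obtain ⟨J₀, lJ₀, c₀⟩ := c₀ ε' hε'
  refine ⟨fun X => max (max (J₀ X) (J₁ X)) (t + q.R + q.R), (lJ₀.max lJ₁).max (Lg.const _),
    fun X J' hJ' M _ Λ P fr T r H x y j a hs h0 hS hB h1 hc h2 hfr r1 r2 r3 hMT p1 p2 p3 => ?_⟩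
  have l1 : 8 * J' + 8 ≤ sc L J' := sc_ge hL
  have l2 : t + q.R + q.R ≤ J' := le_of_max_le_right hJ'
  have hs0 : Spins (dig Λ P t) r (Sum.elim (Fin.elim0 : Fin 0 → Site) y) := by
    have := h2.comp (f := Sum.map (Fin.elim0 : Fin 0 → Fin n) id)
      (Function.Injective.sumMap (fun i => i.elim0) Function.injective_id)
    have e : x ∘ (Fin.elim0 : Fin 0 → Fin n) = Fin.elim0 := funext fun i => i.elim0
    rwa [Sum.elim_comp_map, e, Function.comp_id] at this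
  obtain ⟨d1, d2, d3⟩ := hΔ M (regOf M (dig Λ P t) fr)
  exact hH X J lam β q γ hr hr.range x1 x2 hq M Λ P fr T r H a hs x y j (sc L J') h1 hc hfr p1
    (fun p hp p' hp' e => lt_of_le_of_lt (by omega) (p2 p hp p' hp' e)) p3 (by omega)
    (fun i => h2.ins (Sum.inl i) _ (by simp [zd_self]))
    (fun k => ⟨h2.ins (Sum.inr k) _ (by simp [zd_self]),
      h2.ins (Sum.inr k) _ ((zd_add_dir _ _).trans (by omega))⟩)
    (by exact_mod_cast (by omega : 0 < sc L J')) d1 d2 d3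
    ((c₁ X J' (le_of_max_le_right (le_of_max_le_left hJ')) M _ fr T r H x y j a hs h0 hS hB h1 h2 hfr
      r1 r2 r3 hMT).monoB (le_max_left _ _))
    ((c₀ X J' (le_of_max_le_left (le_of_max_le_left hJ')) M _ fr T r H Fin.elim0 y j a hs h0 hS hB h1
      hs0 (fun h => ⟨(hfr h).1, Even.zero⟩) r1 r2 r3 hMT).monoB (le_max_right _ _))

end Vale.Agent.P144DA
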