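import Vale.Agent.P144DA.Half
import Vale.Agent.P144U.Free.Lat

/-!
Universality on the lattice with two scales.
-/

namespace Vale.Agent.P144DA

open Finset Vale.Agent.P144Z Vale.Agent.P144 UL

/-- Universality for the sets of the class `Raw` at the scale `R`, for points at distance `r`. -/
def LatP (Raw : Finset Site → ℕ → Prop) (q : Par) (Zσ Zε : ℝ) (m : ℕ) : Prop :=
  ∀ J lam β : ℝ, 0 < J → q.μ = β * lam → q.x = Real.exp (-(2 * β * J)) →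
    ∀ (n Λ₀ : ℕ) (Λ₁ : ℝ → ℕ), PolN Λ₁ → ∀ ε, Sm ε → ∃ r₀, PolN r₀ ∧ ∀ X, ∀ r ≥ r₀ X, ∀ R : ℕ,
      r ≤ R → R ≤ Λ₁ X * r → ∀ (Λ : Finset Site) (b : Option Config) (x : Fin n → Site)
      (y : Fin m → Site) (j : Fin m → Fin 2), (b = none ∨ b = some fun _ => true) →
      Raw Λ R → (∀ v ∈ Λ, zd v 0 ≤ Λ₀ * R) → Spins Λ r (Sum.elim x y) →
        |lcor (gibbs J lam q.V β b Λ) x y j -
          Zσ ^ n * Zε ^ m * lcor (gibbs J 0 (fun _ => 0) (Kc / J) b Λ) x y j| ≤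
          ε X * (r : ℝ) ^ (-((n : ℝ) / 8)) / (r : ℝ) ^ m

open ELat in
/-- Universality on the lattice. -/
theorem latP (hK : KStmtP) (hO : HolesW) (hS : SpStmt) {Raw : Finset Site → ℕ → Prop} {Cl : Cls}
    {q : Par} {Zσ Zε : ℝ} {L m : ℕ} (hL2 : 2 ≤ L) (hq : q.Ok) (hsm : q.Small 1)
    (hU : UnivP Cl q Zσ Zε L m) (hU0 : UnivP Cl par0 1 1 L m) (hD : GeoF Raw Cl L) :
    LatP Raw q Zσ Zε m := by
  intro J lam β hJ hμ hx n Λ₀ Λ₁ pΛ ε hε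
  obtain ⟨t, N, Q, JG, ht, hQ, hD⟩ := hD
  have k0 := crit_par0 L 1 1 zero_le_one zero_le_one
  have rq : Rel J lam β q := ⟨hq.pot, hq.range, hμ, hx⟩
  have r0 : Rel J 0 (Kc / J) par0 := ⟨U1.pot_zero, fun _ h => absurd rfl h,
    (mul_zero _).symm, by
      rw [mul_assoc, div_mul_cancel₀ _ hJ.ne']
      exact U4.tc_eq⟩
  obtain ⟨H₀, Qh, hQh, hO⟩ := hO N ((Λ₀ + 1) * (2 * Q))
  obtain ⟨c, hc⟩ : ∃ c : ℕ, c = 2 * Q * (2 * Qh * (2 * 2 * ((Q + 17) * L))) := ⟨_, rfl⟩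
  have c0 : 0 < c := by rw [hc]; positivity
  have cL : (1 : ℝ) ≤ c := by exact_mod_cast c0
  set z : ℝ := |Zσ ^ n * Zε ^ m| with hz
  have z0 : 0 ≤ z := abs_nonneg _
  have pΛ' := (PolN.const (2 * (Λ₀ + 1))).mul (pΛ.mul (PolN.const c))
  have sε := (hε.div (Pol.const ((c : ℝ) ^ (n + m))) fun _ => by positivity).div
    (Pol.const (z + 1)) fun _ => by positivity
  obtain ⟨J₁, lJ₁, c₁⟩ := halfP hK hS hL2 hU ht hq.x_lo hq.x_hi hsm rq N n H₀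
    ((4 * ((Λ₀ + 1) * (2 * Q)) + 1) ^ 2) pΛ' sε
  obtain ⟨J₀, lJ₀, c₀⟩ := halfP hK hS hL2 hU0 ht k0.ok.x_lo k0.ok.x_hi k0.small r0 N n H₀
    ((4 * ((Λ₀ + 1) * (2 * Q)) + 1) ^ 2) pΛ' sε
  refine ⟨fun X => Q * (Qh * (2 * ((Q + 17) * sc L (max (max (J₀ X) (J₁ X)) JG) + 1))) + 4 * t,
    ((PolN.const Q).mul ((PolN.const Qh).mul ((PolN.const 2).mul (((PolN.const (Q + 17)).mul
      ((PolN.const 8).mul (((lJ₀.max lJ₁).max (Lg.const JG)).pow L))).add (PolN.const 1))))).add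
        (PolN.const (4 * t)), fun X r hr R hrR hRr Λ b x y j hb hR hΛ hs => ?_⟩
  replace c₁ := c₁ X
  replace c₀ := c₀ X
  replace hε := hε.1 X
  clear pΛ pΛ' sε lJ₀ lJ₁
  beta_reduce at *
  generalize Λ₁ X = Λ₁ at *
  generalize J₀ X = J₀ at *
  generalize J₁ X = J₁ at *
  generalize ε X = ε at *
  obtain ⟨s₀, hs₀⟩ : ∃ s₀, s₀ = (Q + 17) * sc L (max (max J₀ J₁) JG) := ⟨_, rfl⟩
  rw [← hs₀] at hr
  have f1 : Qh * (2 * (s₀ + 1)) ≤ r / Q :=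
    (Nat.le_div_iff_mul_le hQ).2 (by rw [mul_comm]; omega)
  have f2 : 2 * (s₀ + 1) ≤ r / Q / Qh := (Nat.le_div_iff_mul_le hQh).2 (by rw [mul_comm]; omega)
  have f3 : Qh ≤ r / Q := le_trans (Nat.le_mul_of_pos_right _ (by omega)) f1
  have f4 : Q ≤ r := (Nat.le_mul_of_pos_right Q (by omega : 0 < r / Q)).trans (Nat.mul_div_le r Q)
  have f5 : r / Q ≤ r := Nat.div_le_self _ _
  have f6 : r / Q / Qh ≤ r / Q := Nat.div_le_self _ _
  have f7 : r / Q ≤ R / Q := Nat.div_le_div_right hrR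
  have f8 : r / Q / Qh ≤ R / Q / Qh := Nat.div_le_div_right f7
  have f9 : R / Q ≤ R := Nat.div_le_self _ _
  have g0 := le_mul_div hQ (f4.trans hrR)
  have g1 := le_mul_div hQ f4
  have g2 := le_mul_div hQh f3
  have g3 := le_mul_div (Q := 2) (r := r / Q / Qh) (by norm_num) (by omega)
  obtain ⟨ρ, hρ⟩ : ∃ ρ, ρ = r / Q / Qh / 2 := ⟨_, rfl⟩
  rw [← hρ] at g3
  have hx' : ∀ i, x i ∈ Λ := fun i => hs.ins (Sum.inl i) _ (by simp [zd_self])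
  have hy' : ∀ k, y k ∈ Λ ∧ y k + dir (j k) ∈ Λ := fun k =>
    ⟨hs.ins (Sum.inr k) _ (by simp [zd_self]),
      hs.ins (Sum.inr k) _ ((zd_add_dir _ _).trans (by omega))⟩
  have r0' : (0 : ℝ) < r := by exact_mod_cast (by omega : 0 < r)
  by_cases ho : b = none ∧ Odd n
  · obtain ⟨rfl, hn⟩ := ho
    rw [lcor_odd hq.pot hn hx' hy', lcor_odd U1.pot_zero hn hx' hy', mul_zero, sub_zero,
      abs_zero]
    positivity
  obtain ⟨J', n1, n2, n3⟩ := Mn.exists_scale (c := Q + 17) (J := max (max J₀ J₁) JG) (M := ρ) hL2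
    (by omega) (by omega)
  rw [show sc L (J' + 1) = L * sc L J' by unfold sc; ring, ← mul_assoc] at n3
  rw [add_mul] at n2
  have s9 := sc_ge (J := J') hL2
  have e1 : (Λ₀ + 1) * R = Λ₀ * R + R := by ring
  have e4 : r ≤ c * sc L J' := by
    rw [hc]
    simp only [mul_assoc] at g1 g2 g3 n3 ⊢
    refine g1.trans (by gcongr; refine g2.trans (by gcongr; exact g3.trans (by gcongr)))
  have e5 : 2 * ((Λ₀ + 1) * R) ≤ 2 * (Λ₀ + 1) * (Λ₁ * c) * sc L J' := by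
    simp only [mul_assoc]
    gcongr
    exact hRr.trans (by gcongr)
  have e6 : (Λ₀ + 1) * R ≤ (Λ₀ + 1) * (2 * Q) * (R / Q) := by
    rw [mul_assoc]
    gcongr
  have e7 : 2 * ((Λ₀ + 1) * R + t) ≤ 4 * ((Λ₀ + 1) * (2 * Q)) * (R / Q + 1) := by
    rw [mul_assoc 4, mul_add_one ((Λ₀ + 1) * (2 * Q))]
    omega
  set T := (Λ₀ + 1) * R with hT
  have hΛ' : ∀ v ∈ Λ, zd v 0 ≤ T := fun v hv => (hΛ v hv).trans (by omega)
  have : NeZero (64 * (2 * T)) := ⟨by omega⟩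
  set M := 64 * (2 * T) with hMd
  obtain ⟨P, p1, p0, sW⟩ := hD Λ R T hR (f4.trans hrR) (by omega) hΛ'
  obtain ⟨sW, hB⟩ := sW M (by omega)
  obtain ⟨fr, H, hH', a, hs', rfl, h1, hcn, hfr⟩ : ∃ fr : Bool, ∃ H ≤ H₀, ∃ a,
      ∃ hs' : Fin H → Site, b = (if fr then none else some fun _ => true) ∧
      Holes (dig Λ P t) (2 * T) ρ a hs' ∧ (fr = false → Cn M (dig Λ P t) a hs') ∧
      (fr = true → H = 0 ∧ Even n) := by
    obtain ⟨H, hH', a, hs', h1, hcn⟩ := hO (dig Λ P t) T (R / Q) M sW (f3.trans f7) (by omega) e6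
      (fun v hv => hΛ' v (mem_dig.1 hv).1) (by omega)
    have h2 := holes_mono h1 (r' := ρ) (by omega)
    rcases hb with rfl | rfl
    · exact ⟨true, 0, Nat.zero_le _, a, Fin.elim0, rfl, ⟨h2.box, h2.a_le, fun i => i.elim0,
        h2.a_out, fun i => i.elim0, fun i => i.elim0, fun i => i.elim0⟩, by simp,
        fun _ => ⟨rfl, Nat.not_odd_iff_even.1 fun h => ho ⟨rfl, h⟩⟩⟩
    · exact ⟨false, H, hH', a, hs', rfl, h2, fun _ => hcn, by simp⟩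
  have hbd : ∀ B, Str (regOf M (dig Λ P t) fr).pw B (ρ - 1) →
      Cl M ((regOf M (dig Λ P t) fr).pw * B) J' := fun B h =>
    hB fr B (ρ - 1) J' h (by omega) (le_of_max_le_right n1) (by omega)
  have hsp := spins_dig (r' := ρ) hs (fun p hp => (p1 p hp).2) (by omega)
  have p2 : ∀ p ∈ P, zd p 0 ≤ 2 * T := fun p hp => (p1 p hp).1.trans (by omega)
  have p3 : ∀ p ∈ P, ∀ p' ∈ P, p ≠ p' → ρ < zd p p' := fun p hp p' hp' e =>
    lt_of_le_of_lt (by omega) (p0 p hp p' hp' e)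
  have p4 := B5a2.card_net (fun p hp => (p1 p hp).1) p0 e7
  have d₁ := c₁ J' (le_of_max_le_right (le_of_max_le_left n1)) M Λ P fr _ _ H x y j a hs' hH'
    (sW.mono (by omega)) hbd h1 hcn hsp hfr (by omega) (by omega) e5 rfl p2 p3 p4
  have d₀ := c₀ J' (le_of_max_le_left (le_of_max_le_left n1)) M Λ P fr _ _ H x y j a hs' hH'
    (sW.mono (by omega)) hbd h1 hcn hsp hfr (by omega) (by omega) e5 rfl p2 p3 p4
  rw [one_pow, one_pow, one_mul, one_mul] at d₀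
  change _ * |lcor (gibbs J 0 (fun _ => 0) _ _ _) _ _ _ - _| ≤ _ at d₀
  set ℓ : ℝ := ((sc L J' : ℕ) : ℝ) with hℓ
  have l0 : 0 < ℓ := by rw [hℓ]; exact_mod_cast (by omega : 0 < sc L J')
  have rs := rescale l0 r0' cL (by rw [hℓ]; exact_mod_cast e4) n m
  have w0 : 0 < ℓ ^ ((n : ℝ) / 8) * ℓ ^ m := by positivity
  generalize ℓ ^ ((n : ℝ) / 8) * ℓ ^ m = w at d₁ d₀ rs w0
  generalize UL.psi _ _ _ = ψ at d₁ d₀
  generalize lcor (gibbs J lam q.V β _ Λ) x y j = u at d₁ ⊢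
  generalize lcor (gibbs J 0 (fun _ => 0) (Kc / J) _ Λ) x y j = u₀ at d₀ ⊢
  have k1 : |u - Zσ ^ n * Zε ^ m * u₀| ≤ |u - Zσ ^ n * Zε ^ m * ψ| + z * |u₀ - ψ| := by
    rw [hz, ← abs_mul, show u - Zσ ^ n * Zε ^ m * u₀ =
      u - Zσ ^ n * Zε ^ m * ψ - Zσ ^ n * Zε ^ m * (u₀ - ψ) by ring]
    exact abs_sub _ _
  have k2 : w * |u - Zσ ^ n * Zε ^ m * u₀| ≤ ε / (c : ℝ) ^ (n + m) := by
    have k3 := mul_le_mul_of_nonneg_left d₀ z0
    have k4 := mul_le_mul_of_nonneg_left k1 w0.le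
    have k5 : ε / (c : ℝ) ^ (n + m) = ε / (c : ℝ) ^ (n + m) / (z + 1) * (z + 1) := by
      field_simp
    rw [k5]
    nlinarith
  rw [← le_inv_mul_iff₀ w0] at k2
  refine k2.trans ((mul_le_mul_of_nonneg_right rs (by positivity)).trans (le_of_eq ?_))
  field_simp

end Vale.Agent.P144DA
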