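import Vale.Agent.P144DA.Pol
import Mathlib.Analysis.SpecialFunctions.Exp
import Mathlib.Tactic.FunProp

/-!
Small functions and thresholds of polynomial size.
-/

namespace Vale.Agent.P144DA

attribute [fun_prop] Pol
attribute [fun_prop] Pol.const Pol.id' Pol.abs Pol.mul Pol.add Pol.neg Pol.sub Pol.pow
  Pol.div_const Pol.max Pol.sqrt Pol.ceil

/-- A natural number of polynomial size. -/
def PolN (f : ℝ → ℕ) : Prop := Pol fun X => (f X : ℝ)

/-- A positive number whose inverse has polynomial size. -/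
def Sm (f : ℝ → ℝ) : Prop := (∀ X, 0 < f X) ∧ Pol fun X => (f X)⁻¹

/-- A natural number of logarithmic size. -/
def Lg (f : ℝ → ℕ) : Prop := Pol fun X => (2 : ℝ) ^ f X

variable {f g : ℝ → ℝ} {u v : ℝ → ℕ}

theorem PolN.const (c : ℕ) : PolN fun _ => c := Pol.const _

theorem PolN.add (hu : PolN u) (hv : PolN v) : PolN fun X => u X + v X := by
  unfold PolN at *
  push_cast
  fun_prop

theorem PolN.mul (hu : PolN u) (hv : PolN v) : PolN fun X => u X * v X := by
  unfold PolN at *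
  push_cast
  fun_prop

theorem PolN.ceil (hf : Pol f) : PolN fun X => ⌈f X⌉₊ := hf.ceil

theorem Sm.const {c : ℝ} (hc : 0 < c) : Sm fun _ => c := ⟨fun _ => hc, Pol.const _⟩

theorem Sm.mul (hf : Sm f) (hg : Sm g) : Sm fun X => f X * g X :=
  ⟨fun X => mul_pos (hf.1 X) (hg.1 X), by simpa only [mul_inv] using hf.2.mul hg.2⟩

theorem Sm.div (hf : Sm f) (hg : Pol g) (h : ∀ X, 0 < g X) : Sm fun X => f X / g X :=
  ⟨fun X => div_pos (hf.1 X) (h X), by
    simpa only [inv_div, div_eq_mul_inv, mul_inv_rev, inv_inv] using hg.mul hf.2⟩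

theorem Sm.min (hf : Sm f) (hg : Sm g) : Sm fun X => min (f X) (g X) :=
  ⟨fun X => lt_min (hf.1 X) (hg.1 X), (hf.2.add hg.2).mono0 fun X _ => by
    have h1 := inv_pos.2 (hf.1 X)
    have h2 := inv_pos.2 (hg.1 X)
    beta_reduce
    rcases le_total (f X) (g X) with h | h
    · rw [min_eq_left h]; constructor <;> linarith
    · rw [min_eq_right h]; constructor <;> linarith⟩

theorem Pol.div_sm (hf : Pol f) (hg : Sm g) : Pol fun X => f X / g X := by
  simpa only [div_eq_mul_inv] using hf.mul hg.2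

theorem Lg.const (c : ℕ) : Lg fun _ => c := Pol.const _

theorem Lg.add (hu : Lg u) (hv : Lg v) : Lg fun X => u X + v X := by
  unfold Lg at *
  simpa only [pow_add] using hu.mul hv

theorem Lg.max (hu : Lg u) (hv : Lg v) : Lg fun X => max (u X) (v X) :=
  Pol.mono0 (hu.add hv) fun X _ => ⟨by positivity, pow_le_pow_right₀ one_le_two
    (max_le (Nat.le_add_right _ _) (Nat.le_add_left _ _))⟩

theorem Lg.sup {ι : Type*} (s : Finset ι) {F : ι → ℝ → ℕ} (h : ∀ i, Lg (F i)) :
    Lg fun X => s.sup fun i => F i X := by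
  classical
  induction s using Finset.induction_on with
  | empty => simpa using Lg.const 0
  | insert a s _ ih => simpa only [Finset.sup_insert] using (h a).max ih

theorem Lg.pow (hu : Lg u) (L : ℕ) : PolN fun X => L ^ u X := by
  refine Pol.mono0 (Pol.pow hu L) fun X _ => ⟨by positivity, ?_⟩
  rw [← pow_mul, mul_comm, pow_mul]
  push_cast
  refine pow_le_pow_left₀ (by positivity) ?_ _
  exact_mod_cast (Nat.lt_two_pow_self (n := L)).le

theorem Lg.polN (hu : Lg u) : PolN u :=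
  Pol.mono0 hu fun X _ => ⟨by positivity, by exact_mod_cast (Nat.lt_two_pow_self (n := u X)).le⟩

theorem Pol.exists_lg (hf : Pol f) : ∃ u, Lg u ∧ ∀ X, f X < 2 ^ u X := by
  refine ⟨fun X => Nat.log 2 ⌈f X⌉₊ + 1, Pol.mono0 (g := fun X => 2 * (⌈f X⌉₊ + 1)) (by fun_prop)
    fun X _ => ⟨by positivity, ?_⟩, fun X => (Nat.le_ceil _).trans_lt ?_⟩
  · have : 2 ^ (Nat.log 2 ⌈f X⌉₊ + 1) ≤ 2 * (⌈f X⌉₊ + 1) := by
      have := Nat.pow_log_le_add_one 2 ⌈f X⌉₊
      rw [pow_succ]
      omega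
    exact_mod_cast this
  · exact_mod_cast Nat.lt_pow_succ_log_self (by norm_num) _

/-- The threshold for the errors of the flow. -/
theorem small_eP {s b K ε : ℝ → ℝ} (t : ℝ) (hs : Pol s) (hb : Pol b) (hK : Pol K) (hε : Sm ε) :
    ∃ u, Lg u ∧ ∀ X, ∀ J ≥ u X,
      s X * (t * (Real.exp (b X / 2 ^ J) - 1)) + K X / 2 ^ J ≤ ε X := by
  obtain ⟨u, hu, h⟩ := Pol.exists_lg (f := fun X => |b X| +
    (|s X| * (|t| * (2 * |b X|)) + |K X|) / ε X) (hb.abs.add (Pol.div_sm (by fun_prop) hε))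
  refine ⟨u, hu, fun X J hJ => ?_⟩
  have h1 := (h X).le.trans (pow_le_pow_right₀ one_le_two hJ)
  have e0 := hε.1 X
  have p0 : (0 : ℝ) < 2 ^ J := by positivity
  generalize (2 : ℝ) ^ J = P at *
  have h0 : 0 ≤ (|s X| * (|t| * (2 * |b X|)) + |K X|) / ε X := by positivity
  have h2 : |b X / P| ≤ 1 := by
    rw [abs_div, abs_of_pos p0, div_le_one p0]
    linarith
  have h3 := Real.abs_exp_sub_one_le h2
  rw [abs_div, abs_of_pos p0] at h3
  have h4 : (|s X| * (|t| * (2 * |b X|)) + |K X|) / P ≤ ε X := by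
    rw [div_le_comm₀ p0 e0]
    linarith [abs_nonneg (b X)]
  have h5 : s X * (t * (Real.exp (b X / P) - 1)) ≤ |s X| * (|t| * (2 * (|b X| / P))) := by
    refine (le_abs_self _).trans ?_
    rw [abs_mul, abs_mul]
    gcongr
  have h6 : K X / P ≤ |K X| / P := by gcongr; exact le_abs_self _
  refine le_trans (add_le_add h5 h6) (le_trans (le_of_eq ?_) h4)
  ring

end Vale.Agent.P144DA
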