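import Vale.Agent.P144DA.Lat
import Vale.Agent.P144DA.Gen
import Vale.Agent.P144DD.Blk
import Vale.Agent.P144E.Ge1a.Main
import Vale.Agent.P144E.Sp.Main

/-!
Universality in domains down to separations that are a power of the mesh.
-/

namespace Vale.Agent.P144DA

open Finset Filter Topology Vale.Agent.P144 Vale.Agent.P144Z U2D U4 P144DD

theorem spinsP {D : Set ℂ} {s c a : ℝ} (ha0' : 0 < a) (ha : 5 * a < c) (hs : 5 * c ≤ s) {p : Pts}
    (h1 : Ins D s p) (h2 : P144DD.Sep (4 * c) p) {Λ : Finset Site}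
    (hΛ : ∀ x, x ∈ Λ ↔ (⟨a * x.1, a * x.2⟩ : ℂ) ∈ D) :
    Spins Λ ⌊c / a⌋₊ (Sum.elim (fun i => fl a (p.x i)) fun k => fl a (p.y k)) := by
  have e : (Sum.elim (fun i => fl a (p.x i)) fun k => fl a (p.y k)) =
      fun i => fl a (Sum.elim p.x p.y i) := by
    funext i
    cases i <;> rfl
  unfold Ins at h1
  unfold P144DD.Sep at h2
  rw [e]
  generalize Sum.elim p.x p.y = z at h1 h2
  have h5 : 5 < c / a := by
    rw [lt_div_iff₀ ha0']
    linarith
  have r1 : (⌊c / a⌋₊ : ℝ) ≤ c / a := Nat.floor_le (by positivity)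
  have hn : ∀ i, |(((fl a (z i)).1 : ℤ) : ℝ) - (z i).re / a| ≤ 2 ∧
      |(((fl a (z i)).2 : ℤ) : ℝ) - (z i).im / a| ≤ 2 := fun i => by
    simpa using U4.fl_near a (z i) 0 (by simp) (by simp)
  refine ⟨fun i v hv => (hΛ v).2 ((h1 i).2 ?_), fun i i' hi => ?_⟩
  · have h6 : (zd v (fl a (z i)) : ℝ) ≤ c / a := le_trans (by exact_mod_cast hv) r1
    rw [U4.zd_cast, max_le_iff] at h6
    have k : ∀ u w t : ℝ, |u - w| ≤ c / a → |w - t / a| ≤ 2 → |a * u - t| ≤ 2 * c := by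
      intro u w t k1 k2
      have k3 : |u - t / a| ≤ 2 * (c / a) := (abs_sub_le u w _).trans (by linarith)
      rw [show a * u - t = a * (u - t / a) by field_simp, abs_mul, abs_of_pos ha0',
        show 2 * c = a * (2 * (c / a)) by field_simp]
      exact mul_le_mul_of_nonneg_left k3 ha0'.le
    rw [Metric.mem_ball, dist_eq_norm]
    refine lt_of_le_of_lt (Complex.norm_le_abs_re_add_abs_im _) ?_
    have k1 := k _ _ _ h6.1 (hn i).1
    have k2 := k _ _ _ h6.2 (hn i).2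
    simp only [Complex.sub_re, Complex.sub_im]
    linarith
  · have d1 : 2 * c ≤ max |(z i).re - (z i').re| |(z i).im - (z i').im| := by
      have k1 := (h2 i i' hi).trans (Complex.norm_le_abs_re_add_abs_im _)
      rw [Complex.sub_re, Complex.sub_im] at k1
      linarith [le_max_left |(z i).re - (z i').re| |(z i).im - (z i').im|,
        le_max_right |(z i).re - (z i').re| |(z i).im - (z i').im|]
    have d2 : 2 * (c / a) ≤ max |(z i).re / a - (z i').re / a| |(z i).im / a - (z i').im / a| := by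
      rw [← sub_div, ← sub_div, abs_div, abs_div, abs_of_pos ha0', max_div_div_right ha0'.le,
        ← mul_div_assoc]
      exact div_le_div_of_nonneg_right d1 ha0'.le
    have : (⌊c / a⌋₊ : ℝ) < zd (fl a (z i)) (fl a (z i')) := by
      rw [zd_cast]
      obtain ⟨w1, w2⟩ := hn i
      obtain ⟨w3, w4⟩ := hn i'
      rw [abs_le] at w1 w2 w3 w4
      rcases le_max_iff.1 d2 with h | h
      · refine lt_max_of_lt_left ?_
        rcases le_abs.1 h with h | h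
        · exact lt_abs.2 (Or.inl (by linarith [w1.1, w3.2]))
        · exact lt_abs.2 (Or.inr (by linarith [w1.2, w3.1]))
      · refine lt_max_of_lt_right ?_
        rcases le_abs.1 h with h | h
        · exact lt_abs.2 (Or.inl (by linarith [w2.1, w4.2]))
        · exact lt_abs.2 (Or.inr (by linarith [w2.2, w4.1]))
    exact_mod_cast this

theorem scale_le {κ X : ℝ} (hκ : 0 < κ) (hκ1 : κ ≤ 1) (hX : 1 ≤ X) (n m : ℕ) :
    ((κ * X⁻¹ / 2) ^ (-(1 / 8) : ℝ)) ^ n * (κ * X⁻¹ / 2)⁻¹ ^ m ≤ (2 * |X| / κ + 1) ^ (n + m) := by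
  have h1 : (κ * X⁻¹ / 2)⁻¹ = 2 * X / κ := by field_simp
  have h2 : 1 ≤ 2 * X / κ := by
    rw [le_div_iff₀ hκ]
    linarith
  have h3 : (κ * X⁻¹ / 2) ^ (-(1 / 8) : ℝ) ≤ 2 * X / κ := by
    rw [Real.rpow_neg (by positivity), ← Real.inv_rpow (by positivity), h1]
    exact Real.rpow_le_self_of_one_le h2 (by norm_num)
  rw [h1, pow_add, abs_of_pos (by linarith)]
  exact mul_le_mul (pow_le_pow_left₀ (by positivity) (by linarith) n)
    (pow_le_pow_left₀ (by positivity) (by linarith) m) (by positivity) (by positivity)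

/-- From the estimates on the lattice to the estimates in a domain. -/
theorem udp_lat {J lam β T ρ Zσ Zε : ℝ} {q : Par} {D : Set ℂ} {Raw : Finset Site → ℕ → Prop}
    {b : Option (ℝ → Config)} (hJ : 0 < J) (hq : UL.Rel J lam β q) (hb : StdBC b) (hT : 0 < T)
    (hρ : 0 < ρ) (h1 : ∀ a > (0 : ℝ), (∀ x, x ∈ disc D a ↔ (⟨a * x.1, a * x.2⟩ : ℂ) ∈ D) ∧
      (∀ x ∈ disc D a, a * zd x 0 ≤ T) ∧ ∀ r : ℕ, 1 ≤ r → a * r ≤ ρ → Raw (disc D a) r)
    (hL : ∀ m, LatP Raw q Zσ Zε m) : UDP D (crit J D b) (inDom J lam q.V β D b) Zσ Zε := by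
  intro n m s hs
  obtain ⟨κ, hκ, κ1, κ2, κ3⟩ : ∃ κ > (0 : ℝ), κ ≤ 1 / 4 ∧ 5 * κ ≤ s ∧ κ ≤ ρ :=
    ⟨min (1 / 4) (min (s / 5) ρ), by positivity, min_le_left _ _,
      by linarith [min_le_right (1 / 4) (min (s / 5) ρ), min_le_left (s / 5) ρ],
      (min_le_right _ _).trans (min_le_right _ _)⟩
  obtain ⟨r₀, pr, hr⟩ := hL m J lam β hJ hq.mu hq.x n ⌈2 * T / ρ⌉₊ (fun X => ⌈2 * ρ / κ * X⌉₊)
    (PolN.ceil (by fun_prop)) _ ((Sm.const one_pos).div
      (g := fun X => (2 * |X| / κ + 1) ^ (n + m) * (|X| + 1)) (by fun_prop) fun X => by positivity)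
  obtain ⟨θ, hθ, hθ1, hbeat⟩ := Pol.beat (f := fun X => (r₀ X : ℝ) + 3)
    (Pol.add pr (Pol.const 3)) (κ := 1 / 2) (by norm_num)
  refine ⟨θ, hθ, fun ε hε => ?_⟩
  have ht : Tendsto (fun a : ℝ => a ^ θ) (𝓝[>] 0) (𝓝 0) := by
    have := (Real.continuousAt_rpow_const 0 θ (Or.inr hθ.le)).tendsto
    rw [Real.zero_rpow hθ.ne'] at this
    exact this.mono_left nhdsWithin_le_nhds
  filter_upwards [hbeat 1 le_rfl (κ / 2) (by positivity), ht.eventually (ge_mem_nhds hε),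
    Ioo_mem_nhdsGT (show (0 : ℝ) < 1 by norm_num)] with a h2 h3 ⟨ha, ha1⟩ p e1 e2 hp hp'
  subst e1 e2
  obtain ⟨d1, d2, d3⟩ := h1 a ha
  have u0 : 0 < a ^ θ := Real.rpow_pos_of_pos ha θ
  have u1 : a ^ θ ≤ 1 := Real.rpow_le_one ha.le ha1.le hθ.le
  have u2 : a ^ (1 / 2 : ℝ) ≤ a ^ θ := Real.rpow_le_rpow_of_exponent_ge ha ha1.le hθ1
  have u3 : a ^ (1 / 2 : ℝ) * a ^ (1 / 2 : ℝ) = a := by
    rw [← Real.rpow_add ha]
    norm_num
  have u4 : 0 < a ^ (1 / 2 : ℝ) := Real.rpow_pos_of_pos ha _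
  obtain ⟨X, hX, hX1⟩ : ∃ X : ℝ, a ^ θ = X⁻¹ ∧ X = a ^ (-θ) :=
    ⟨_, by rw [Real.rpow_neg ha.le, inv_inv], rfl⟩
  have X0 : 0 < X := inv_pos.1 (hX ▸ u0)
  have X1 : 1 ≤ X := (inv_le_one₀ X0).1 (hX ▸ u1)
  replace h2 := h2 X X1 (by rw [one_mul, hX1])
  rw [abs_of_nonneg (by positivity)] at h2
  rw [hX] at u0 u1 u2 h3 hp'
  have c0 : 0 < κ * X⁻¹ := by positivity
  have c1 : κ * X⁻¹ ≤ κ := mul_le_of_le_one_right hκ.le u1
  have c2 : (r₀ X + 3 : ℝ) * (2 * a) ≤ κ * X⁻¹ := by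
    have k1 := mul_le_mul_of_nonneg_right h2 u4.le
    have k2 := mul_le_mul_of_nonneg_left u2 hκ.le
    rw [mul_assoc, u3] at k1
    linarith
  have c3 : 5 * a < κ * X⁻¹ := by nlinarith [Nat.cast_nonneg (α := ℝ) (r₀ X)]
  have hP := spinsP ha c3 (by linarith) hp (fun i i' e => le_trans (by nlinarith) (hp' i i' e)) d1
  have fl2 : ∀ c : ℝ, 5 * a < c → c / (2 * a) ≤ ⌊c / a⌋₊ := fun c hc => by
    have k1 : 5 < c / a := by
      rw [lt_div_iff₀ ha]
      linarith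
    have k2 : c / a < ⌊c / a⌋₊ + 1 := Nat.lt_floor_add_one _
    have k3 : c / (2 * a) = c / a / 2 := by field_simp
    linarith
  have hrc := fl2 _ c3
  have hRc := fl2 ρ (by linarith)
  have hrR : ⌊κ * X⁻¹ / a⌋₊ ≤ ⌊ρ / a⌋₊ := Nat.floor_le_floor (by gcongr; linarith)
  have R1 : (⌊ρ / a⌋₊ : ℝ) ≤ ρ / a := Nat.floor_le (by positivity)
  generalize ⌊κ * X⁻¹ / a⌋₊ = r at hrc hP hrR
  generalize ⌊ρ / a⌋₊ = R at hRc hrR R1
  have hr0 : r₀ X + 3 ≤ r := by
    have : (r₀ X + 3 : ℝ) ≤ r := ((le_div_iff₀ (by positivity)).2 c2).trans hrc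
    exact_mod_cast this
  have hRr : R ≤ ⌈2 * ρ / κ * X⌉₊ * r := by
    have : (R : ℝ) ≤ (⌈2 * ρ / κ * X⌉₊ : ℝ) * r := by
      calc (R : ℝ) ≤ ρ / a := R1
        _ = 2 * ρ / κ * X * (κ * X⁻¹ / (2 * a)) := by field_simp
        _ ≤ _ := mul_le_mul (Nat.le_ceil _) hrc (by positivity) (by positivity)
    exact_mod_cast this
  have hbox : ∀ v ∈ disc D a, zd v 0 ≤ ⌈2 * T / ρ⌉₊ * R := fun v hv => by
    have : (zd v 0 : ℝ) ≤ (⌈2 * T / ρ⌉₊ : ℝ) * R := by
      calc (zd v 0 : ℝ) ≤ T / a := by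
            rw [le_div_iff₀' ha]
            exact d2 v hv
        _ = 2 * T / ρ * (ρ / (2 * a)) := by field_simp
        _ ≤ _ := mul_le_mul (Nat.le_ceil _) hRc (by positivity) (by positivity)
    exact_mod_cast this
  have key := fun b hb => hr X r (by omega) R hrR hRr (disc D a) b _ _ p.j hb
    (d3 R (by omega) ((le_div_iff₀' ha).1 R1)) hbox hP
  beta_reduce at key
  have k3 := scale_le hκ (by linarith) X1 p.n p.m
  have K0 : 0 < (2 * |X| / κ + 1) ^ (p.n + p.m) := by positivity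
  generalize (2 * |X| / κ + 1) ^ (p.n + p.m) = K at key k3 K0
  have k1 : |lcor (inDom J lam q.V β D b a) (fun i => fl a (p.x i)) (fun k => fl a (p.y k)) p.j -
      Zσ ^ p.n * Zε ^ p.m * lcor (crit J D b a) (fun i => fl a (p.x i)) (fun k => fl a (p.y k))
        p.j| ≤ 1 / (K * (|X| + 1)) * (r : ℝ) ^ (-((p.n : ℝ) / 8)) / (r : ℝ) ^ p.m := by
    rcases hb with rfl | rfl | rfl
    · exact key none (Or.inl rfl)
    · exact key _ (Or.inr rfl)
    · have k2 := key _ (Or.inr rfl)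
      have e1 := lcor_not (J := J) (lam := lam) (β := β) hq.pot (disc D a) (fun _ => true)
        (fun i => fl a (p.x i)) (fun k => fl a (p.y k)) p.j
      have e2 := lcor_not (J := J) (lam := 0) (β := Kc / J) U1.pot_zero (disc D a) (fun _ => true)
        (fun i => fl a (p.x i)) (fun k => fl a (p.y k)) p.j
      change |lcor (gibbs J lam q.V β (some fun _ => !true) (disc D a)) _ _ _ - Zσ ^ p.n *
        Zε ^ p.m * lcor (gibbs J 0 (fun _ => 0) (Kc / J) (some fun _ => !true) (disc D a)) _ _ _| ≤ _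
      rw [e1, e2, mul_left_comm, ← mul_sub, abs_mul, abs_pow, abs_neg, abs_one, one_pow, one_mul]
      exact k2
  have k2 := (U4.scale ha c0 hrc p.n p.m).trans k3
  unfold crit inDom at *
  rw [corr_eq, corr_eq, mul_left_comm, ← mul_sub, abs_mul, abs_of_nonneg (by positivity)]
  refine (mul_le_mul_of_nonneg_left k1 (by positivity)).trans ?_
  rw [neg_div] at k2
  calc _ = 1 / (K * (|X| + 1)) * ((a ^ (-(1 / 8) : ℝ)) ^ p.n * a⁻¹ ^ p.m / r ^ p.m *
        (r : ℝ) ^ (-((p.n : ℝ) / 8))) := by ring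
    _ ≤ 1 / (K * (|X| + 1)) * K := mul_le_mul_of_nonneg_left k2 (by positivity)
    _ = (|X| + 1)⁻¹ := by field_simp
    _ ≤ X⁻¹ := inv_anti₀ X0 (by linarith [le_abs_self X])
    _ ≤ ε := h3

/-- Block A. -/
theorem blkA : BlkA := by
  obtain ⟨ε₀, hε₀, h⟩ := genP
  refine ⟨ε₀, hε₀, fun ε hε hε' => ?_⟩
  obtain ⟨L₀, h⟩ := h ε hε hε'
  refine ⟨max L₀ 2, fun L hL => ?_⟩
  obtain ⟨kf, h0, η, hη, h⟩ := h L (le_of_max_le_left hL)
  refine ⟨η, hη, fun R => ?_⟩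
  obtain ⟨δ, hδ, h⟩ := h R
  refine ⟨min δ 1, by positivity,
    fun q hR hq J lam β hJ hr D b ⟨N, k₀, Raw, hG, T, hT, ρ, hρ, h1⟩ hb => ?_⟩
  exact udp_lat hJ hr hb hT hρ h1 fun m => latP kStmtP holesW spStmt (le_of_max_le_right hL) hq.ok
    (hq.mono le_rfl (min_le_right _ _)).small
    (h q hR (hq.mono le_rfl (min_le_left _ _)) m N _ (le_max_right k₀ _))
    (h0 m N _ (le_max_right k₀ _)) (hG _ (le_max_left _ _))

end Vale.Agent.P144DA
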