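import Vale.Agent.P144DA.Plane
import Vale.Agent.P144DA.Main
import Vale.Agent.P144Z.S.Main

/-!
Universality in the plane down to separations that are a power of the mesh.
-/

namespace Vale.Agent.P144DA

open Finset Filter Topology Vale.Agent.P144 Vale.Agent.P144Z U2D U4 P144DD

theorem sepP {c B a : ℝ} (hB0 : 0 ≤ B) (ha0' : 0 < a) (ha1 : a < 1) (ha2 : 5 * a < c) :
    2 ≤ ⌊c / a⌋₊ ∧ c / (2 * a) ≤ ⌊c / a⌋₊ ∧
      ∀ {ι : Type} (z : ι → ℂ) (w : ι → ℤ × ℤ), (∀ i, ‖z i‖ ≤ B) →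
        (∀ i i', i ≠ i' → 4 * c ≤ ‖z i - z i'‖) →
        (∀ i, |(((w i).1 : ℤ) : ℝ) - (z i).re / a| ≤ 2 ∧ |(((w i).2 : ℤ) : ℝ) - (z i).im / a| ≤ 2) →
        (∀ i, zd (w i) 0 ≤ ⌈2 * (B + 2) / c⌉₊ * ⌊c / a⌋₊) ∧
          ∀ i i', i ≠ i' → ⌊c / a⌋₊ < zd (w i) (w i') := by
  have hc0 : 0 < c := by linarith
  have h5 : 5 < c / a := by
    rw [lt_div_iff₀ ha0']
    linarith
  have r1 : (⌊c / a⌋₊ : ℝ) ≤ c / a := Nat.floor_le (by positivity)
  have r2 : c / a < ⌊c / a⌋₊ + 1 := Nat.lt_floor_add_one _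
  have r3 : c / (2 * a) ≤ ⌊c / a⌋₊ := by
    have : c / (2 * a) = c / a / 2 := by field_simp
    linarith
  refine ⟨by exact_mod_cast (by linarith : (2 : ℝ) ≤ ⌊c / a⌋₊), r3, fun z w hB hc hw =>
    ⟨fun i => ?_, fun i i' hi => ?_⟩⟩
  · have b1 : |(z i).re / a| ≤ B / a := by
      rw [abs_div, abs_of_pos ha0']
      exact div_le_div_of_nonneg_right ((Complex.abs_re_le_norm _).trans (hB i)) ha0'.le
    have b2 : |(z i).im / a| ≤ B / a := by
      rw [abs_div, abs_of_pos ha0']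
      exact div_le_div_of_nonneg_right ((Complex.abs_im_le_norm _).trans (hB i)) ha0'.le
    have b3 : (2 : ℝ) ≤ 2 / a := by
      rw [le_div_iff₀ ha0']
      linarith
    have b4 : (zd (w i) 0 : ℝ) ≤ (B + 2) / a := by
      rw [zd_cast, add_div]
      obtain ⟨w1, w2⟩ := hw i
      rw [abs_le] at w1 w2 b1 b2
      simp only [Prod.fst_zero, Prod.snd_zero, Int.cast_zero, sub_zero, max_le_iff, abs_le]
      refine ⟨⟨?_, ?_⟩, ?_, ?_⟩ <;> linarith [w1.1, w1.2, w2.1, w2.2, b1.1, b1.2, b2.1, b2.2]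
    have b5 : (B + 2) / a ≤ (⌈2 * (B + 2) / c⌉₊ : ℝ) * ⌊c / a⌋₊ := by
      calc (B + 2) / a = 2 * (B + 2) / c * (c / (2 * a)) := by field_simp
        _ ≤ _ := mul_le_mul (Nat.le_ceil _) r3 (by positivity) (by positivity)
    exact_mod_cast b4.trans b5
  · have d1 : 2 * c ≤ max |(z i).re - (z i').re| |(z i).im - (z i').im| := by
      have k1 := (hc i i' hi).trans (Complex.norm_le_abs_re_add_abs_im _)
      rw [Complex.sub_re, Complex.sub_im] at k1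
      linarith [le_max_left |(z i).re - (z i').re| |(z i).im - (z i').im|,
        le_max_right |(z i).re - (z i').re| |(z i).im - (z i').im|]
    have d2 : 2 * (c / a) ≤ max |(z i).re / a - (z i').re / a| |(z i).im / a - (z i').im / a| := by
      rw [← sub_div, ← sub_div, abs_div, abs_div, abs_of_pos ha0', max_div_div_right ha0'.le,
        ← mul_div_assoc]
      exact div_le_div_of_nonneg_right d1 ha0'.le
    have : (⌊c / a⌋₊ : ℝ) < zd (w i) (w i') := by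
      rw [zd_cast]
      obtain ⟨w1, w2⟩ := hw i
      obtain ⟨w3, w4⟩ := hw i'
      rw [abs_le] at w1 w2 w3 w4
      rcases le_max_iff.1 d2 with h | h
      · refine lt_max_of_lt_left ?_
        rcases le_abs.1 h with h | h
        · exact lt_abs.2 (Or.inl (by linarith [w1.1, w3.2]))
        · exact lt_abs.2 (Or.inr (by linarith [w1.2, w3.1]))
      · refine lt_max_of_lt_right ?_
        rcases le_abs.1 h with h | h
        · exact lt_abs.2 (Or.inl (by linarith [w2.1, w4.2]))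
        · exact lt_abs.2 (Or.inr (by linarith [w2.2, w4.1]))
    exact_mod_cast this

theorem posP {s c a : ℝ} (hs : 0 < s) (ha0 : 0 < a) (ha1 : a < 1) (ha2 : 5 * a < c) {p : Pts}
    (hp : Ins Set.univ s p) (hp' : P144DD.Sep (4 * c) p) :
    Pos (xs a p) (ys a p) ⌈2 * (s⁻¹ + 2) / c⌉₊ ⌊c / a⌋₊ := by
  obtain ⟨h1, h2⟩ := (sepP (B := s⁻¹) (by positivity) ha0 ha1 ha2).2.2 _
    (Sum.elim (xs a p) (ys a p)) (fun i => (hp i).1) hp' (by
    rintro (i | k)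
    · simpa [xs] using fl_near a (p.x i) 0 (by simp) (by simp)
    · exact fl_near a (p.y k) (uz (p.j k)) (by unfold uz; split_ifs <;> simp)
        (by unfold uz; split_ifs <;> simp))
  exact ⟨fun i => h1 (Sum.inl i), fun k => h1 (Sum.inr k),
    fun i i' hi => h2 (Sum.inl i) (Sum.inl i') (by simpa using hi),
    fun i k => h2 (Sum.inl i) (Sum.inr k) (by simp),
    fun k k' hk => h2 (Sum.inr k) (Sum.inr k') (by simpa using hk)⟩

theorem estUP {J lam β Zσ Zε : ℝ} {q : Par} (hJ : 0 < J) (h : U4.Rel J lam β q)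
    (h0 : U4.Rel J 0 (Kc / J) par0) (hM : MainOP q Zσ Zε) {n : ℕ} (hn : Even n) (m : ℕ) {s₀ : ℝ}
    (hs₀ : 0 < s₀) : ∃ θ > (0 : ℝ), ∀ ε > (0 : ℝ),
    ∀ᶠ a in 𝓝[>] (0 : ℝ), ∀ p : Pts, p.n = n → p.m = m → Ins Set.univ s₀ p →
      P144DD.Sep (a ^ θ) p → ∀ᶠ M in atTop, |corr a (gibbsT J lam q.V β M) p -
        Zσ ^ p.n * Zε ^ p.m * corr a (gibbsT J 0 (fun _ => 0) (Kc / J) M) p| ≤ ε := by
  obtain ⟨C, hC, hup⟩ := Z0.gibbsT_upper hJ n
  obtain ⟨κ, hκ, κ1⟩ : ∃ κ > (0 : ℝ), κ = 1 / 4 := ⟨_, by norm_num, rfl⟩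
  obtain ⟨r₀, pr, hr⟩ := hM n m (fun X => ⌈2 * (s₀⁻¹ + 2) / κ * X⌉₊) (PolN.ceil (by fun_prop)) hn _
    (((Sm.const one_pos).div (g := fun X => |X| + 1) (by fun_prop) fun X => by positivity).div
      (g := fun X => 2 * (C * (2 * |X| / κ + 1) ^ (n + m) + 1)) (by fun_prop)
        fun X => by positivity)
  obtain ⟨θ, hθ, hθ1, hbeat⟩ := Pol.beat (f := fun X => (r₀ X : ℝ) + 3)
    (Pol.add pr (Pol.const 3)) (κ := 1 / 2) (by norm_num)
  refine ⟨θ, hθ, fun ε₀ hε₀ => ?_⟩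
  have ht : Tendsto (fun a : ℝ => a ^ θ) (𝓝[>] 0) (𝓝 0) := by
    have := (Real.continuousAt_rpow_const 0 θ (Or.inr hθ.le)).tendsto
    rw [Real.zero_rpow hθ.ne'] at this
    exact this.mono_left nhdsWithin_le_nhds
  filter_upwards [hbeat 1 le_rfl (κ / 2) (by positivity), ht.eventually (ge_mem_nhds hε₀),
    Ioo_mem_nhdsGT (show (0 : ℝ) < 1 by norm_num)] with a h2 h3 ⟨ha0', ha1⟩ p e1 e2 hp hp'
  subst e1 e2
  have u0 : 0 < a ^ θ := Real.rpow_pos_of_pos ha0' θ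
  have u1 : a ^ θ ≤ 1 := Real.rpow_le_one ha0'.le ha1.le hθ.le
  have u2 : a ^ (1 / 2 : ℝ) ≤ a ^ θ := Real.rpow_le_rpow_of_exponent_ge ha0' ha1.le hθ1
  have u3 : a ^ (1 / 2 : ℝ) * a ^ (1 / 2 : ℝ) = a := by
    rw [← Real.rpow_add ha0']
    norm_num
  have u4 : 0 < a ^ (1 / 2 : ℝ) := Real.rpow_pos_of_pos ha0' _
  obtain ⟨X, hX, hX1⟩ : ∃ X : ℝ, a ^ θ = X⁻¹ ∧ X = a ^ (-θ) :=
    ⟨_, by rw [Real.rpow_neg ha0'.le, inv_inv], rfl⟩
  have X0 : 0 < X := inv_pos.1 (hX ▸ u0)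
  have X1 : 1 ≤ X := (inv_le_one₀ X0).1 (hX ▸ u1)
  replace h2 := h2 X X1 (by rw [one_mul, hX1])
  rw [abs_of_nonneg (by positivity)] at h2
  rw [hX] at u0 u1 u2 h3 hp'
  have hc : 0 < κ * X⁻¹ := by positivity
  have c2 : (r₀ X + 3 : ℝ) * (2 * a) ≤ κ * X⁻¹ := by
    have k1 := mul_le_mul_of_nonneg_right h2 u4.le
    have k2 := mul_le_mul_of_nonneg_left u2 hκ.le
    rw [mul_assoc, u3] at k1
    linarith
  have c3 : 5 * a < κ * X⁻¹ := by nlinarith [Nat.cast_nonneg (α := ℝ) (r₀ X)]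
  have hP := posP hs₀ ha0' ha1 c3 hp fun i i' e => le_trans (by rw [κ1]; linarith) (hp' i i' e)
  rw [show 2 * (s₀⁻¹ + 2) / (κ * X⁻¹) = 2 * (s₀⁻¹ + 2) / κ * X by field_simp] at hP
  obtain ⟨hr2, hrc, -⟩ := sepP le_rfl ha0' ha1 c3
  have k0 := scale_le hκ (by linarith) X1 p.n p.m
  replace hr := hr X
  beta_reduce at hr
  have hK0 : 0 ≤ (2 * |X| / κ + 1) ^ (p.n + p.m) := by positivity
  generalize (2 * |X| / κ + 1) ^ (p.n + p.m) = K at hr k0 hK0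
  obtain ⟨ε, hε, he, he'⟩ : ∃ ε > (0 : ℝ), 1 / (|X| + 1) = ε ∧ ε ≤ ε₀ := ⟨_, by positivity, rfl,
    le_trans (by rw [one_div]; exact inv_anti₀ X0 (by linarith [le_abs_self X])) h3⟩
  rw [he] at hr
  set ε' := ε / (2 * (C * K + 1)) with hε'
  have hε0 : 0 < ε' := by positivity
  generalize ⌊κ * X⁻¹ / a⌋₊ = r at hr2 hrc hP
  have hr0 : r₀ X ≤ r := by
    have : (r₀ X + 3 : ℝ) ≤ r := ((le_div_iff₀ (by positivity)).2 c2).trans hrc
    have : r₀ X + 3 ≤ r := by exact_mod_cast this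
    omega
  have hrp : (0 : ℝ) < r := by exact_mod_cast (by omega : 0 < r)
  obtain ⟨M₀, hM₀⟩ := hr r hr0 _ _ (ds a p) hP
  have hinj : Function.Injective (xs a p) := by
    intro i i' e
    by_contra hne
    have := hP.xx i i' hne
    rw [e] at this
    simp [zd] at this
  have hb := hup (univ.image (xs a p)) r (by rw [card_image_of_injective _ hinj]; simp) hr2 (by
    intro u hu v hv huv
    obtain ⟨i, -, rfl⟩ := mem_image.1 hu
    obtain ⟨i', -, rfl⟩ := mem_image.1 hv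
    have := hP.xx i i' fun e => huv (by rw [e])
    unfold zd at this
    rw [Int.abs_eq_natAbs, Int.abs_eq_natAbs]
    omega) par0.V
  set s := (a ^ (-(1 / 8) : ℝ)) ^ p.n * a⁻¹ ^ p.m with hs
  have hs0 : 0 ≤ s := by positivity
  have t1 := (h.corr a hn).abs
  have t2 := ((h0.corr a hn).const_mul (Zσ ^ p.n * Zε ^ p.m)).abs
  have t3 := (h0.spins hn hinj).abs.const_mul (s * (ε' / r ^ p.m))
  have t4 := ((t1.add t2).add t3).eventually (ge_mem_nhds (show _ < ε / 2 by simpa using hε))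
  filter_upwards [hb, t4, eventually_ge_atTop M₀] with M hb t4 hM
  have hm := hM₀ (M + 1) (by omega)
  have k1 : s * (ε' / r ^ p.m) * (C * (r : ℝ) ^ (-(p.n : ℝ) / 8)) ≤ ε / 2 := by
    have := (U4.scale ha0' hc hrc p.n p.m).trans k0
    calc _ = ε' * (C * (s / r ^ p.m * (r : ℝ) ^ (-(p.n : ℝ) / 8))) := by ring
      _ ≤ ε' * (C * K + 1) := by
          gcongr
          nlinarith
      _ = ε / 2 := by
          rw [hε']
          field_simp
  rw [← hs] at t4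
  change |corr a (gibbsT J lam q.V β M) p -
    Zσ ^ p.n * Zε ^ p.m * corr a (gibbsT J 0 par0.V (Kc / J) M) p| ≤ ε₀
  generalize corr a (gibbsT J lam q.V β M) p = A at *
  generalize corr a (gibbsT J 0 par0.V (Kc / J) M) p = A₀ at *
  generalize mix q (M + 1) (xs a p) (ys a p) (ds a p) = B at *
  generalize mix par0 (M + 1) (xs a p) (ys a p) (ds a p) = B₀ at *
  generalize Zw par0 (sec (M + 1) AA * spinG (M + 1) 0 (xs a p)) 1 /
    Zw par0 (sec (M + 1) AA) 1 = W at *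
  generalize (gibbsT J 0 par0.V (Kc / J) M fun σ =>
    ∏ u ∈ univ.image (xs a p), sp (σ u)) = G at *
  generalize Zσ ^ p.n * Zε ^ p.m = Z at *
  have k2 : |W| ≤ |W - G| + C * (r : ℝ) ^ (-(p.n : ℝ) / 8) := by
    have := abs_add_le (W - G) G
    rw [sub_add_cancel] at this
    linarith
  have k3 : |s * (B - Z * B₀)| ≤ s * (ε' / r ^ p.m) * |W - G| + ε / 2 := by
    rw [abs_mul, abs_of_nonneg hs0]
    calc _ ≤ s * (ε' / r ^ p.m * (|W - G| + C * (r : ℝ) ^ (-(p.n : ℝ) / 8))) := by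
          refine mul_le_mul_of_nonneg_left (hm.trans ?_) hs0
          gcongr
      _ ≤ _ := by linarith
  have e : A - Z * A₀ = (A - s * B) - Z * (A₀ - s * B₀) + s * (B - Z * B₀) := by ring
  rw [e]
  have k4 := abs_add_le ((A - s * B) - Z * (A₀ - s * B₀)) (s * (B - Z * B₀))
  have k5 := abs_sub (A - s * B) (Z * (A₀ - s * B₀))
  linarith

/-- The estimate in the plane. -/
theorem udp_plane {J lam β Zσ Zε : ℝ} {q : Par} (hJ : 0 < J) (h : U4.Rel J lam β q)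
    (h0 : U4.Rel J 0 (Kc / J) par0) (hM : MainOP q Zσ Zε) {μ : MeasureTheory.Measure Config}
    (hμ : IsTorusState J lam q.V β μ) {E₀ : Fam} (hE : PlaneFam J 0 (fun _ => 0) (Kc / J) E₀) :
    UDP Set.univ E₀ (famOf μ) Zσ Zε := by
  intro n m s hs
  obtain ⟨θ, hθ, h3⟩ : ∃ θ > (0 : ℝ), ∀ ε > (0 : ℝ), ∀ᶠ a in 𝓝[>] (0 : ℝ), ∀ p : Pts, p.n = n →
      p.m = m → Ins Set.univ s p → P144DD.Sep (a ^ θ) p →
      ∀ᶠ M in atTop, |corr a (gibbsT J lam q.V β M) p -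
        Zσ ^ p.n * Zε ^ p.m * corr a (gibbsT J 0 (fun _ => 0) (Kc / J) M) p| ≤ ε := by
    rcases Nat.even_or_odd n with hn | hn
    · exact estUP hJ h h0 hM hn m hs
    · refine ⟨1, one_pos, fun ε hε => Eventually.of_forall fun a p e _ _ _ =>
        Eventually.of_forall fun M => ?_⟩
      rw [U1.corr_odd h.pot J lam β M a (e ▸ hn), U1.corr_odd U1.pot_zero J 0 _ M a (e ▸ hn)]
      simpa using hε.le
  refine ⟨θ, hθ, fun ε hε => ?_⟩
  filter_upwards [h3 ε hε, self_mem_nhdsWithin] with a ha ha0 p e1 e2 hp hp'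
  exact le_of_tendsto ((U1.state_corr hμ a p).sub
    ((U1.zero_corr hJ hE ha0 p).const_mul (Zσ ^ p.n * Zε ^ p.m))).abs (ha p e1 e2 hp hp')

open Mn in
theorem mainOP_ev : Ev fun L q => MainOP q (Real.exp (AN.sg L q)) (AN.ze L q) := by
  obtain ⟨L₁, hL₁, hP⟩ := flowUP
  refine ⟨max L₁ 64, fun L hL => ?_⟩
  have l3 : 64 ≤ L := le_of_max_le_right hL
  obtain ⟨C, hC, η, hη, hP⟩ := hP L (le_of_max_le_left hL)
  refine ⟨η, hη, fun R => ?_⟩
  obtain ⟨δ, hδ, hP⟩ := hP η hη le_rfl R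
  refine ⟨δ, hδ, fun q hR hq => ?_⟩
  obtain ⟨Z, -, -, z3, hP⟩ := hP q hR hq
  obtain ⟨w, J₀, h⟩ := MN.exists_ref l3 hq.ok hP.pl
  obtain ⟨s, -, hs'⟩ := exists_sigma l3 (w := w) (J₀ := J₀) fun i => h (J₀ + i) (by omega) _
    le_rfl (Nat.mul_le_mul_left _ (sc_mono (by omega) (by omega)))
  obtain ⟨-, e3, e4⟩ := AN.ch_of l3 hq.ok z3 hP.pl hs'
  rw [e3, e4]
  exact main_planeP l3 hq.ok hP hs'

/-- Block P. -/
theorem blkP : BlkP := by
  obtain ⟨L₁, h⟩ := mainOP_ev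
  obtain ⟨L₂, hS⟩ := stateStmt
  refine ⟨max L₁ L₂, fun L hL => ?_⟩
  obtain ⟨η, hη, h⟩ := h L (le_of_max_le_left hL)
  obtain ⟨η', hη', hS⟩ := hS L (le_of_max_le_right hL)
  obtain ⟨δ', hδ', hS⟩ := hS 0
  refine ⟨η, hη, fun R => ?_⟩
  obtain ⟨δ, hδ, h⟩ := h R
  exact ⟨δ, hδ, fun q hR hq J lam β hJ hr μ hμ E₀ hE => udp_plane hJ hr
    (U4.rel_zero hJ (hS par0 rfl (crit_par0 L η' δ' hη'.le hδ'.le))) (h q hR hq) hμ hE⟩

end Vale.Agent.P144DA
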