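import Vale.Agent.P144DA.Clus
import Vale.Agent.P144D.MN.Main
import Vale.Agent.P144D.FD.Plane

/-!
The flow in the plane with polynomial constants.
-/

namespace Vale.Agent.P144DA

open Finset Matrix Vale.Agent.P144Z

open E5 in
theorem lateP : ∃ C₀ : ℝ, 1 ≤ C₀ ∧ ∀ Λ : ℝ → ℕ, PolN Λ → ∃ C : ℝ → ℝ, Pol C ∧ ∀ X, 1 ≤ C X ∧
    ∀ (M : ℕ) [NeZero M]
    (A A' : Gauge M) (c : Tor M) (R r : ℕ), Cluster A A' c R r → 256 ≤ r → r ≤ R → R ≤ Λ X * r →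
    ∀ (z : Tor M) (ℓ ρ : ℕ), R ≤ ℓ → 64 * ℓ ≤ ρ → 8 * ρ ≤ M → ∀ g : Tor M × Fin 4 → ℝ,
    hsq A ℓ (ball z (2 * ℓ)) g ≤ (C₀ * ((ℓ : ℝ) / ρ) * √((ℓ : ℝ) / ρ) +
      C X * √((R : ℝ) / ρ)) * hsq A ρ (ball z (2 * ρ)) g := by
  obtain ⟨Cf, hCf, hf⟩ := flat_est
  obtain ⟨C, hC, hc⟩ := cut_field
  obtain ⟨Cr, hCr, hr⟩ := reduce
  obtain ⟨Cs, hCs, hs⟩ := poin_supp
  refine ⟨1 + 2 * Cf * (2 + C), le_add_of_nonneg_right (by positivity), fun Λ pΛ => ?_⟩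
  obtain ⟨K, pK, hk⟩ := cluster_estP pΛ
  refine ⟨fun X => 1 + (4 * Cf + 2) * (2 * (Cr * Cs) * K X * C), by fun_prop, fun X => ?_⟩
  obtain ⟨hK, hk⟩ := hk X
  beta_reduce
  generalize Λ X = Λ at *
  generalize K X = K at *
  refine ⟨le_add_of_nonneg_right (by positivity),
    fun M _ A A' c R r h h256 hrR hΛ z ℓ ρ hℓ h64 hM g => ?_⟩
  obtain ⟨φ, a1, a2, a3⟩ := hc M A h.sign z ρ (by omega) g
  have hH := (l2sq_nonneg _ _).trans a2
  have hR : (0 : ℝ) < R := by exact_mod_cast (by omega : 0 < R)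
  have hRρ : (R : ℝ) ≤ ρ := by exact_mod_cast (by omega : R ≤ ρ)
  have hℓρ : (ℓ : ℝ) ≤ ρ := by exact_mod_cast (by omega : ℓ ≤ ρ)
  obtain ⟨A₁, y, b1, b2, b3, b4⟩ : ∃ (A₁ : Gauge M) (y : Tor M × Fin 4 → ℝ), IsSign A₁ ∧
      (∀ f, flux A₁ f = 1) ∧ l2sq (ball z ρ) (Dm A₁ *ᵥ y) ≤ l2sq univ (Dm A *ᵥ φ) ∧
      l2sq univ (φ - y) ≤ 2 * (Cr * Cs) * K * C * √((R : ℝ) / ρ) *
        hsq A ρ (ball z (2 * ρ)) g := by
    by_cases hF : ∃ f, flux A f = -1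
    · obtain ⟨y, b1, b2⟩ := hr M A A' c R r h (by omega) (ball z ρ) ρ Cs (ρ / R) (by omega)
        (by omega) hCs ((one_le_div hR).2 hRρ) (by
          rw [div_le_div_iff₀ (by positivity) hR]
          nlinarith) (fun ζ hζ => hs M A' h.sign' z ρ (by omega) ζ fun s hs' =>
            hζ s fun hb => absurd (mem_ball.1 hb) (not_le.2 hs')) φ
      exact ⟨A', y, h.sign', h.flat, b1, late_num1 hR hRρ hC (by linarith) (by positivity)
        (l2sq_nonneg _ _) (l2sq_nonneg _ _) a2 a3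
        (hk M A A' c R r h hF h256 hrR hΛ (by omega) φ) b2⟩
    · refine ⟨A, φ, h.sign, fun f => flux_one h.sign fun hf => hF ⟨f, hf⟩, l2sq_le_univ _ _, ?_⟩
      rw [sub_self]
      exact le_trans (by simp [l2sq]) (mul_nonneg (by positivity) hH)
  have k1 := l2sq_sub_le univ φ (φ - y)
  have k2 := l2sq_add_le (ball z (2 * ℓ)) y (φ - y)
  rw [sub_sub_cancel] at k1
  rw [add_sub_cancel, l2sq_congr (g := g) fun s hs' => a1 s ((mem_ball.1 hs').trans (by omega))]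
    at k2
  exact late_num2 (by positivity) ((div_le_one (by linarith)).2 hℓρ) (Real.sqrt_nonneg _) hCf
    (by positivity) hH a2 ((mul_le_mul_of_nonneg_left b3 (sq_nonneg _)).trans a3) b4 k1
    (hf M A₁ b1 b2 z ℓ ρ (by omega) (by omega) (by omega) y)
    (k2.trans (by linarith [l2sq_le_univ (ball z (2 * ℓ)) (φ - y)]))
    (hsq_split A (Nat.cast_nonneg ℓ) hℓρ (by linarith) (ball_mono z (by omega)) g)

theorem sch_lateP : ∃ C₀ : ℝ, 1 ≤ C₀ ∧ ∀ Λ : ℝ → ℕ, PolN Λ → ∀ L : ℕ, 64 ≤ L → ∃ p, PolN p ∧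
    ∀ X, ∀ (g : Geo) (A' : Gauge g.M)
    (c : g.P) (R r : ℕ), Cluster g.A A' c R r → 256 ≤ r → r ≤ R → R ≤ Λ X * r → ∀ ℓ : ℕ,
    p X * R ≤ ℓ →
    R ≤ ℓ → 8 * (L * ℓ) ≤ g.M → ∀ z, g.Sch ℓ (L * ℓ) (C₀ * √(√((L : ℝ)⁻¹))) z := by
  obtain ⟨C₀, hC₀, h1⟩ := lateP
  refine ⟨C₀ + 1, by linarith, fun Λ pΛ L hL => ?_⟩
  obtain ⟨C, pC, h2⟩ := h1 Λ pΛ
  refine ⟨fun X => ⌈(C X * L) ^ 2⌉₊, PolN.ceil (by fun_prop), fun X => ?_⟩
  obtain ⟨hC, h2⟩ := h2 X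
  beta_reduce
  generalize C X = C at *
  refine fun g A' c R r hcl hr hrR hΛ ℓ hp hR hM z => RN.shr_of
    (h2 g.M g.A A' c R r hcl hr hrR hΛ z ℓ (L * ℓ) hR (Nat.mul_le_mul_right ℓ hL) hM) ?_
  have l0 : (0 : ℝ) < ℓ := by exact_mod_cast (by omega : 0 < ℓ)
  have L0 : (0 : ℝ) < L := by exact_mod_cast (by omega : 0 < L)
  have e1 : (ℓ : ℝ) / (L * ℓ : ℕ) = (L : ℝ)⁻¹ := by push_cast; field_simp
  have e2 : (R : ℝ) / (L * ℓ : ℕ) = (L : ℝ)⁻¹ * (R / ℓ) := by push_cast; field_simp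
  have e3 : C * L * √((R : ℝ) / ℓ) ≤ 1 := by
    refine (sq_le_sq₀ (by positivity) zero_le_one).1 ?_
    rw [mul_pow, Real.sq_sqrt (by positivity), one_pow, ← mul_div_assoc, div_le_one l0]
    refine (mul_le_mul_of_nonneg_right (Nat.le_ceil _) (Nat.cast_nonneg R)).trans ?_
    exact_mod_cast hp
  rw [e1, e2, Real.sqrt_mul (by positivity), mul_pow, Real.sq_sqrt (Real.sqrt_nonneg _)]
  set t := √((L : ℝ)⁻¹)
  have t0 : 0 ≤ t := Real.sqrt_nonneg _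
  have e4 : (C₀ * (L : ℝ)⁻¹ * t + C * (t * √((R : ℝ) / ℓ))) * (L * ℓ : ℕ)
      = (C₀ + C * L * √((R : ℝ) / ℓ)) * t * ℓ := by push_cast; field_simp
  rw [e4]
  refine mul_le_mul_of_nonneg_right (mul_le_mul_of_nonneg_right ?_ t0) l0.le
  nlinarith

theorem PolN.exists_lg {f : ℝ → ℕ} (hf : PolN f) : ∃ u, Lg u ∧ ∀ X, f X < 2 ^ u X := by
  obtain ⟨u, hu, h⟩ := Pol.exists_lg hf
  exact ⟨u, hu, fun X => by exact_mod_cast h X⟩

theorem Lg.cpow {u : ℝ → ℕ} (hu : Lg u) {c : ℝ} (hc : 0 ≤ c) : Pol fun X => c ^ u X :=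
  Pol.mono0 (hu.pow ⌈c⌉₊) fun X _ => ⟨by positivity, by
    push_cast
    exact pow_le_pow_left₀ hc (Nat.le_ceil c) _⟩

open FM in
theorem exists_stepsP : ∃ L₀ : ℕ, ∀ L ≥ L₀, ∃ C : ℝ, 1 ≤ C ∧ ∀ (N₀ : ℕ) (Λ : ℝ → ℕ), PolN Λ →
    (∀ X, 1 ≤ Λ X) → ∃ (p₁ p₂ : ℝ → ℕ) (γ : ℝ), Lg p₂ ∧ 0 < γ ∧ γ ≤ 1 ∧ ∀ X,
      1 ≤ 2 ^ p₂ X * γ ^ p₁ X ∧ ∀ J, p₂ X ≤ J → 1 ≤ J → ∀ r : ℕ,
      8 * sc L J ≤ r → r ≤ 8 * sc L (J + 1) → ∀ g : Geo, g.J = J → g.Nice N₀ (Λ X) r →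
        ∀ β, 0 < β →
        ∀ j, J ≤ j → 16 * sc L (j + 1) ≤ g.M →
          StepOK g L j (hr L (p₁ X) (p₂ X) J γ j) (hr L (p₁ X) (p₂ X) J γ (j + 1)) β C := by
  obtain ⟨C₀, hC₀, L₁, hG⟩ := Geo.step_gen
  obtain ⟨C₁, hC₁, hS⟩ := sch_lateP
  refine ⟨max L₁ (max 64 ⌈(C₀ * C₁ ^ 2) ^ 2⌉₊), fun L hL => ?_⟩
  have hL64 : 64 ≤ L := (le_max_left _ _).trans ((le_max_right _ _).trans hL)
  have hLc : (C₀ * C₁ ^ 2) ^ 2 ≤ L :=
    Nat.ceil_le.1 ((le_max_right _ _).trans ((le_max_right _ _).trans hL))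
  have hL1 : (1 : ℝ) ≤ L := by exact_mod_cast (by omega : 1 ≤ L)
  have hL0 : (0 : ℝ) < L := by linarith
  obtain ⟨C, hC, hG⟩ := hG L ((le_max_left _ _).trans hL)
  refine ⟨C, hC, fun N₀ Λ pΛ hΛ => ?_⟩
  obtain ⟨p, pp, hS⟩ := hS Λ pΛ L hL64
  have hN : (1 : ℝ) ≤ C₀ * (max N₀ 1 : ℕ) :=
    one_le_mul_of_one_le_of_one_le hC₀ (by exact_mod_cast le_max_right _ _)
  set ρ := (√(C₀ * (max N₀ 1 : ℕ)))⁻¹ with hρ
  have hρ0 : 0 < ρ := by positivity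
  have hρ1 : ρ ≤ 1 := inv_le_one_of_one_le₀ (Real.one_le_sqrt.2 hN)
  have hs1 : 1 ≤ √(L : ℝ) := Real.one_le_sqrt.2 hL1
  have hγ0 : 0 < ρ / √L := by positivity
  have hγ1 : ρ / √L ≤ 1 := (div_le_self hρ0.le hs1).trans hρ1
  obtain ⟨u, lu, hu⟩ := ((PolN.const 8).mul ((pp.add (PolN.const 1)).mul pΛ)).exists_lg
  obtain ⟨p₂, lp, hp₂⟩ := ((lu.add (Lg.const 1)).cpow (inv_pos.2 hγ0).le).exists_lg
  refine ⟨fun X => u X + 1, p₂, ρ / √L, lp, hγ0, hγ1, fun X => ?_⟩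
  replace hu := hu X
  replace hp₂ := hp₂ X
  replace hS := hS X
  replace hΛ := hΛ X
  clear lu lp pp pΛ
  beta_reduce at *
  generalize Λ X = Λ at *
  generalize p X = p at *
  generalize u X = u at *
  generalize p₂ X = p₂ at *
  have hp₂' : 1 ≤ 2 ^ p₂ * (ρ / √L) ^ (u + 1) := by
    rw [inv_pow, inv_lt_iff_one_lt_mul₀ (by positivity)] at hp₂
    exact hp₂.le
  refine ⟨hp₂', fun J hJ hJ1 r hr1 hr2 g hgJ hg β hβ j hj hM => ?_⟩
  have hlo := hr_lo (L := L) hγ0 hγ1 hp₂' hJ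
  have hpos : ∀ i, 0 < hr L (u + 1) p₂ J (ρ / √L) i := fun i =>
    (pow_pos hL0 2).trans_le (hlo i)
  have h8 := eight_le_sc (L := L) (by omega) j
  rw [sc_succ] at hM
  have hG := hG g hg.ok.sign j (sc L j) (fun _ _ => hgJ ▸ hj) h8 hM
  by_cases hm : j < J + (u + 1)
  · obtain ⟨Z, hZ, hZ1, hZ2⟩ := hg.card
    have e : √((L * sc L j : ℕ) / (sc L j : ℝ)) = √L := by
      have : (0 : ℝ) < sc L j := by positivity
      congr 1
      push_cast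
      field_simp
    refine hG (max N₀ 1) (le_max_right _ _) ⟨Z, hZ.trans (le_max_left _ _),
      fun f hf => ⟨f, hZ1 f hf, by rw [tdist_self]; omega⟩,
      fun k => ⟨_, hZ2 k, by rw [tdist_self]; omega⟩⟩ √L ρ _ _ β (by positivity)
      (fun z => e ▸ Geo.sch_triv (by omega) (Nat.le_mul_of_pos_left _ (by omega)) z) (hlo j)
      (hpos _) ?_ hρ0 ?_ ?_ hβ
    · rw [hr_mid hJ hj hm]
      nlinarith [hpos j]
    · rw [hr_mid hJ hj hm]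
      apply le_of_eq
      field_simp
    · rw [hρ, inv_pow, Real.sq_sqrt (by linarith), mul_inv_cancel₀ (by linarith)]
  · obtain ⟨A', hA', -⟩ := hg.cl
    have h1 : (p + 1) * (Λ * r) ≤ sc L j := by
      have a1 : 8 * ((p + 1) * Λ) ≤ L ^ u :=
        hu.le.trans (Nat.pow_le_pow_left (by omega) u)
      calc (p + 1) * (Λ * r) ≤ (p + 1) * (Λ * (8 * sc L (J + 1))) := by gcongr
        _ = 8 * ((p + 1) * Λ) * sc L (J + 1) := by ring
        _ ≤ L ^ u * sc L (J + 1) := by gcongr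
        _ = sc L (J + (u + 1)) := by unfold sc; ring
        _ ≤ sc L j := sc_mono (by omega) (by omega)
    have h2 : Λ * r ≤ sc L j := by nlinarith
    have h3 : p * (Λ * r) ≤ sc L j := by nlinarith
    have hκ : 0 < C₁ * √(√((L : ℝ)⁻¹)) := by positivity
    refine hG 1 le_rfl ⟨{0}, by simp, fun f hf => ⟨0, by simp, (hA'.near f hf).trans h2⟩,
      fun k => ⟨0, by simp, (hg.src k).trans h2⟩⟩ _ _ _ _ β hκ.le
      (hS g A' 0 (Λ * r) r hA' (r_ge (by omega) hJ1 hr1) (Nat.le_mul_of_pos_left _ hΛ) le_rfl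
        (sc L j) h3 h2 (by omega)) (hlo j) (hpos _) ?_ hκ ?_ ?_ hβ
    · rw [hr_late hJ (by omega)]
      linarith [hpos j]
    · rw [hr_late hJ (by omega), mul_comm]
    · have a1 : C₀ * C₁ ^ 2 ≤ √L := Real.le_sqrt_of_sq_le hLc
      rw [mul_pow, Real.sq_sqrt (by positivity), Real.sqrt_inv, Nat.cast_one, mul_one, ← mul_assoc,
        mul_inv_le_iff₀ (by positivity), one_mul]
      exact a1

/-- The bounds on the flow in the plane. -/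
def PlP (L : ℕ) (q : Par) (Z a b : ℝ) : Prop :=
  ∀ (N₀ : ℕ) (Λ : ℝ → ℕ), PolN Λ → (∀ X, 1 ≤ Λ X) → ∃ w, Sm w ∧ ∃ J₀, Lg J₀ ∧ ∀ X, ∀ J ≥ J₀ X,
    ∀ r : ℕ, 8 * sc L J ≤ r →
    r ≤ 8 * sc L (J + 1) → ∃ M₀ : ℕ, ∀ g : Geo, g.J = J → g.Nice N₀ (Λ X) r → M₀ ≤ g.M →
      ∀ N : ℕ,
      16 * sc L N ≤ g.M → g.M ≤ 16 * sc L (N + 1) → g.FlowB L q N Z (w X) a b

theorem PlP.pl {L : ℕ} {q : Par} {Z a b : ℝ} (h : PlP L q Z a b) : MN.Pl L q Z a b :=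
  fun N₀ Λ hΛ => by
    obtain ⟨w, hw, J₀, -, h⟩ := h N₀ _ (PolN.const Λ) fun _ => hΛ
    exact ⟨w 1, hw.1 1, J₀ 1, h 1⟩

open FM in
set_option maxHeartbeats 800000 in
theorem flowUP : ∃ L₀ : ℕ, 16 ≤ L₀ ∧ ∀ L ≥ L₀, ∃ C : ℝ, 1 ≤ C ∧ ∃ η₀ > 0, ∀ η, 0 < η → η ≤ η₀ →
    ∀ R : ℕ, ∃ δ₀ > 0, ∀ q : Par, q.R = R → Crit L q η δ₀ → ∃ Zε : ℝ, |Zε - 1| ≤ C * η ∧
      |Zε * (-2 * tc)| ≤ 2 ∧ (∀ j, |zr L q j - Zε * (-2 * tc)| ≤ 1 / 2 ^ j) ∧ 
      PlP L q Zε (C * η) C := by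
  obtain ⟨L₁, hL₁, hE⟩ := FM.early_all
  obtain ⟨L₂, hS⟩ := exists_stepsP
  obtain ⟨C₀, -, hgap⟩ := gap_anti
  obtain ⟨L₃, hlast⟩ := Geo.step_last C₀
  obtain ⟨Cs, hCs, hsrc⟩ := Geo.df_srcSt
  refine ⟨max L₁ (max L₂ L₃), hL₁.trans (le_max_left _ _), fun L hL => ?_⟩
  have hL1 : L₁ ≤ L := (le_max_left _ _).trans hL
  have hL0 : (0 : ℝ) < L := by exact_mod_cast (by omega : 0 < L)
  obtain ⟨CG, hCG, hS⟩ := hS L ((le_max_left _ _).trans ((le_max_right _ _).trans hL))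
  obtain ⟨CL, hCL, hlast⟩ := hlast L ((le_max_right _ _).trans ((le_max_right _ _).trans hL))
  set C := max CG CL with hC
  have hC1 : 1 ≤ C := hCG.trans (le_max_left _ _)
  set c := Cs * Real.exp L with hc
  have hc0 : 0 < c := by positivity
  obtain ⟨δ, hδ, hδm, A, hA, η₀, hη₀, hη₁, hE, hE0⟩ := hE L hL1 (1 / (C * (c * 2))) (by positivity)
  have hcδ : C * (c * δ * 2) ≤ 1 := by
    rw [le_div_iff₀ (by positivity)] at hδm
    linarith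
  set T := C * ((1 + 2 * c) * A + 4 * (C * A) + A) with hT
  have hT0 : 0 < T := by positivity
  have hAδ : 0 < A / δ := by positivity
  refine ⟨2 * T + 3 * (A / δ) + 7, by linarith, min η₀ (min (1 / T) (δ / (4 * A))), by positivity,
    fun η hη hηle R => ?_⟩
  have hη1 : η ≤ η₀ := hηle.trans (min_le_left _ _)
  have hη2 : η * T ≤ 1 :=
    (le_div_iff₀ hT0).1 (hηle.trans ((min_le_right _ _).trans (min_le_left _ _)))
  have hη3 : η * (4 * A) ≤ δ :=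
    (le_div_iff₀ (by positivity)).1 (hηle.trans ((min_le_right _ _).trans (min_le_right _ _)))
  obtain ⟨δ₀, hδ₀, hE⟩ := hE η hη hη1 R
  refine ⟨δ₀, hδ₀, fun q hR hq => ?_⟩
  subst hR
  obtain ⟨z, hz1, hz2⟩ := exists_zinf (L := L) (by omega) hq.ok hδ (hE q rfl hq)
  have htc := tc_lo
  have htc' := tc_hi
  have hx := abs_le.1 hq.x
  have hZ := abs_le.1 hq.Z
  have hxZ : |q.x * q.Z - tc| ≤ 5 / 2 * η := by
    have := hq.ok.Z_hi
    have := hq.ok.Z_lo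
    rw [abs_le]; constructor <;> nlinarith
  have e1 : 2 * (A * η) / δ = 2 * (A / δ * η) := by ring
  have h1 : 2 * (A * η) / δ ≤ 1 / 2 := by rw [div_le_iff₀ hδ]; linarith
  have hz5 : |z| ≤ 2 := by
    have := abs_le.1 hz1
    have := abs_le.1 hxZ
    rw [abs_le]; constructor <;> linarith
  have hz3 := abs_le.1 hz1
  have hz4 := abs_le.1 hxZ
  have e0 : z / (-2 * tc) * (-2 * tc) = z := div_mul_cancel₀ _ (by linarith)
  refine ⟨z / (-2 * tc), ?_, by rwa [e0], fun j => ?_, fun N₀ Λ pΛ hΛ => ?_⟩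
  · have h2 : 0 ≤ A / δ * η := by positivity
    rw [div_sub_one (by linarith), abs_div, div_le_iff₀ (abs_pos.2 (by linarith)),
      abs_of_neg (by linarith : -2 * tc < 0), abs_le]
    have h3 : 0 ≤ T * η := by positivity
    constructor <;> nlinarith
  · rw [e0]
    exact (hz2 _ j _ (pre_gr (L := L) (by omega) q.R j) ()).trans (by gcongr; linarith)
  obtain ⟨p₁, p₂, γ, lp, g0, g1, hS⟩ := hS N₀ Λ pΛ hΛ
  refine ⟨fun X => δ / (L * ((L : ℝ) ^ 2 * 2 ^ p₂ X) ^ 2), (Sm.const hδ).div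
    ((Pol.const _).mul (((Pol.const _).mul lp).pow 2)) fun X => by positivity,
    fun X => max (p₂ X) 1, lp.max (Lg.const 1), fun X J hJ r hr1 hr2 => ?_⟩
  obtain ⟨g2, hS⟩ := hS X
  replace hΛ := hΛ X
  clear lp pΛ
  beta_reduce at hJ ⊢
  generalize Λ X = Λ at *
  generalize p₁ X = p₁ at *
  generalize p₂ X = p₂ at *
  have hJ1 : p₂ ≤ J := (le_max_left _ _).trans hJ
  have hJ2 : 1 ≤ J := (le_max_right _ _).trans hJ
  obtain ⟨M₁, hgap⟩ := hgap Λ (Λ * r)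
  refine ⟨max M₁ (max (16 * sc L J + 1) (16 * (q.R + 1))), fun g hgJ hg hM N hN hN' => ?_⟩
  have hM1 : 16 * sc L J + 1 ≤ g.M := (le_max_left _ _).trans ((le_max_right _ _).trans hM)
  have hp := pre_hr (p₁ := p₁) (R := q.R) (by omega : 1 ≤ L) g0 g1 g2 hJ1 hg hgJ hr1 (by omega)
    ((le_max_right _ _).trans ((le_max_right _ _).trans hM))
  have hJN : J ≤ N := by
    by_contra hn
    have := sc_mono (L := L) (by omega) (by omega : N + 1 ≤ J)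
    omega
  obtain ⟨A', hA', hanti⟩ := hg.cl
  have hgap := hgap g.M ((le_max_left _ _).trans hM) g.A A' 0 r hA' (r_ge (by omega) hJ2 hr1)
    (Nat.le_mul_of_pos_left _ hΛ) le_rfl hanti
  simp only [RN.l2sq_univ] at hgap
  have hβ := beta_pos (by omega : 1 ≤ L) hδ (hp.pos (by omega) J) J
  have h8 := fun j => eight_le_sc (L := L) (by omega) j
  have e2 : C * ((1 + 2 * c) * (A * η) + 4 * (C * (A * η)) + A * η) = η * T := by rw [hT]; ring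
  refine flowB (C := C) (c := c) (by omega) hδ hp hgJ hJN hN hC1 hc0.le hcδ
    (fun j hj hj' => (hS J hJ1 hJ2 r hr1 hr2 g hgJ hg _ hβ j hj
      ((Nat.mul_le_mul_left _ (sc_mono (by omega) hj')).trans hN)).mono (by linarith)
        (le_max_left _ _))
    (LastOK.mono (hlast g hg.ok.sign (sc L N) (h8 N) (by omega) (by rwa [← sc_succ])
      (fun v => by rw [← mulVec_mulVec]; exact hgap _) _ _ (hp.lo N) hβ) (by linarith)
        (le_max_right _ _))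
    (hsrc L g hg.ok.sign (sc L J) (h8 J) (by omega) (sep_mono hp.sep (by omega)) _ δ
      (hp.pos (by omega) J) hδ)
    (fun v hv => ?_) (by positivity) (hE q rfl hq g J _ hp) (hE0 _ g J _ hp) (by positivity)
    (fun j => ?_) hz5 (hz2 g J _ hp) (by rwa [e2]) ?_ (by linarith)
  · have := hgap v
    rw [hv, dotProduct_zero, mul_zero] at this
    exact dotProduct_self_eq_zero.1 (le_antisymm this (Vale.Agent.P144Z.C.dot_nonneg v))
  · have h2 := hr_le_top (L := L) (p₁ := p₁) (p₂ := p₂) (J := J) g0 g1 j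
    have h3 := hp.pos (by omega) j
    rw [div_mul_eq_mul_div, div_mul_eq_mul_div, div_le_iff₀ (by positivity), mul_assoc]
    gcongr
  · rw [e2]
    have h2 : 0 ≤ A / δ * η := by positivity
    nlinarith

/-- The main estimate in the plane. -/
def MainOP (q : Par) (Zσ Zε : ℝ) : Prop :=
  ∀ (n m : ℕ) (Λ : ℝ → ℕ), PolN Λ → Even n → ∀ ε, Sm ε → ∃ r₀, PolN r₀ ∧ ∀ X, ∀ r ≥ r₀ X,
    ∀ (x : Fin n → ℤ × ℤ) (y : Fin m → ℤ × ℤ)
    (d : Fin m → Fin 2), Pos x y (Λ X) r → ∃ M₀ : ℕ, ∀ (M : ℕ) [NeZero M], M₀ ≤ M →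
      |mix q M x y d - Zσ ^ n * Zε ^ m * mix par0 M x y d| ≤
        ε X / (r : ℝ) ^ m * |Zw par0 (sec M AA * spinG M 0 x) 1 / Zw par0 (sec M AA) 1|

open Geo Mn in
theorem main_planeP {L : ℕ} {q : Par} {Z a b σ : ℝ} (hL64 : 64 ≤ L) (hq : q.Ok)
    (hF : PlP L q Z a b) (hσ' : MN.Sg L q Z a b σ) : MainOP q (Real.exp σ) Z := by
  classical
  intro n m Λ pΛ hn ε' hε'
  obtain ⟨w, sw, J₀, lJ, h⟩ := hF (n + m) _ (pΛ.add (PolN.const 1)) fun _ => Nat.le_add_left _ _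
  set K : ℝ := (m + 2) * ((1600 * (n + m : ℕ) + 1) * (2 * 4 ^ m * (m + 1).factorial + 2)) +
    n * 9600 with hK
  set B : ℝ := (m + 2) * ((1600 * (n + m : ℕ) + 2) * b) with hB
  obtain ⟨J₁, lJ₁, hJ₁⟩ := small_eP 1 ((((Pol.const (8 * L)).div_sm sw).pow m).mul
    (Pol.const (Real.exp (n * σ) * Real.exp B))) (Pol.const (K * a)) (Pol.const 0) hε'
  refine ⟨fun X => 8 * sc L (max (J₀ X) (J₁ X)),
    (PolN.const 8).mul ((PolN.const 8).mul ((lJ.max lJ₁).pow L)), fun X r hr x y d hp => ?_⟩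
  replace h := h X
  replace hJ₁ := hJ₁ X
  have hw := sw.1 X
  clear sw lJ lJ₁ pΛ
  simp only [one_mul, zero_div, add_zero] at hJ₁
  beta_reduce at h hr
  generalize Λ X = Λ at *
  generalize w X = w at *
  obtain ⟨J, hJ, hr1, hr2⟩ := exists_scale (L := L) (c := 8) (by omega) (by omega) hr
  obtain ⟨M₀, h⟩ := h J (le_of_max_le_left hJ) r hr1 hr2
  refine ⟨M₀ + 16 * (q.R + 1) + 8 * (Λ * r + 1) + 8 * r, fun M _ hM => ?_⟩
  obtain ⟨N, D⟩ := exists_dat hL64 hq hw hr1 h hn le_rfl d hp M hM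
  obtain ⟨top, ht1, ht2, ht3⟩ := exists_top (geoM M x y d J)
  have h0 : Zw par0 (sec M AA) 1 ≠ 0 := (free_sec (M := M) (by omega)).2.ne'
  have hZ0 : q.Z ≠ 0 := by have := hq.Z_lo; positivity
  have e1 : mix q M x y d = _ := Mn.mix_eq D.nice.ok D.sign D.nice.on hZ0 D.B.conv D.B0.conv
    (fun k => (D.B1 k).conv) D.B.inv D.B0.inv h0 top ht1
  have e2 : mix par0 M x y d = _ := Mn.mix_eq D.nice.ok D.sign D.nice.on (q := par0) one_ne_zero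
    D.B.conv0 D.B0.conv0 (fun k => (D.B1 k).conv0) D.B.inv D.B0.inv h0 top ht1
  have hfl : (univ.filter fun f : Tor M => flux (sec M AA * spinG M 0 x) f = -1).card = n := by
    have : (univ.filter fun f : Tor M => flux (sec M AA * spinG M 0 x) f = -1) =
        univ.image fun i => prj M (x i) := by
      ext f
      have h1 : flux (sec M AA * spinG M 0 x) f = -1 ↔ ∃ i, f = prj M (x i) :=
        (geoM_spec (M := M) hn d J hp (by omega)).2.2.2.2 f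
      rw [mem_filter, h1, mem_image]
      simp [eq_comm]
    rw [this, card_image_of_injective, card_univ, Fintype.card_fin]
    intro i i' hi
    by_contra hne
    have h1 := hp.xx i i' hne
    rw [prj_inj (hp.xle i) (hp.xle i') (by omega) hi] at h1
    simp [zd] at h1
  have h5 : (w * sc L J) ^ m * _ ≤ Real.exp (n * σ) * Real.exp B *
      (Real.exp (K * a / 2 ^ J) - 1) := D.final hfl (Fintype.card_fin m)
    (hσ' _ _ _ _ _ _ _ D) top (ht2 Z) (ht3 1 1 _ D.nice.ok.sign le_rfl one_pos (D.wpos J))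
  have h6 := hJ₁ J (le_of_max_le_right hJ)
  rw [e1, e2, ← Real.exp_nat_mul, mul_left_comm, ← mul_sub, abs_mul, mul_comm]
  refine mul_le_mul_of_nonneg_right ?_ (abs_nonneg _)
  have h8 := eight_le_sc (L := L) (by omega) J
  have hr0 : (0 : ℝ) < r := by exact_mod_cast (by omega : 0 < r)
  rw [le_div_iff₀ (by positivity)]
  refine (mul_le_mul_of_nonneg_left (MN.pow_r hw hr2 m) (abs_nonneg _)).trans (le_trans ?_ h6)
  rw [mul_left_comm, mul_assoc ((8 * L / w) ^ m)]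
  refine mul_le_mul_of_nonneg_left ?_ (pow_nonneg (by positivity) m)
  rw [mul_comm]
  exact h5

end Vale.Agent.P144DA
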