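import Mathlib.Analysis.SpecialFunctions.Pow.Real
import Mathlib.Analysis.SpecialFunctions.Pow.Continuity

/-!
Functions of at most polynomial growth on `[1, ∞)`.
-/

namespace Vale.Agent.P144DA

open Filter Topology

/-- At most polynomial growth on `[1, ∞)`. -/
def Pol (f : ℝ → ℝ) : Prop := ∃ (C : ℝ) (N : ℕ), 1 ≤ C ∧ ∀ X, 1 ≤ X → |f X| ≤ C * X ^ N

namespace Pol

variable {f g : ℝ → ℝ}

theorem const (c : ℝ) : Pol fun _ => c :=
  ⟨1 + |c|, 0, by linarith [abs_nonneg c], fun X _ => by simp⟩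

theorem id' : Pol fun X => X :=
  ⟨1, 1, le_rfl, fun X h => by rw [abs_of_nonneg (by linarith)]; simp⟩

theorem mono (hg : Pol g) (h : ∀ X, 1 ≤ X → |f X| ≤ g X) : Pol f := by
  obtain ⟨C, N, hC, H⟩ := hg
  exact ⟨C, N, hC, fun X hX => (h X hX).trans ((le_abs_self _).trans (H X hX))⟩

theorem mono0 (hg : Pol g) (h : ∀ X, 1 ≤ X → 0 ≤ f X ∧ f X ≤ g X) : Pol f :=
  hg.mono fun X hX => by rw [abs_of_nonneg (h X hX).1]; exact (h X hX).2

theorem abs (hf : Pol f) : Pol fun X => |f X| := by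
  obtain ⟨C, N, hC, H⟩ := hf
  exact ⟨C, N, hC, fun X hX => by rw [abs_abs]; exact H X hX⟩

theorem mul (hf : Pol f) (hg : Pol g) : Pol fun X => f X * g X := by
  obtain ⟨C, N, hC, H⟩ := hf
  obtain ⟨C', N', hC', H'⟩ := hg
  refine ⟨C * C', N + N', by nlinarith, fun X hX => ?_⟩
  rw [abs_mul, pow_add]
  have h0 : 0 ≤ C * X ^ N := by positivity
  calc |f X| * |g X| ≤ (C * X ^ N) * (C' * X ^ N') :=
        mul_le_mul (H X hX) (H' X hX) (abs_nonneg _) h0
    _ = _ := by ring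

theorem add (hf : Pol f) (hg : Pol g) : Pol fun X => f X + g X := by
  obtain ⟨C, N, hC, H⟩ := hf
  obtain ⟨C', N', hC', H'⟩ := hg
  refine ⟨C + C', N + N', by linarith, fun X hX => ?_⟩
  have h1 : X ^ N ≤ X ^ (N + N') := pow_le_pow_right₀ hX (by omega)
  have h2 : X ^ N' ≤ X ^ (N + N') := pow_le_pow_right₀ hX (by omega)
  have h3 := abs_add_le (f X) (g X)
  have h4 := mul_le_mul_of_nonneg_left h1 (by linarith : 0 ≤ C)
  have h5 := mul_le_mul_of_nonneg_left h2 (by linarith : 0 ≤ C')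
  have := H X hX
  have := H' X hX
  linarith

theorem neg (hf : Pol f) : Pol fun X => -f X := by
  obtain ⟨C, N, hC, H⟩ := hf
  exact ⟨C, N, hC, fun X hX => by rw [abs_neg]; exact H X hX⟩

theorem sub (hf : Pol f) (hg : Pol g) : Pol fun X => f X - g X := by
  simpa only [sub_eq_add_neg] using hf.add hg.neg

theorem pow (hf : Pol f) (n : ℕ) : Pol fun X => f X ^ n := by
  induction n with
  | zero => simpa using const 1
  | succ n ih => simpa only [pow_succ] using ih.mul hf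

theorem div_const (hf : Pol f) (c : ℝ) : Pol fun X => f X / c := by
  simpa only [div_eq_mul_inv] using hf.mul (const c⁻¹)

theorem max (hf : Pol f) (hg : Pol g) : Pol fun X => max (f X) (g X) :=
  (hf.abs.add hg.abs).mono fun X _ => by
    rcases le_total (f X) (g X) with h | h
    · rw [max_eq_right h]; linarith [abs_nonneg (f X)]
    · rw [max_eq_left h]; linarith [abs_nonneg (g X)]

theorem comp (hf : Pol f) (hg : Pol g) (h1 : ∀ X, 1 ≤ X → 1 ≤ g X) : Pol fun X => f (g X) := by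
  obtain ⟨C, N, hC, H⟩ := hf
  refine ((const C).mul (hg.pow N)).mono fun X hX => H _ (h1 X hX)

theorem sum {ι : Type*} (s : Finset ι) {F : ι → ℝ → ℝ} (h : ∀ i ∈ s, Pol (F i)) :
    Pol fun X => ∑ i ∈ s, F i X := by
  classical
  induction s using Finset.induction_on with
  | empty => simpa using const 0
  | insert a s ha ih =>
    simp only [Finset.sum_insert ha]
    exact (h a (Finset.mem_insert_self _ _)).add
      (ih fun i hi => h i (Finset.mem_insert_of_mem hi))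

theorem sqrt (hf : Pol f) : Pol fun X => Real.sqrt (f X) :=
  ((const 1).add hf.abs).mono0 fun X _ => ⟨Real.sqrt_nonneg _, by
    rw [Real.sqrt_le_left (by positivity)]
    nlinarith [le_abs_self (f X), abs_nonneg (f X)]⟩

theorem log (hf : Pol f) (h1 : ∀ X, 1 ≤ X → 1 ≤ f X) : Pol fun X => Real.log (f X) :=
  hf.mono0 fun X hX => ⟨Real.log_nonneg (h1 X hX), by
    linarith [Real.log_le_sub_one_of_pos (show 0 < f X by linarith [h1 X hX])]⟩

theorem rpow (hf : Pol f) (h1 : ∀ X, 1 ≤ X → 1 ≤ f X) (t : ℝ) : Pol fun X => f X ^ t :=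
  (hf.pow ⌈t⌉₊).mono0 fun X hX => ⟨Real.rpow_nonneg (by linarith [h1 X hX]) _, by
    rw [← Real.rpow_natCast]
    exact Real.rpow_le_rpow_of_exponent_le (h1 X hX) (Nat.le_ceil t)⟩

theorem ceil (hf : Pol f) : Pol fun X => (⌈f X⌉₊ : ℝ) :=
  (hf.abs.add (const 1)).mono0 fun X _ => ⟨Nat.cast_nonneg _, by
    have h1 : ⌈f X⌉₊ ≤ ⌈|f X|⌉₊ := Nat.ceil_le_ceil (le_abs_self _)
    have h2 := Nat.ceil_lt_add_one (abs_nonneg (f X))
    have h3 : (⌈f X⌉₊ : ℝ) ≤ ⌈|f X|⌉₊ := by exact_mod_cast h1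
    linarith⟩

/-- A monotone majorant that is at least one. -/
theorem maj (hf : Pol f) : ∃ g : ℝ → ℝ, Pol g ∧ (∀ X, 1 ≤ X → 1 ≤ g X ∧ |f X| ≤ g X) ∧
    ∀ X Y, 1 ≤ X → X ≤ Y → g X ≤ g Y := by
  obtain ⟨C, N, hC, H⟩ := hf
  refine ⟨fun X => C * X ^ N, (const C).mul (id'.pow N), fun X hX => ⟨?_, H X hX⟩,
    fun X Y hX hY => ?_⟩
  · nlinarith [one_le_pow₀ (n := N) hX]
  · exact mul_le_mul_of_nonneg_left (pow_le_pow_left₀ (by linarith) hY N) (by linarith)

/-- A small power of the mesh beats a polynomial in a smaller power. -/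
theorem beat (hf : Pol f) {κ : ℝ} (hκ : 0 < κ) : ∃ θ > (0 : ℝ), θ ≤ 1 / 2 ∧ ∀ A ≥ (1 : ℝ),
    ∀ ε > (0 : ℝ), ∀ᶠ a in 𝓝[>] (0 : ℝ), ∀ X, 1 ≤ X → X ≤ A * a ^ (-θ) →
      |f X| * a ^ κ ≤ ε := by
  obtain ⟨C, N, hC, H⟩ := hf
  have hN : (0 : ℝ) < N + 1 := by positivity
  refine ⟨min (1 / 2) (κ / (2 * (N + 1))), lt_min (by norm_num) (by positivity), min_le_left _ _,
    fun A hA ε hε => ?_⟩
  set θ := min (1 / 2 : ℝ) (κ / (2 * (N + 1))) with hθ
  have hθ0 : 0 < θ := lt_min (by norm_num) (by positivity)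
  have hθ1 : θ * N ≤ κ / 2 := by
    have h1 : θ ≤ κ / (2 * (N + 1)) := min_le_right _ _
    rw [le_div_iff₀ (by positivity)] at h1
    nlinarith
  have ht : Tendsto (fun a : ℝ => C * A ^ N * a ^ (κ / 2)) (𝓝[>] 0) (𝓝 (C * A ^ N * 0)) := by
    refine Tendsto.const_mul _ ?_
    have := (Real.continuousAt_rpow_const 0 (κ / 2) (Or.inr (by linarith))).tendsto
    rw [Real.zero_rpow (by linarith)] at this
    exact this.mono_left nhdsWithin_le_nhds
  rw [mul_zero] at ht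
  filter_upwards [ht.eventually (gt_mem_nhds hε), self_mem_nhdsWithin,
    Ioo_mem_nhdsGT (show (0 : ℝ) < 1 by norm_num)] with a h1 h2 h3 X hX hXA
  have ha : 0 < a := h2
  have h4 : X ^ N ≤ A ^ N * a ^ (-(κ / 2)) := by
    calc X ^ N ≤ (A * a ^ (-θ)) ^ N := pow_le_pow_left₀ (by linarith) hXA N
      _ = A ^ N * a ^ (-θ * N) := by rw [mul_pow, ← Real.rpow_natCast (a ^ (-θ)), ← Real.rpow_mul ha.le]
      _ ≤ _ := mul_le_mul_of_nonneg_left
          (Real.rpow_le_rpow_of_exponent_ge ha h3.2.le (by linarith)) (by positivity)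
  have h5 : a ^ (-(κ / 2)) * a ^ κ = a ^ (κ / 2) := by
    rw [← Real.rpow_add ha]; congr 1; ring
  have h6 : 0 < a ^ κ := Real.rpow_pos_of_pos ha _
  calc |f X| * a ^ κ ≤ C * X ^ N * a ^ κ := mul_le_mul_of_nonneg_right (H X hX) h6.le
    _ ≤ C * (A ^ N * a ^ (-(κ / 2))) * a ^ κ :=
        mul_le_mul_of_nonneg_right (mul_le_mul_of_nonneg_left h4 (by linarith)) h6.le
    _ = C * A ^ N * a ^ (κ / 2) := by rw [← h5]; ring
    _ ≤ ε := h1.le

end Pol

end Vale.Agent.P144DA
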