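import Vale.Agent.P144DA.PMain
import Vale.Agent.P144DR.Blk

/-!
Universality with a rate.
-/

namespace Vale.Agent.P144DA

open Finset Filter Topology Vale.Agent.P144 Vale.Agent.P144Z U2D U4 P144DD P144DR

/-- From the estimates on the lattice to the estimates in a domain. -/
theorem udr_lat {J lam β T ρ Zσ Zε : ℝ} {q : Par} {D : Set ℂ} {Raw : Finset Site → ℕ → Prop}
    {b : Option (ℝ → Config)} (hJ : 0 < J) (hq : UL.Rel J lam β q) (hb : StdBC b) (hT : 0 < T)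
    (hρ : 0 < ρ) (h1 : ∀ a > (0 : ℝ), (∀ x, x ∈ disc D a ↔ (⟨a * x.1, a * x.2⟩ : ℂ) ∈ D) ∧
      (∀ x ∈ disc D a, a * zd x 0 ≤ T) ∧ ∀ r : ℕ, 1 ≤ r → a * r ≤ ρ → Raw (disc D a) r)
    (hL : ∀ m, LatP Raw q Zσ Zε m) : UDR D (crit J D b) (inDom J lam q.V β D b) Zσ Zε := by
  intro n m s hs
  obtain ⟨κ, hκ, κ1, κ2, κ3⟩ : ∃ κ > (0 : ℝ), κ ≤ 1 / 4 ∧ 5 * κ ≤ s ∧ κ ≤ ρ :=
    ⟨min (1 / 4) (min (s / 5) ρ), by positivity, min_le_left _ _,
      by linarith [min_le_right (1 / 4) (min (s / 5) ρ), min_le_left (s / 5) ρ],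
      (min_le_right _ _).trans (min_le_right _ _)⟩
  obtain ⟨r₀, pr, hr⟩ := hL m J lam β hJ hq.mu hq.x n ⌈2 * T / ρ⌉₊ (fun X => ⌈2 * ρ / κ * X⌉₊)
    (PolN.ceil (by fun_prop)) _ ((Sm.const one_pos).div
      (g := fun X => (2 * |X| / κ + 1) ^ (n + m) * (|X| + 1)) (by fun_prop) fun X => by positivity)
  obtain ⟨θ, hθ, hθ1, hbeat⟩ := Pol.beat (f := fun X => (r₀ X : ℝ) + 3)
    (Pol.add pr (Pol.const 3)) (κ := 1 / 2) (by norm_num)
  refine ⟨θ, hθ, ?_⟩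
  filter_upwards [hbeat 1 le_rfl (κ / 2) (by positivity),
    Ioo_mem_nhdsGT (show (0 : ℝ) < 1 by norm_num)] with a h2 ⟨ha, ha1⟩ p e1 e2 hp hp'
  subst e1 e2
  obtain ⟨d1, d2, d3⟩ := h1 a ha
  have u0 : 0 < a ^ θ := Real.rpow_pos_of_pos ha θ
  have u1 : a ^ θ ≤ 1 := Real.rpow_le_one ha.le ha1.le hθ.le
  have u2 : a ^ (1 / 2 : ℝ) ≤ a ^ θ := Real.rpow_le_rpow_of_exponent_ge ha ha1.le hθ1
  have u3 : a ^ (1 / 2 : ℝ) * a ^ (1 / 2 : ℝ) = a := by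
    rw [← Real.rpow_add ha]
    norm_num
  have u4 : 0 < a ^ (1 / 2 : ℝ) := Real.rpow_pos_of_pos ha _
  obtain ⟨X, hX, hX1⟩ : ∃ X : ℝ, a ^ θ = X⁻¹ ∧ X = a ^ (-θ) :=
    ⟨_, by rw [Real.rpow_neg ha.le, inv_inv], rfl⟩
  have X0 : 0 < X := inv_pos.1 (hX ▸ u0)
  have X1 : 1 ≤ X := (inv_le_one₀ X0).1 (hX ▸ u1)
  replace h2 := h2 X X1 (by rw [one_mul, hX1])
  rw [abs_of_nonneg (by positivity)] at h2
  rw [hX] at u0 u1 u2 hp' ⊢
  have c0 : 0 < κ * X⁻¹ := by positivity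
  have c1 : κ * X⁻¹ ≤ κ := mul_le_of_le_one_right hκ.le u1
  have c2 : (r₀ X + 3 : ℝ) * (2 * a) ≤ κ * X⁻¹ := by
    have k1 := mul_le_mul_of_nonneg_right h2 u4.le
    have k2 := mul_le_mul_of_nonneg_left u2 hκ.le
    rw [mul_assoc, u3] at k1
    linarith
  have c3 : 5 * a < κ * X⁻¹ := by nlinarith [Nat.cast_nonneg (α := ℝ) (r₀ X)]
  have hP := spinsP ha c3 (by linarith) hp (fun i i' e => le_trans (by nlinarith) (hp' i i' e)) d1
  have fl2 : ∀ c : ℝ, 5 * a < c → c / (2 * a) ≤ ⌊c / a⌋₊ := fun c hc => by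
    have k1 : 5 < c / a := by
      rw [lt_div_iff₀ ha]
      linarith
    have k2 : c / a < ⌊c / a⌋₊ + 1 := Nat.lt_floor_add_one _
    have k3 : c / (2 * a) = c / a / 2 := by field_simp
    linarith
  have hrc := fl2 _ c3
  have hRc := fl2 ρ (by linarith)
  have hrR : ⌊κ * X⁻¹ / a⌋₊ ≤ ⌊ρ / a⌋₊ := Nat.floor_le_floor (by gcongr; linarith)
  have R1 : (⌊ρ / a⌋₊ : ℝ) ≤ ρ / a := Nat.floor_le (by positivity)
  generalize ⌊κ * X⁻¹ / a⌋₊ = r at hrc hP hrR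
  generalize ⌊ρ / a⌋₊ = R at hRc hrR R1
  have hr0 : r₀ X + 3 ≤ r := by
    have : (r₀ X + 3 : ℝ) ≤ r := ((le_div_iff₀ (by positivity)).2 c2).trans hrc
    exact_mod_cast this
  have hRr : R ≤ ⌈2 * ρ / κ * X⌉₊ * r := by
    have : (R : ℝ) ≤ (⌈2 * ρ / κ * X⌉₊ : ℝ) * r := by
      calc (R : ℝ) ≤ ρ / a := R1
        _ = 2 * ρ / κ * X * (κ * X⁻¹ / (2 * a)) := by field_simp
        _ ≤ _ := mul_le_mul (Nat.le_ceil _) hrc (by positivity) (by positivity)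
    exact_mod_cast this
  have hbox : ∀ v ∈ disc D a, zd v 0 ≤ ⌈2 * T / ρ⌉₊ * R := fun v hv => by
    have : (zd v 0 : ℝ) ≤ (⌈2 * T / ρ⌉₊ : ℝ) * R := by
      calc (zd v 0 : ℝ) ≤ T / a := by
            rw [le_div_iff₀' ha]
            exact d2 v hv
        _ = 2 * T / ρ * (ρ / (2 * a)) := by field_simp
        _ ≤ _ := mul_le_mul (Nat.le_ceil _) hRc (by positivity) (by positivity)
    exact_mod_cast this
  have key := fun b hb => hr X r (by omega) R hrR hRr (disc D a) b _ _ p.j hb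
    (d3 R (by omega) ((le_div_iff₀' ha).1 R1)) hbox hP
  beta_reduce at key
  have k3 := scale_le hκ (by linarith) X1 p.n p.m
  have K0 : 0 < (2 * |X| / κ + 1) ^ (p.n + p.m) := by positivity
  generalize (2 * |X| / κ + 1) ^ (p.n + p.m) = K at key k3 K0
  have k1 : |lcor (inDom J lam q.V β D b a) (fun i => fl a (p.x i)) (fun k => fl a (p.y k)) p.j -
      Zσ ^ p.n * Zε ^ p.m * lcor (crit J D b a) (fun i => fl a (p.x i)) (fun k => fl a (p.y k))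
        p.j| ≤ 1 / (K * (|X| + 1)) * (r : ℝ) ^ (-((p.n : ℝ) / 8)) / (r : ℝ) ^ p.m := by
    rcases hb with rfl | rfl | rfl
    · exact key none (Or.inl rfl)
    · exact key _ (Or.inr rfl)
    · have k2 := key _ (Or.inr rfl)
      have e1 := lcor_not (J := J) (lam := lam) (β := β) hq.pot (disc D a) (fun _ => true)
        (fun i => fl a (p.x i)) (fun k => fl a (p.y k)) p.j
      have e2 := lcor_not (J := J) (lam := 0) (β := Kc / J) U1.pot_zero (disc D a) (fun _ => true)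
        (fun i => fl a (p.x i)) (fun k => fl a (p.y k)) p.j
      change |lcor (gibbs J lam q.V β (some fun _ => !true) (disc D a)) _ _ _ - Zσ ^ p.n *
        Zε ^ p.m * lcor (gibbs J 0 (fun _ => 0) (Kc / J) (some fun _ => !true) (disc D a)) _ _ _| ≤ _
      rw [e1, e2, mul_left_comm, ← mul_sub, abs_mul, abs_pow, abs_neg, abs_one, one_pow, one_mul]
      exact k2
  have k2 := (U4.scale ha c0 hrc p.n p.m).trans k3
  unfold crit inDom at *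
  rw [corr_eq, corr_eq, mul_left_comm, ← mul_sub, abs_mul, abs_of_nonneg (by positivity)]
  refine (mul_le_mul_of_nonneg_left k1 (by positivity)).trans ?_
  rw [neg_div] at k2
  calc _ = 1 / (K * (|X| + 1)) * ((a ^ (-(1 / 8) : ℝ)) ^ p.n * a⁻¹ ^ p.m / r ^ p.m *
        (r : ℝ) ^ (-((p.n : ℝ) / 8))) := by ring
    _ ≤ 1 / (K * (|X| + 1)) * K := mul_le_mul_of_nonneg_left k2 (by positivity)
    _ = (|X| + 1)⁻¹ := by field_simp
    _ ≤ X⁻¹ := inv_anti₀ X0 (by linarith [le_abs_self X])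

/-- Block A2. -/
theorem blkA2 : BlkA2 := by
  obtain ⟨ε₀, hε₀, h⟩ := genP
  refine ⟨ε₀, hε₀, fun ε hε hε' => ?_⟩
  obtain ⟨L₀, h⟩ := h ε hε hε'
  refine ⟨max L₀ 2, fun L hL => ?_⟩
  obtain ⟨kf, h0, η, hη, h⟩ := h L (le_of_max_le_left hL)
  refine ⟨η, hη, fun R => ?_⟩
  obtain ⟨δ, hδ, h⟩ := h R
  refine ⟨min δ 1, by positivity,
    fun q hR hq J lam β hJ hr D b ⟨N, k₀, Raw, hG, T, hT, ρ, hρ, h1⟩ hb => ?_⟩
  exact udr_lat hJ hr hb hT hρ h1 fun m => latP kStmtP holesW spStmt (le_of_max_le_right hL) hq.ok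
    (hq.mono le_rfl (min_le_right _ _)).small
    (h q hR (hq.mono le_rfl (min_le_left _ _)) m N _ (le_max_right k₀ _))
    (h0 m N _ (le_max_right k₀ _)) (hG _ (le_max_left _ _))

theorem estUR {J lam β Zσ Zε : ℝ} {q : Par} (hJ : 0 < J) (h : U4.Rel J lam β q)
    (h0 : U4.Rel J 0 (Kc / J) par0) (hM : MainOP q Zσ Zε) {n : ℕ} (hn : Even n) (m : ℕ) {s₀ : ℝ}
    (hs₀ : 0 < s₀) : ∃ θ > (0 : ℝ),
    ∀ᶠ a in 𝓝[>] (0 : ℝ), ∀ p : Pts, p.n = n → p.m = m → Ins Set.univ s₀ p →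
      P144DD.Sep (a ^ θ) p → ∀ᶠ M in atTop, |corr a (gibbsT J lam q.V β M) p -
        Zσ ^ p.n * Zε ^ p.m * corr a (gibbsT J 0 (fun _ => 0) (Kc / J) M) p| ≤ a ^ θ := by
  obtain ⟨C, hC, hup⟩ := Z0.gibbsT_upper hJ n
  obtain ⟨κ, hκ, κ1⟩ : ∃ κ > (0 : ℝ), κ = 1 / 4 := ⟨_, by norm_num, rfl⟩
  obtain ⟨r₀, pr, hr⟩ := hM n m (fun X => ⌈2 * (s₀⁻¹ + 2) / κ * X⌉₊) (PolN.ceil (by fun_prop)) hn _
    (((Sm.const one_pos).div (g := fun X => |X| + 1) (by fun_prop) fun X => by positivity).div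
      (g := fun X => 2 * (C * (2 * |X| / κ + 1) ^ (n + m) + 1)) (by fun_prop)
        fun X => by positivity)
  obtain ⟨θ, hθ, hθ1, hbeat⟩ := Pol.beat (f := fun X => (r₀ X : ℝ) + 3)
    (Pol.add pr (Pol.const 3)) (κ := 1 / 2) (by norm_num)
  refine ⟨θ, hθ, ?_⟩
  filter_upwards [hbeat 1 le_rfl (κ / 2) (by positivity),
    Ioo_mem_nhdsGT (show (0 : ℝ) < 1 by norm_num)] with a h2 ⟨ha0', ha1⟩ p e1 e2 hp hp'
  subst e1 e2
  obtain ⟨ε₀, h4, h3⟩ : ∃ ε₀, a ^ θ = ε₀ ∧ a ^ θ ≤ ε₀ := ⟨_, rfl, le_rfl⟩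
  conv => enter [1, M]; rw [h4]
  have u0 : 0 < a ^ θ := Real.rpow_pos_of_pos ha0' θ
  have u1 : a ^ θ ≤ 1 := Real.rpow_le_one ha0'.le ha1.le hθ.le
  have u2 : a ^ (1 / 2 : ℝ) ≤ a ^ θ := Real.rpow_le_rpow_of_exponent_ge ha0' ha1.le hθ1
  have u3 : a ^ (1 / 2 : ℝ) * a ^ (1 / 2 : ℝ) = a := by
    rw [← Real.rpow_add ha0']
    norm_num
  have u4 : 0 < a ^ (1 / 2 : ℝ) := Real.rpow_pos_of_pos ha0' _
  obtain ⟨X, hX, hX1⟩ : ∃ X : ℝ, a ^ θ = X⁻¹ ∧ X = a ^ (-θ) :=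
    ⟨_, by rw [Real.rpow_neg ha0'.le, inv_inv], rfl⟩
  have X0 : 0 < X := inv_pos.1 (hX ▸ u0)
  have X1 : 1 ≤ X := (inv_le_one₀ X0).1 (hX ▸ u1)
  replace h2 := h2 X X1 (by rw [one_mul, hX1])
  rw [abs_of_nonneg (by positivity)] at h2
  rw [hX] at u0 u1 u2 h3 hp'
  have hc : 0 < κ * X⁻¹ := by positivity
  have c2 : (r₀ X + 3 : ℝ) * (2 * a) ≤ κ * X⁻¹ := by
    have k1 := mul_le_mul_of_nonneg_right h2 u4.le
    have k2 := mul_le_mul_of_nonneg_left u2 hκ.le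
    rw [mul_assoc, u3] at k1
    linarith
  have c3 : 5 * a < κ * X⁻¹ := by nlinarith [Nat.cast_nonneg (α := ℝ) (r₀ X)]
  have hP := posP hs₀ ha0' ha1 c3 hp fun i i' e => le_trans (by rw [κ1]; linarith) (hp' i i' e)
  rw [show 2 * (s₀⁻¹ + 2) / (κ * X⁻¹) = 2 * (s₀⁻¹ + 2) / κ * X by field_simp] at hP
  obtain ⟨hr2, hrc, -⟩ := sepP le_rfl ha0' ha1 c3
  have k0 := scale_le hκ (by linarith) X1 p.n p.m
  replace hr := hr X
  beta_reduce at hr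
  have hK0 : 0 ≤ (2 * |X| / κ + 1) ^ (p.n + p.m) := by positivity
  generalize (2 * |X| / κ + 1) ^ (p.n + p.m) = K at hr k0 hK0
  obtain ⟨ε, hε, he, he'⟩ : ∃ ε > (0 : ℝ), 1 / (|X| + 1) = ε ∧ ε ≤ ε₀ := ⟨_, by positivity, rfl,
    le_trans (by rw [one_div]; exact inv_anti₀ X0 (by linarith [le_abs_self X])) h3⟩
  rw [he] at hr
  set ε' := ε / (2 * (C * K + 1)) with hε'
  have hε0 : 0 < ε' := by positivity
  generalize ⌊κ * X⁻¹ / a⌋₊ = r at hr2 hrc hP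
  have hr0 : r₀ X ≤ r := by
    have : (r₀ X + 3 : ℝ) ≤ r := ((le_div_iff₀ (by positivity)).2 c2).trans hrc
    have : r₀ X + 3 ≤ r := by exact_mod_cast this
    omega
  have hrp : (0 : ℝ) < r := by exact_mod_cast (by omega : 0 < r)
  obtain ⟨M₀, hM₀⟩ := hr r hr0 _ _ (ds a p) hP
  have hinj : Function.Injective (xs a p) := by
    intro i i' e
    by_contra hne
    have := hP.xx i i' hne
    rw [e] at this
    simp [zd] at this
  have hb := hup (univ.image (xs a p)) r (by rw [card_image_of_injective _ hinj]; simp) hr2 (by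
    intro u hu v hv huv
    obtain ⟨i, -, rfl⟩ := mem_image.1 hu
    obtain ⟨i', -, rfl⟩ := mem_image.1 hv
    have := hP.xx i i' fun e => huv (by rw [e])
    unfold zd at this
    rw [Int.abs_eq_natAbs, Int.abs_eq_natAbs]
    omega) par0.V
  set s := (a ^ (-(1 / 8) : ℝ)) ^ p.n * a⁻¹ ^ p.m with hs
  have hs0 : 0 ≤ s := by positivity
  have t1 := (h.corr a hn).abs
  have t2 := ((h0.corr a hn).const_mul (Zσ ^ p.n * Zε ^ p.m)).abs
  have t3 := (h0.spins hn hinj).abs.const_mul (s * (ε' / r ^ p.m))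
  have t4 := ((t1.add t2).add t3).eventually (ge_mem_nhds (show _ < ε / 2 by simpa using hε))
  filter_upwards [hb, t4, eventually_ge_atTop M₀] with M hb t4 hM
  have hm := hM₀ (M + 1) (by omega)
  have k1 : s * (ε' / r ^ p.m) * (C * (r : ℝ) ^ (-(p.n : ℝ) / 8)) ≤ ε / 2 := by
    have := (U4.scale ha0' hc hrc p.n p.m).trans k0
    calc _ = ε' * (C * (s / r ^ p.m * (r : ℝ) ^ (-(p.n : ℝ) / 8))) := by ring
      _ ≤ ε' * (C * K + 1) := by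
          gcongr
          nlinarith
      _ = ε / 2 := by
          rw [hε']
          field_simp
  rw [← hs] at t4
  change |corr a (gibbsT J lam q.V β M) p -
    Zσ ^ p.n * Zε ^ p.m * corr a (gibbsT J 0 par0.V (Kc / J) M) p| ≤ ε₀
  generalize corr a (gibbsT J lam q.V β M) p = A at *
  generalize corr a (gibbsT J 0 par0.V (Kc / J) M) p = A₀ at *
  generalize mix q (M + 1) (xs a p) (ys a p) (ds a p) = B at *
  generalize mix par0 (M + 1) (xs a p) (ys a p) (ds a p) = B₀ at *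
  generalize Zw par0 (sec (M + 1) AA * spinG (M + 1) 0 (xs a p)) 1 /
    Zw par0 (sec (M + 1) AA) 1 = W at *
  generalize (gibbsT J 0 par0.V (Kc / J) M fun σ =>
    ∏ u ∈ univ.image (xs a p), sp (σ u)) = G at *
  generalize Zσ ^ p.n * Zε ^ p.m = Z at *
  have k2 : |W| ≤ |W - G| + C * (r : ℝ) ^ (-(p.n : ℝ) / 8) := by
    have := abs_add_le (W - G) G
    rw [sub_add_cancel] at this
    linarith
  have k3 : |s * (B - Z * B₀)| ≤ s * (ε' / r ^ p.m) * |W - G| + ε / 2 := by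
    rw [abs_mul, abs_of_nonneg hs0]
    calc _ ≤ s * (ε' / r ^ p.m * (|W - G| + C * (r : ℝ) ^ (-(p.n : ℝ) / 8))) := by
          refine mul_le_mul_of_nonneg_left (hm.trans ?_) hs0
          gcongr
      _ ≤ _ := by linarith
  have e : A - Z * A₀ = (A - s * B) - Z * (A₀ - s * B₀) + s * (B - Z * B₀) := by ring
  rw [e]
  have k4 := abs_add_le ((A - s * B) - Z * (A₀ - s * B₀)) (s * (B - Z * B₀))
  have k5 := abs_sub (A - s * B) (Z * (A₀ - s * B₀))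
  linarith

/-- The estimate in the plane. -/
theorem udr_plane {J lam β Zσ Zε : ℝ} {q : Par} (hJ : 0 < J) (h : U4.Rel J lam β q)
    (h0 : U4.Rel J 0 (Kc / J) par0) (hM : MainOP q Zσ Zε) {μ : MeasureTheory.Measure Config}
    (hμ : IsTorusState J lam q.V β μ) {E₀ : Fam} (hE : PlaneFam J 0 (fun _ => 0) (Kc / J) E₀) :
    UDR Set.univ E₀ (famOf μ) Zσ Zε := by
  intro n m s hs
  obtain ⟨θ, hθ, h3⟩ : ∃ θ > (0 : ℝ), ∀ᶠ a in 𝓝[>] (0 : ℝ), ∀ p : Pts, p.n = n →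
      p.m = m → Ins Set.univ s p → P144DD.Sep (a ^ θ) p →
      ∀ᶠ M in atTop, |corr a (gibbsT J lam q.V β M) p -
        Zσ ^ p.n * Zε ^ p.m * corr a (gibbsT J 0 (fun _ => 0) (Kc / J) M) p| ≤ a ^ θ := by
    rcases Nat.even_or_odd n with hn | hn
    · exact estUR hJ h h0 hM hn m hs
    · refine ⟨1, one_pos, eventually_mem_nhdsWithin.mono fun a ha p e _ _ _ =>
        Eventually.of_forall fun M => ?_⟩
      rw [U1.corr_odd h.pot J lam β M a (e ▸ hn), U1.corr_odd U1.pot_zero J 0 _ M a (e ▸ hn)]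
      simpa using le_of_lt ha
  refine ⟨θ, hθ, ?_⟩
  filter_upwards [h3, self_mem_nhdsWithin] with a ha ha0 p e1 e2 hp hp'
  exact le_of_tendsto ((U1.state_corr hμ a p).sub
    ((U1.zero_corr hJ hE ha0 p).const_mul (Zσ ^ p.n * Zε ^ p.m))).abs (ha p e1 e2 hp hp')

/-- Block P2. -/
theorem blkP2 : BlkP2 := by
  obtain ⟨L₁, h⟩ := mainOP_ev
  obtain ⟨L₂, hS⟩ := stateStmt
  refine ⟨max L₁ L₂, fun L hL => ?_⟩
  obtain ⟨η, hη, h⟩ := h L (le_of_max_le_left hL)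
  obtain ⟨η', hη', hS⟩ := hS L (le_of_max_le_right hL)
  obtain ⟨δ', hδ', hS⟩ := hS 0
  refine ⟨η, hη, fun R => ?_⟩
  obtain ⟨δ, hδ, h⟩ := h R
  exact ⟨δ, hδ, fun q hR hq J lam β hJ hr μ hμ E₀ hE => udr_plane hJ hr
    (U4.rel_zero hJ (hS par0 rfl (crit_par0 L η' δ' hη'.le hδ'.le))) (h q hR hq) hμ hE⟩

end Vale.Agent.P144DA
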